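import Mathlib

/-!
# P193 algebra half: top-rewriting operators on a tuple of stacks

`Ops.Rel` lists the relations of pushes, pops, bottom tests and state units on a family of stacks
inside a corner `one` of a ring.  A monomial replaces known top parts of the stacks; monomials are
closed under left multiplication by the operators.
-/

namespace Vale.Agent.P193.Bh.Alg

/-- Operators of the stacks indexed by `I` and the states `Q` inside a ring. -/
structure Ops (A : Type) (Q : Type) (I : Type) (Al : I → Type) where
  one : A
  push : ∀ i, Al i → A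
  pop : ∀ i, Al i → A
  bot : I → A
  st : Q → Q → A

/-- What is known of one stack, and its replacement: `src` is replaced by `tgt`, and `exact` says
that `src` is the whole stack. -/
structure Blk (α : Type) where
  src : List α
  tgt : List α
  exact : Bool

set_option linter.unusedSectionVars false

namespace Ops

variable {A Q I : Type} {Al : I → Type} [Ring A] [Fintype I] [DecidableEq I]
  [∀ i, Fintype (Al i)] [∀ i, DecidableEq (Al i)] [Fintype Q] [DecidableEq Q]

/-- The relations. -/
structure Rel (o : Ops A Q I Al) : Prop where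
  one_idem : o.one * o.one = o.one
  push_corner : ∀ i x, o.one * o.push i x = o.push i x ∧ o.push i x * o.one = o.push i x
  pop_corner : ∀ i x, o.one * o.pop i x = o.pop i x ∧ o.pop i x * o.one = o.pop i x
  bot_corner : ∀ i, o.one * o.bot i = o.bot i ∧ o.bot i * o.one = o.bot i
  st_corner : ∀ q q', o.one * o.st q q' = o.st q q' ∧ o.st q q' * o.one = o.st q q'
  pop_push : ∀ i x, o.pop i x * o.push i x = o.one
  pop_push_ne : ∀ i x y, x ≠ y → o.pop i x * o.push i y = 0
  bot_idem : ∀ i, o.bot i * o.bot i = o.bot i
  bot_push : ∀ i x, o.bot i * o.push i x = 0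
  pop_bot : ∀ i x, o.pop i x * o.bot i = 0
  split : ∀ i, o.bot i + ∑ x, o.push i x * o.pop i x = o.one
  st_mul : ∀ q q' r r', o.st q q' * o.st r r' = if q' = r then o.st q r' else 0
  st_sum : ∑ q, o.st q q = o.one
  comm : ∀ i j, i ≠ j →
    (∀ x y, Commute (o.push i x) (o.push j y)) ∧ (∀ x y, Commute (o.push i x) (o.pop j y)) ∧
    (∀ x y, Commute (o.pop i x) (o.pop j y)) ∧ (∀ x, Commute (o.push i x) (o.bot j)) ∧
    (∀ x, Commute (o.pop i x) (o.bot j)) ∧ Commute (o.bot i) (o.bot j)
  st_comm : ∀ q q' i,
    (∀ x, Commute (o.st q q') (o.push i x)) ∧ (∀ x, Commute (o.st q q') (o.pop i x)) ∧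
    Commute (o.st q q') (o.bot i)

variable (o : Ops A Q I Al)

/-- Pushing a segment whose first letter ends on top. -/
def pushW (i : I) (u : List (Al i)) : A :=
  u.foldr (fun x a => o.push i x * a) o.one

/-- Popping a segment from the top. -/
def popW (i : I) (v : List (Al i)) : A :=
  v.foldl (fun a x => o.pop i x * a) o.one

/-- The bottom test, or nothing. -/
def mid (i : I) (e : Bool) : A :=
  if e then o.bot i else o.one

/-- The operator of one block. -/
def blk (i : I) (b : Blk (Al i)) : A :=
  o.pushW i b.tgt * o.mid i b.exact * o.popW i b.src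

/-- The product of the blocks along a list of indices. -/
def blkProd (l : List I) (b : ∀ i, Blk (Al i)) : A :=
  l.foldr (fun i a => o.blk i (b i) * a) o.one

/-- A monomial: states and one block on every stack. -/
noncomputable def mono (q' q : Q) (b : ∀ i, Blk (Al i)) : A :=
  o.st q' q * o.blkProd Finset.univ.toList b

variable {o} (h : o.Rel)
include h

lemma one_pushW (i : I) (u : List (Al i)) : o.one * o.pushW i u = o.pushW i u := by
  cases u with
  | nil => exact h.one_idem
  | cons x u => simp only [pushW, List.foldr_cons, ← mul_assoc, (h.push_corner i x).1]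

lemma pushW_one (i : I) (u : List (Al i)) : o.pushW i u * o.one = o.pushW i u := by
  induction u with
  | nil => exact h.one_idem
  | cons x u ih =>
    have : o.pushW i (x :: u) = o.push i x * o.pushW i u := rfl
    rw [this, mul_assoc, ih]

omit h in
lemma pushW_cons (i : I) (x : Al i) (u : List (Al i)) :
    o.pushW i (x :: u) = o.push i x * o.pushW i u := rfl

omit h in
lemma popW_concat (i : I) (v : List (Al i)) (x : Al i) :
    o.popW i (v ++ [x]) = o.pop i x * o.popW i v := by
  simp [popW, List.foldl_append]

lemma one_popW (i : I) (v : List (Al i)) : o.one * o.popW i v = o.popW i v := by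
  induction v using List.reverseRecOn with
  | nil => exact h.one_idem
  | append_singleton v x _ => rw [popW_concat, ← mul_assoc, (h.pop_corner i x).1]

lemma popW_one (i : I) (v : List (Al i)) : o.popW i v * o.one = o.popW i v := by
  induction v using List.reverseRecOn with
  | nil => exact h.one_idem
  | append_singleton v x ih => rw [popW_concat, mul_assoc, ih]

lemma one_mid (i : I) (e : Bool) : o.one * o.mid i e = o.mid i e := by
  cases e
  · exact h.one_idem
  · exact (h.bot_corner i).1

lemma mid_one (i : I) (e : Bool) : o.mid i e * o.one = o.mid i e := by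
  cases e
  · exact h.one_idem
  · exact (h.bot_corner i).2

lemma one_blk (i : I) (b : Blk (Al i)) : o.one * o.blk i b = o.blk i b := by
  simp only [blk, ← mul_assoc, one_pushW h]

lemma blk_one (i : I) (b : Blk (Al i)) : o.blk i b * o.one = o.blk i b := by
  simp only [blk, mul_assoc, popW_one h]

lemma commute_one {a : A} (h1 : o.one * a = a) (h2 : a * o.one = a) : Commute a o.one :=
  h2.trans h1.symm

/-- An element of the corner commuting with the operators of the stack `j` commutes with its
blocks. -/
lemma commute_blk {a : A} {j : I} (h1 : Commute a o.one) (hp : ∀ y, Commute a (o.push j y))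
    (hq : ∀ y, Commute a (o.pop j y)) (hb : Commute a (o.bot j)) (b : Blk (Al j)) :
    Commute a (o.blk j b) := by
  have hu : Commute a (o.pushW j b.tgt) := by
    induction b.tgt with
    | nil => exact h1
    | cons x u ih => exact (hp x).mul_right ih
  have hv : Commute a (o.popW j b.src) := by
    induction b.src using List.reverseRecOn with
    | nil => exact h1
    | append_singleton v x ih => rw [popW_concat]; exact (hq x).mul_right ih
  have hm : Commute a (o.mid j b.exact) := by
    cases b.exact
    · exact h1
    · exact hb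
  exact (hu.mul_right hm).mul_right hv

/-- Acting on the stack `i` changes only the block `i`. -/
lemma mul_blkProd {a : A} {i : I} {b : ∀ j, Blk (Al j)} {c : Blk (Al i)}
    (hc : a * o.blk i (b i) = o.blk i c)
    (ha : ∀ j, j ≠ i → Commute a (o.blk j (b j))) :
    ∀ l : List I, l.Nodup → i ∈ l →
      a * o.blkProd l b = o.blkProd l (Function.update b i c)
  | [], _, hi => absurd hi List.not_mem_nil
  | j :: l, hl, hi => by
    have hl' := List.nodup_cons.1 hl
    simp only [blkProd, List.foldr_cons]
    by_cases hji : j = i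
    · subst hji
      rw [← mul_assoc, hc, Function.update_self]
      congr 1
      clear hl hi
      have hj := hl'.1
      clear hl'
      induction l with
      | nil => rfl
      | cons k l ih =>
        simp only [List.mem_cons, not_or] at hj
        simp only [List.foldr_cons, Function.update_of_ne (Ne.symm hj.1), ih hj.2]
    · rw [← mul_assoc, (ha j hji).eq, mul_assoc, Function.update_of_ne hji]
      congr 1
      exact mul_blkProd hc ha l hl'.2 ((List.mem_cons.1 hi).resolve_left (Ne.symm hji))

lemma one_blkProd (l : List I) (b : ∀ j, Blk (Al j)) : o.one * o.blkProd l b = o.blkProd l b := by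
  cases l with
  | nil => exact h.one_idem
  | cons j l => simp only [blkProd, List.foldr_cons, ← mul_assoc, one_blk h]

lemma commute_st_blk (q q' : Q) (i : I) (b : Blk (Al i)) : Commute (o.st q q') (o.blk i b) :=
  commute_blk h (commute_one h (h.st_corner q q').1 (h.st_corner q q').2) (h.st_comm q q' i).1
    (h.st_comm q q' i).2.1 (h.st_comm q q' i).2.2 b

lemma st_mono (r r' q' q : Q) (b : ∀ i, Blk (Al i)) :
    o.st r r' * o.mono q' q b = if r' = q' then o.mono r q b else 0 := by
  rw [mono, ← mul_assoc, h.st_mul]
  split <;> simp [mono]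

/-- Acting on the stack `i` changes only the block `i` of a monomial. -/
lemma mul_mono {a : A} {i : I} {q' q : Q} {b : ∀ j, Blk (Al j)} {c : Blk (Al i)}
    (hs : Commute a (o.st q' q)) (hc : a * o.blk i (b i) = o.blk i c)
    (ha : ∀ j, j ≠ i → Commute a (o.blk j (b j))) :
    a * o.mono q' q b = o.mono q' q (Function.update b i c) := by
  rw [mono, mono, ← mul_assoc, hs.eq, mul_assoc,
    mul_blkProd h hc ha _ (Finset.nodup_toList _) (Finset.mem_toList.2 (Finset.mem_univ i))]

lemma push_blk (i : I) (x : Al i) (b : Blk (Al i)) :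
    o.push i x * o.blk i b = o.blk i ⟨b.src, x :: b.tgt, b.exact⟩ := by
  simp only [blk, pushW_cons, mul_assoc]

lemma push_mono (i : I) (x : Al i) (q' q : Q) (b : ∀ j, Blk (Al j)) :
    o.push i x * o.mono q' q b =
      o.mono q' q (Function.update b i ⟨(b i).src, x :: (b i).tgt, (b i).exact⟩) :=
  mul_mono h ((h.st_comm q' q i).1 x).symm (push_blk h i x (b i)) fun j hj =>
    commute_blk h (commute_one h (h.push_corner i x).1 (h.push_corner i x).2)
      ((h.comm i j (Ne.symm hj)).1 x) ((h.comm i j (Ne.symm hj)).2.1 x)
      ((h.comm i j (Ne.symm hj)).2.2.2.1 x) _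

lemma commute_pop_blk (i : I) (x : Al i) {j : I} (hj : j ≠ i) (b : Blk (Al j)) :
    Commute (o.pop i x) (o.blk j b) :=
  commute_blk h (commute_one h (h.pop_corner i x).1 (h.pop_corner i x).2)
    (fun y => ((h.comm j i hj).2.1 y x).symm) ((h.comm i j (Ne.symm hj)).2.2.1 x)
    ((h.comm i j (Ne.symm hj)).2.2.2.2.1 x) b

/-- A zero factor kills the monomial. -/
lemma mul_mono_zero {a : A} {i : I} {q' q : Q} {b : ∀ j, Blk (Al j)}
    (hs : Commute a (o.st q' q)) (hc : a * o.blk i (b i) = 0)
    (ha : ∀ j, j ≠ i → Commute a (o.blk j (b j))) :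
    a * o.mono q' q b = 0 := by
  have : ∀ l : List I, i ∈ l → a * o.blkProd l b = 0 := by
    intro l
    induction l with
    | nil => exact fun hi => absurd hi List.not_mem_nil
    | cons j l ih =>
      intro hi
      simp only [blkProd, List.foldr_cons, ← mul_assoc]
      by_cases hji : j = i
      · subst hji; rw [hc, zero_mul]
      · rw [(ha j hji).eq, mul_assoc]
        exact (congrArg _ (ih ((List.mem_cons.1 hi).resolve_left (Ne.symm hji)))).trans (mul_zero _)
  rw [mono, ← mul_assoc, hs.eq, mul_assoc, this _ (Finset.mem_toList.2 (Finset.mem_univ i)),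
    mul_zero]

lemma pop_blk_cons (i : I) (x y : Al i) (v u : List (Al i)) (e : Bool) :
    o.pop i x * o.blk i ⟨v, y :: u, e⟩ = if x = y then o.blk i ⟨v, u, e⟩ else 0 := by
  simp only [blk, pushW_cons, ← mul_assoc]
  split
  · next hxy => subst hxy; rw [h.pop_push, one_pushW h]
  · next hxy => simp [h.pop_push_ne i x y hxy]

lemma pop_blk_nil (i : I) (x : Al i) (v : List (Al i)) :
    o.pop i x * o.blk i ⟨v, [], false⟩ = o.blk i ⟨v ++ [x], [], false⟩ := by
  simp only [blk, pushW, mid, List.foldr_nil, Bool.false_eq_true, if_false, h.one_idem,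
    one_popW h, popW_concat]
  rw [← mul_assoc, (h.pop_corner i x).1]

lemma pop_blk_exact (i : I) (x : Al i) (v : List (Al i)) :
    o.pop i x * o.blk i ⟨v, [], true⟩ = 0 := by
  simp [blk, pushW, mid, ← mul_assoc, (h.pop_corner i x).2, h.pop_bot]

lemma bot_blk_cons (i : I) (y : Al i) (v u : List (Al i)) (e : Bool) :
    o.bot i * o.blk i ⟨v, y :: u, e⟩ = 0 := by
  simp [blk, pushW_cons, ← mul_assoc, h.bot_push]

lemma bot_blk_nil (i : I) (v : List (Al i)) (e : Bool) :
    o.bot i * o.blk i ⟨v, [], e⟩ = o.blk i ⟨v, [], true⟩ := by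
  simp only [blk, pushW, List.foldr_nil, ← mul_assoc, (h.bot_corner i).2]
  cases e <;> simp [mid, (h.bot_corner i).1, (h.bot_corner i).2, h.bot_idem]

lemma commute_bot_blk (i : I) {j : I} (hj : j ≠ i) (b : Blk (Al j)) :
    Commute (o.bot i) (o.blk j b) :=
  commute_blk h (commute_one h (h.bot_corner i).1 (h.bot_corner i).2)
    (fun y => ((h.comm j i hj).2.2.2.1 y).symm) (fun y => ((h.comm j i hj).2.2.2.2.1 y).symm)
    (h.comm i j (Ne.symm hj)).2.2.2.2.2 b

/-- Popping a monomial gives a monomial or zero. -/
lemma pop_mono (i : I) (x : Al i) (q' q : Q) (b : ∀ j, Blk (Al j)) :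
    o.pop i x * o.mono q' q b = 0 ∨
      ∃ c, o.pop i x * o.mono q' q b = o.mono q' q (Function.update b i c) := by
  rcases hb : b i with ⟨v, u, e⟩
  have hs := ((h.st_comm q' q i).2.1 x).symm
  have ha := fun j hj => commute_pop_blk h i x hj (b j)
  cases u with
  | nil =>
    cases e with
    | false => exact Or.inr ⟨_, mul_mono h hs (by rw [hb, pop_blk_nil h]) ha⟩
    | true => exact Or.inl (mul_mono_zero h hs (by rw [hb, pop_blk_exact h]) ha)
  | cons y u =>
    by_cases hxy : x = y
    · exact Or.inr ⟨_, mul_mono h hs (by rw [hb, pop_blk_cons h, if_pos hxy]) ha⟩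
    · exact Or.inl (mul_mono_zero h hs (by rw [hb, pop_blk_cons h, if_neg hxy]) ha)

/-- Testing a bottom gives a monomial or zero. -/
lemma bot_mono (i : I) (q' q : Q) (b : ∀ j, Blk (Al j)) :
    o.bot i * o.mono q' q b = 0 ∨
      ∃ c, o.bot i * o.mono q' q b = o.mono q' q (Function.update b i c) := by
  rcases hb : b i with ⟨v, u, e⟩
  have hs := ((h.st_comm q' q i).2.2).symm
  have ha := fun j hj => commute_bot_blk h i hj (b j)
  cases u with
  | nil => exact Or.inr ⟨_, mul_mono h hs (by rw [hb, bot_blk_nil h]) ha⟩
  | cons y u => exact Or.inl (mul_mono_zero h hs (by rw [hb, bot_blk_cons h]) ha)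

/-- An unknown bottom is empty or has a top letter. -/
lemma blk_split (i : I) (v u : List (Al i)) :
    o.blk i ⟨v, u, false⟩ =
      o.blk i ⟨v, u, true⟩ + ∑ x, o.blk i ⟨v ++ [x], u ++ [x], false⟩ := by
  have hu : ∀ (x : Al i) (u : List (Al i)), o.pushW i (u ++ [x]) = o.pushW i u * o.push i x := by
    intro x u
    induction u with
    | nil => simp [pushW, (h.push_corner i x).1, (h.push_corner i x).2]
    | cons y u ih => rw [List.cons_append, pushW_cons, pushW_cons, ih, mul_assoc]
  calc o.blk i ⟨v, u, false⟩ = o.pushW i u * o.one * o.popW i v := by simp [blk, mid]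
    _ = o.pushW i u * (o.bot i + ∑ x, o.push i x * o.pop i x) * o.popW i v := by rw [h.split]
    _ = _ := by
      simp only [mul_add, add_mul, Finset.mul_sum, Finset.sum_mul, blk, mid, if_true,
        Bool.false_eq_true, if_false]
      congr 1
      refine Finset.sum_congr rfl fun x _ => ?_
      rw [popW_concat, hu]
      simp only [mul_assoc]
      rw [← mul_assoc o.one, (h.pop_corner i x).1]

end Ops

end Vale.Agent.P193.Bh.Alg
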