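import Mathlib
import Vale.Agent.P193.Machine.Flat

/-!
# P193 algebra half: the recorded machine

A configuration is a state, the work stacks, a fuel stack `T` and the history `H`, which records
every rule that has been applied, the letters of the input word included.  Hence the reachable
configurations are the graph of a function of the history, and every rule is injective.

From `start`, which only reads letters, a bit `real` or `sand` is put at the bottom of `T`.  Every
later step adds one `fill` until the phase `pop`, which removes them.  A `real` branch runs the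
decider and clears the work stacks; a `sand` branch builds any contents, whatever the word is, so
that the windows of the first phase see nothing of the word.
-/

namespace Vale.Agent.P193.Bh.Alg

open Machine

/-- The symbols of the fuel stack. -/
inductive TSym | fill | real | sand
  deriving DecidableEq, Inhabited

instance : Fintype TSym := ⟨{.fill, .real, .sand}, fun x => by cases x <;> simp⟩

/-- A decider of a set of words in the letters `Ltr`, with the coding of its input. -/
structure Decider (Ltr : Type) where
  K : Type
  Sym : Type
  Qd : Type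
  [fK : Fintype K]
  [dK : DecidableEq K]
  [fSym : Fintype Sym]
  [dSym : DecidableEq Sym]
  [fQd : Fintype Qd]
  [dQd : DecidableEq Qd]
  P : Prog K Sym Qd
  q₀ : Qd
  halts : Bool → Qd
  halts_inj : Function.Injective halts
  halts_stop : ∀ v, P (halts v) = .stop
  inK : K
  code : Ltr → List Sym
  code_ne : ∀ a, code a ≠ []
  endc : List Sym

attribute [instance] Decider.fK Decider.dK Decider.fSym Decider.dSym Decider.fQd Decider.dQd

namespace Decider

variable {Ltr : Type} (D : Decider Ltr)

/-- The input of a word. -/
def input (w : List Ltr) : D.K → List D.Sym :=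
  Function.update (fun _ => []) D.inK (w.flatMap D.code ++ D.endc)

/-- The decider is correct for `p`. -/
def Decides (p : List Ltr → Prop) : Prop :=
  ∀ w, (p w → ∃ S, Run D.P (D.q₀, D.input w) (D.halts true, S)) ∧
    (¬ p w → ∃ S, Run D.P (D.q₀, D.input w) (D.halts false, S))

/-- States. -/
inductive St
  | start
  | load
  | run (q : D.Qd)
  | clr (v : Bool)
  | pop (v : Bool)
  deriving DecidableEq

/-- Stacks other than the history: the work stacks and the fuel. -/
abbrev Idx : Type := Option D.K

/-- The symbols of these stacks. -/
abbrev Sy : Type := D.Sym ⊕ TSym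

/-- A known part of a stack: a top segment, and whether it is the whole stack. -/
abbrev Part (α : Type) : Type := List α × Bool

/-- `l` extends `p`. -/
def Part.Match {α : Type} (p : Part α) (l : List α) : Prop :=
  if p.2 then l = p.1 else p.1 <+: l

/-- A rule replaces known top parts, the exactness being kept. -/
structure Rule where
  src : D.St
  dst : D.St
  pre : D.Idx → Part D.Sy
  post : D.Idx → List D.Sy

/-- The filler on the fuel. -/
def fillT : D.Idx → List D.Sy
  | none => [.inr .fill]
  | some _ => []

/-- Nothing known. -/
def free : D.Idx → Part D.Sy := fun _ => ([], false)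

/-- The names of the rules. -/
inductive Op
  | letter (a : Ltr)
  | bit (real : Bool)
  | wait (s : {s : D.St // s ≠ .start ∧ s ≠ .pop true ∧ s ≠ .pop false})
  | step (q : {q : D.Qd // D.P q ≠ .stop}) (seen : Option D.Sym)
  | loadPush (k : D.K) (x : D.Sy)
  | loadPop (k : D.K) (x : D.Sy)
  | loadRun (q : D.Qd)
  | loadClr (v : Bool)
  | halt (v : Bool)
  | clrPop (v : Bool) (k : D.K) (x : D.Sy)
  | clrDone (v : Bool)
  | popT (v : Bool)

/-- The guard of the start phase: everything but the input stack is empty. -/
def startPre : D.Idx → Part D.Sy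
  | none => ([], true)
  | some k => ([], decide (k ≠ D.inK))

/-- Pushing `x` on the work stack `k`. -/
def pushAt (k : D.K) (l : List D.Sy) : D.Idx → List D.Sy
  | none => []
  | some k' => if k' = k then l else []

/-- Top `x` on the work stack `k`, nothing else known. -/
def topAt (k : D.K) (x : D.Sy) : D.Idx → Part D.Sy
  | none => ([], false)
  | some k' => if k' = k then ([x], false) else ([], false)

/-- The rule of a name. -/
def rule : D.Op → D.Rule
  | .letter a => ⟨.start, .start, D.startPre, D.pushAt D.inK ((D.code a).map .inl)⟩
  | .bit b =>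
    ⟨.start, if b then .run D.q₀ else .load, D.startPre, fun
      | none => [.inr (if b then .real else .sand)]
      | some _ => []⟩
  | .wait s => ⟨s.1, s.1, D.free, D.fillT⟩
  | .loadPush k x => ⟨.load, .load, D.free, fun i => D.pushAt k [x] i ++ D.fillT i⟩
  | .loadPop k x => ⟨.load, .load, D.topAt k x, D.fillT⟩
  | .loadRun q => ⟨.load, .run q, D.free, D.fillT⟩
  | .loadClr v => ⟨.load, .clr v, D.free, D.fillT⟩
  | .halt v => ⟨.run (D.halts v), .clr v, D.free, D.fillT⟩
  | .clrPop v k x => ⟨.clr v, .clr v, D.topAt k x, D.fillT⟩
  | .clrDone v => ⟨.clr v, .pop v, fun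
      | none => ([], false)
      | some _ => ([], true), D.fillT⟩
  | .popT v => ⟨.pop v, .pop v, fun
      | none => ([.inr .fill], false)
      | some _ => ([], false), fun _ => []⟩
  | .step q o =>
    match D.P q.1 with
    | .push k a q' => ⟨.run q.1, .run q', D.free, fun i => D.pushAt k [.inl a] i ++ D.fillT i⟩
    | .jump q' => ⟨.run q.1, .run q', D.free, D.fillT⟩
    | .read k next =>
      match o with
      | some a => ⟨.run q.1, .run (next o), D.topAt k (.inl a),
          fun i => D.pushAt k [.inl a] i ++ D.fillT i⟩
      | none => ⟨.run q.1, .run (next o),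
          fun i => if i = some k then ([], true) else ([], false), D.fillT⟩
    | .pop k next =>
      match o with
      | some a => ⟨.run q.1, .run (next o), D.topAt k (.inl a), D.fillT⟩
      | none => ⟨.run q.1, .run (next o),
          fun i => if i = some k then ([], true) else ([], false), D.fillT⟩
    | .stop => ⟨.run q.1, .run q.1, D.free, D.fillT⟩

/-- Configurations. -/
structure Cfg where
  st : D.St
  stk : D.Idx → List D.Sy
  hist : List D.Op

/-- The fuel of a configuration. -/
abbrev Cfg.fuel {D : Decider Ltr} (c : D.Cfg) : List D.Sy := c.stk none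

/-- The initial configuration. -/
def root : D.Cfg :=
  ⟨.start, fun | none => [] | some k => (D.input [] k).map .inl, []⟩

/-- The configuration `c` may take the rule `o`. -/
def Can (o : D.Op) (c : D.Cfg) : Prop :=
  c.st = (D.rule o).src ∧ ∀ i, ((D.rule o).pre i).Match (c.stk i)

/-- Applying a rule, and recording it. -/
def app (o : D.Op) (c : D.Cfg) : D.Cfg :=
  ⟨(D.rule o).dst, fun i => (D.rule o).post i ++ (c.stk i).drop ((D.rule o).pre i).1.length,
    o :: c.hist⟩

/-- The reachable configurations. -/
inductive Reach : D.Cfg → Prop
  | root : Reach D.root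
  | app {o : D.Op} {c : D.Cfg} : Reach c → D.Can o c → Reach (D.app o c)

variable {D}

/-- The letters of a history, the last one first. -/
def letters : List D.Op → List Ltr
  | [] => []
  | .letter a :: h => a :: letters h
  | _ :: h => letters h

variable (D)

/-- The two final windows: all work stacks empty and only the bit `real` on the fuel. -/
def Final (v : Bool) (c : D.Cfg) : Prop :=
  c.st = .pop v ∧ (∀ k, c.stk (some k) = []) ∧ c.fuel = [.inr .real]

/-- The invariants that are imposed as relations. -/
def Bad (c : D.Cfg) : Prop :=
  (∃ v, c.st = .pop v ∧ ((∃ k, c.stk (some k) ≠ []) ∨ c.fuel = [] ∨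
      ∃ x l, c.fuel = x :: l ∧ x ≠ .inr .fill ∧ (l ≠ [] ∨ (x ≠ .inr .real ∧ x ≠ .inr .sand)))) ∨
    (c.st = .start ∧ (c.fuel ≠ [] ∨ ∃ k, k ≠ D.inK ∧ c.stk (some k) ≠ []))

/-- Everything the algebra needs about the machine, for the set of words `p`. -/
structure Facts (p : List Ltr → Prop) : Prop where
  not_bad : ∀ c, D.Reach c → ¬ D.Bad c
  /-- the final windows are sound -/
  final_sound : ∀ v c, D.Reach c → D.Final v c → (v = true ↔ p (letters c.hist))
  /-- windows of the phase before `pop` whose fuel is an unknown extension of fillers -/
  free_run : ∀ (w : List Ltr) (s : D.St) (n : ℕ) (W : D.K → Part D.Sy),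
    s ≠ .start → (∀ v, s ≠ .pop v) → ∃ c, D.Reach c ∧ c.st = s ∧
      (∀ k, (W k).Match (c.stk (some k))) ∧ List.replicate n (.inr .fill) <+: c.fuel ∧
      letters c.hist = w ∧ n ≤ c.hist.length ∧ ∀ o ∈ c.hist.take n, (D.rule o).src ≠ .start
  /-- windows of the phase `pop` reached from a `sand` branch -/
  free_pop : ∀ (w : List Ltr) (v : Bool) (n j : ℕ), ∃ c, D.Reach c ∧ c.st = .pop v ∧
      (∀ k, c.stk (some k) = []) ∧
      c.fuel = List.replicate j (.inr .fill) ++ [.inr .sand] ∧
      letters c.hist = w ∧ n ≤ c.hist.length ∧ ∀ o ∈ c.hist.take n, (D.rule o).src ≠ .start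
  /-- windows of the phase `pop` reached from a `real` branch -/
  real_pop : ∀ (w : List Ltr) (v : Bool) (n j : ℕ), (v = true ↔ p w) → ∃ c, D.Reach c ∧
      c.st = .pop v ∧ (∀ k, c.stk (some k) = []) ∧
      c.fuel = List.replicate j (.inr .fill) ++ [.inr .real] ∧
      letters c.hist = w ∧ n ≤ c.hist.length ∧ ∀ o ∈ c.hist.take n, (D.rule o).src ≠ .start

/-- Goal of the machine module. -/
def MachineGoal : Prop :=
  ∀ (Ltr : Type) (D : Decider Ltr) (p : List Ltr → Prop), D.Decides p → D.Facts p

end Decider

end Vale.Agent.P193.Bh.Alg
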