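import Mathlib
import Vale.Agent.P193.Bh.Alg.Sys
import Vale.Agent.P193.Bh.Alg.Blocks

/-!
# P193 algebra half: the finitely presented machine algebra

Four sorts: `O`, the group sort `K` and two copies of configurations, the second one carrying a
group payload.  Each copy has a base sort (`O` resp. `K`), a root map from it, and two values on
configurations: reachability `B` and reachability weighted by the word read so far `Y`.
-/

namespace Vale.Agent.P193.Bh.Alg

open Decider

/-- The sorts. -/
inductive Srt
  | O
  | K
  | S (b : Bool)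
  deriving DecidableEq

instance : Fintype Srt :=
  ⟨{.O, .K, .S false, .S true}, fun x => by
    rcases x with _ | _ | (_ | _) <;> simp⟩

/-- The base sort of a copy of the configurations. -/
def baseSrt : Bool → Srt
  | false => .O
  | true => .K

variable {Ltr : Type} [Fintype Ltr] [DecidableEq Ltr] (D : Decider Ltr)

noncomputable instance : DecidableEq D.Op := Classical.decEq _

noncomputable instance : Fintype D.St :=
  Fintype.ofInjective (β := Unit ⊕ Unit ⊕ D.Qd ⊕ Bool ⊕ Bool)
    (fun
      | .start => .inl ()
      | .load => .inr (.inl ())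
      | .run q => .inr (.inr (.inl q))
      | .clr v => .inr (.inr (.inr (.inl v)))
      | .pop v => .inr (.inr (.inr (.inr v))))
    fun a b h => by cases a <;> cases b <;> simp_all

noncomputable instance : Fintype D.Op := by
  classical
  exact Fintype.ofInjective
    (β := Ltr ⊕ Bool ⊕ {s : D.St // s ≠ .start ∧ s ≠ .pop true ∧ s ≠ .pop false} ⊕
      ({q : D.Qd // D.P q ≠ .stop} × Option D.Sym) ⊕ (D.K × D.Sy) ⊕ (D.K × D.Sy) ⊕ D.Qd ⊕ Bool ⊕
      Bool ⊕ (Bool × D.K × D.Sy) ⊕ Bool ⊕ Bool)
    (fun
      | .letter a => .inl a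
      | .bit b => .inr (.inl b)
      | .wait s => .inr (.inr (.inl s))
      | .step q o => .inr (.inr (.inr (.inl (q, o))))
      | .loadPush k x => .inr (.inr (.inr (.inr (.inl (k, x)))))
      | .loadPop k x => .inr (.inr (.inr (.inr (.inr (.inl (k, x))))))
      | .loadRun q => .inr (.inr (.inr (.inr (.inr (.inr (.inl q))))))
      | .loadClr v => .inr (.inr (.inr (.inr (.inr (.inr (.inr (.inl v)))))))
      | .halt v => .inr (.inr (.inr (.inr (.inr (.inr (.inr (.inr (.inl v))))))))
      | .clrPop v k x =>
        .inr (.inr (.inr (.inr (.inr (.inr (.inr (.inr (.inr (.inl (v, k, x))))))))))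
      | .clrDone v => .inr (.inr (.inr (.inr (.inr (.inr (.inr (.inr (.inr (.inr (.inl v))))))))))
      | .popT v => .inr (.inr (.inr (.inr (.inr (.inr (.inr (.inr (.inr (.inr (.inr v)))))))))))
    fun a b h => by cases a <;> cases b <;> simp_all

/-- The stacks of a configuration, the history being `none`. -/
abbrev SI : Type := Option D.Idx

/-- Their symbols. -/
def Al : SI D → Type
  | none => D.Op
  | some _ => D.Sy

noncomputable instance (i : SI D) : Fintype (Al D i) :=
  match i with
  | none => inferInstanceAs (Fintype D.Op)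
  | some _ => inferInstanceAs (Fintype D.Sy)

noncomputable instance (i : SI D) : DecidableEq (Al D i) := Classical.decEq _

noncomputable instance : DecidableEq D.St := Classical.decEq _

/-- The generators. -/
inductive Gen
  | one (s : Srt)
  | lett (a : Ltr)
  | iota
  | delta
  | push (b : Bool) (i : SI D) (x : Al D i)
  | pop (b : Bool) (i : SI D) (x : Al D i)
  | bot (b : Bool) (i : SI D)
  | st (b : Bool) (q q' : D.St)
  | root (b : Bool)
  | root' (b : Bool)
  | valY (b : Bool)
  | valB (b : Bool)

noncomputable instance : Fintype (Gen D) := by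
  classical
  exact Fintype.ofInjective
    (β := Srt ⊕ Ltr ⊕ Unit ⊕ Unit ⊕ (Bool × Σ i, Al D i) ⊕ (Bool × Σ i, Al D i) ⊕
      (Bool × SI D) ⊕ (Bool × D.St × D.St) ⊕ Bool ⊕ Bool ⊕ Bool ⊕ Bool)
    (fun
      | .one s => .inl s
      | .lett a => .inr (.inl a)
      | .iota => .inr (.inr (.inl ()))
      | .delta => .inr (.inr (.inr (.inl ())))
      | .push b i x => .inr (.inr (.inr (.inr (.inl (b, ⟨i, x⟩)))))
      | .pop b i x => .inr (.inr (.inr (.inr (.inr (.inl (b, ⟨i, x⟩))))))
      | .bot b i => .inr (.inr (.inr (.inr (.inr (.inr (.inl (b, i)))))))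
      | .st b q q' => .inr (.inr (.inr (.inr (.inr (.inr (.inr (.inl (b, q, q'))))))))
      | .root b => .inr (.inr (.inr (.inr (.inr (.inr (.inr (.inr (.inl b))))))))
      | .root' b => .inr (.inr (.inr (.inr (.inr (.inr (.inr (.inr (.inr (.inl b)))))))))
      | .valY b => .inr (.inr (.inr (.inr (.inr (.inr (.inr (.inr (.inr (.inr (.inl b))))))))))
      | .valB b => .inr (.inr (.inr (.inr (.inr (.inr (.inr (.inr (.inr (.inr (.inr b)))))))))))
    fun a b h => by cases a <;> cases b <;> simp_all

/-- The source of a generator. -/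
def Gen.src : Gen D → Srt
  | .one s => s
  | .lett _ => .K
  | .iota => .O
  | .delta => .K
  | .push b _ _ => .S b
  | .pop b _ _ => .S b
  | .bot b _ => .S b
  | .st b _ _ => .S b
  | .root b => baseSrt b
  | .root' b => .S b
  | .valY b => .S b
  | .valB b => .S b

/-- The target of a generator. -/
def Gen.tgt : Gen D → Srt
  | .one s => s
  | .lett _ => .K
  | .iota => .K
  | .delta => .O
  | .push b _ _ => .S b
  | .pop b _ _ => .S b
  | .bot b _ => .S b
  | .st b _ _ => .S b
  | .root b => .S b
  | .root' b => baseSrt b
  | .valY _ => .K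
  | .valB b => baseSrt b

section Ambient

variable {A : Type} [Ring A] (g : Gen D → A)

/-- The stack operators of one copy, read through `g`. -/
def opsOf (b : Bool) : Ops A D.St (SI D) (Al D) where
  one := g (.one (.S b))
  push i x := g (.push b i x)
  pop i x := g (.pop b i x)
  bot i := g (.bot b i)
  st q q' := g (.st b q q')

/-- The map of base sort into the group sort. -/
def jot : Bool → A
  | false => g .iota
  | true => g (.one .K)

/-- The value of a rule on the group sort. -/
def lam : D.Op → A
  | .letter a => g (.lett a)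
  | _ => g (.one .K)

/-- The blocks of a rule, forwards. -/
def fwdBlk (o : D.Op) : ∀ i : SI D, Blk (Al D i)
  | none => ⟨[], [o], false⟩
  | some i => ⟨((D.rule o).pre i).1, (D.rule o).post i, ((D.rule o).pre i).2⟩

/-- The blocks of a rule, backwards. -/
def bwdBlk (o : D.Op) : ∀ i : SI D, Blk (Al D i)
  | none => ⟨[o], [], false⟩
  | some i => ⟨(D.rule o).post i, ((D.rule o).pre i).1, ((D.rule o).pre i).2⟩

/-- The blocks of the domain of a rule. -/
def domBlk (o : D.Op) : ∀ i : SI D, Blk (Al D i)
  | none => ⟨[], [], false⟩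
  | some i => ⟨((D.rule o).pre i).1, ((D.rule o).pre i).1, ((D.rule o).pre i).2⟩

/-- The blocks of the initial configuration. -/
def rootBlk : ∀ i : SI D, Blk (Al D i)
  | none => ⟨[], [], true⟩
  | some i => ⟨D.root.stk i, D.root.stk i, true⟩

/-- The blocks of a final window. -/
def finBlk : ∀ i : SI D, Blk (Al D i)
  | none => ⟨[], [], false⟩
  | some none => ⟨[.inr .real], [.inr .real], true⟩
  | some (some _) => ⟨[], [], true⟩

/-- The indices of the relations of the stacks. -/
inductive StackRel
  | popPush (i : SI D) (x y : Al D i)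
  | botBot (i : SI D)
  | botPush (i : SI D) (x : Al D i)
  | popBot (i : SI D) (x : Al D i)
  | split (i : SI D)
  | stMul (q q' r r' : D.St)
  | stSum
  | commPP (i j : SI D) (h : i ≠ j) (x : Al D i) (y : Al D j)
  | commPQ (i j : SI D) (h : i ≠ j) (x : Al D i) (y : Al D j)
  | commQQ (i j : SI D) (h : i ≠ j) (x : Al D i) (y : Al D j)
  | commPB (i j : SI D) (h : i ≠ j) (x : Al D i)
  | commQB (i j : SI D) (h : i ≠ j) (x : Al D i)
  | commBB (i j : SI D) (h : i ≠ j)
  | commS (q q' : D.St) (i : SI D) (m : Al D i ⊕ Al D i ⊕ Unit)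

/-- The indices of the relations of a value. -/
inductive ValRel
  | root
  | step (o : D.Op)
  | mtch (o : D.Op)
  | noHist
  | bad (w : Fin 5) (v : Bool) (k : D.K) (x y : D.Sy)

/-- The indices of the relations. -/
inductive RelIx
  | orth (s t : Srt)
  | sum
  | typed (x : Gen D)
  | stack (b : Bool) (r : StackRel D)
  | deltaIota
  | rootL (b : Bool)
  | rootR (b : Bool)
  | value (b : Bool) (y : Bool) (r : ValRel D)
  | acc (b : Bool)
  | rej

/-- The five kinds of windows that no reachable configuration meets: in `pop` a nonempty work stack,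
an empty fuel, a non-filler above something, a fuel symbol of the work stacks; in `start` a nonempty
stack other than the input. -/
noncomputable def badOp (b : Bool) (w : Fin 5) (v : Bool) (k : D.K) (x y : D.Sy) : A :=
  let o := opsOf D g b
  let fuel : SI D := some none
  let work : SI D := some (some k)
  match w with
  | 0 => o.st (.pop v) (.pop v) * (o.push work x * o.pop work x)
  | 1 => o.st (.pop v) (.pop v) * o.bot fuel
  | 2 => if x = .inr .fill then 0 else
      o.st (.pop v) (.pop v) * (o.push fuel x * (o.push fuel y * o.pop fuel y) * o.pop fuel x)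
  | 3 => if x = .inr .fill ∨ x = .inr .real ∨ x = .inr .sand then 0 else
      o.st (.pop v) (.pop v) * (o.push fuel x * o.pop fuel x)
  | 4 => if v then o.st .start .start * (o.push fuel x * o.pop fuel x) else
      if k = D.inK then 0 else o.st .start .start * (o.push work x * o.pop work x)

/-- The relations of one family of stack operators. -/
noncomputable def stackRel (b : Bool) : StackRel D → A
  | .popPush i x y =>
    (opsOf D g b).pop i x * (opsOf D g b).push i y - if x = y then (opsOf D g b).one else 0
  | .botBot i => g (.bot b i) * g (.bot b i) - g (.bot b i)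
  | .botPush i x => g (.bot b i) * g (.push b i x)
  | .popBot i x => g (.pop b i x) * g (.bot b i)
  | .split i => g (.bot b i) + ∑ x, g (.push b i x) * g (.pop b i x) - g (.one (.S b))
  | .stMul q q' r r' => g (.st b q q') * g (.st b r r') - if q' = r then g (.st b q r') else 0
  | .stSum => ∑ q, g (.st b q q) - g (.one (.S b))
  | .commPP i j _ x y => g (.push b i x) * g (.push b j y) - g (.push b j y) * g (.push b i x)
  | .commPQ i j _ x y => g (.push b i x) * g (.pop b j y) - g (.pop b j y) * g (.push b i x)
  | .commQQ i j _ x y => g (.pop b i x) * g (.pop b j y) - g (.pop b j y) * g (.pop b i x)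
  | .commPB i j _ x => g (.push b i x) * g (.bot b j) - g (.bot b j) * g (.push b i x)
  | .commQB i j _ x => g (.pop b i x) * g (.bot b j) - g (.bot b j) * g (.pop b i x)
  | .commBB i j _ => g (.bot b i) * g (.bot b j) - g (.bot b j) * g (.bot b i)
  | .commS q q' i (.inl x) => g (.st b q q') * g (.push b i x) - g (.push b i x) * g (.st b q q')
  | .commS q q' i (.inr (.inl x)) =>
    g (.st b q q') * g (.pop b i x) - g (.pop b i x) * g (.st b q q')
  | .commS q q' i (.inr (.inr _)) => g (.st b q q') * g (.bot b i) - g (.bot b i) * g (.st b q q')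

/-- A value: weighted by the word read, or not. -/
def valGen (b : Bool) : Bool → Gen D
  | true => .valY b
  | false => .valB b

/-- The weight of a rule in a value. -/
def wgt (b : Bool) : Bool → D.Op → A
  | true, o => lam D g o
  | false, _ => g (.one (baseSrt b))

/-- The relations of a value. -/
noncomputable def valRel (b y : Bool) : ValRel D → A
  | .root => g (valGen D b y) * g (.root b) - if y then jot D g b else g (.one (baseSrt b))
  | .step o =>
    g (valGen D b y) * (opsOf D g b).mono (D.rule o).dst (D.rule o).src (fwdBlk D o) -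
      wgt D g b y o * g (valGen D b y) *
        (opsOf D g b).mono (D.rule o).src (D.rule o).src (domBlk D o)
  | .mtch o =>
    g (valGen D b y) * (g (.push b none o) * g (.pop b none o) -
      (opsOf D g b).mono (D.rule o).dst (D.rule o).src (fwdBlk D o) *
        (opsOf D g b).mono (D.rule o).src (D.rule o).dst (bwdBlk D o))
  | .noHist => g (valGen D b y) * (g (.bot b none) - g (.root b) * g (.root' b))
  | .bad w v k x z => g (valGen D b y) * badOp D g b w v k x z

/-- The relations, read through `g`. -/
noncomputable def relOf : RelIx D → A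
  | .orth s t => g (.one s) * g (.one t) - if s = t then g (.one s) else 0
  | .sum => g (.one .O) + g (.one .K) + g (.one (.S false)) + g (.one (.S true)) - 1
  | .typed x => g (.one x.tgt) * g x * g (.one x.src) - g x
  | .stack b r => stackRel D g b r
  | .deltaIota => g .delta * g .iota - g (.one .O)
  | .rootL b => g (.root' b) * g (.root b) - g (.one (baseSrt b))
  | .rootR b => g (.root b) * g (.root' b) - (opsOf D g b).mono .start .start (rootBlk D)
  | .value b y r => valRel D g b y r
  | .acc b => (g (.valY b) - jot D g b * g (.valB b)) *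
      (opsOf D g b).mono (.pop true) (.pop true) (finBlk D)
  | .rej => g .delta * g (.valY false) *
      (opsOf D g false).mono (.pop false) (.pop false) (finBlk D)

end Ambient

noncomputable instance : Fintype (StackRel D) := by
  classical
  exact Fintype.ofInjective
    (β := (Σ i, Al D i × Al D i) ⊕ SI D ⊕ (Bool × Σ i, Al D i) ⊕ SI D ⊕
      (D.St × D.St × D.St × D.St) ⊕ Unit ⊕ (Fin 3 × (Σ i, Al D i) × Σ i, Al D i) ⊕
      (Bool × (Σ i, Al D i) × SI D) ⊕ (SI D × SI D) ⊕
      (D.St × D.St × Σ i, Al D i ⊕ Al D i ⊕ Unit))
    (fun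
      | .popPush i x y => .inl ⟨i, x, y⟩
      | .botBot i => .inr (.inl i)
      | .botPush i x => .inr (.inr (.inl (false, ⟨i, x⟩)))
      | .popBot i x => .inr (.inr (.inl (true, ⟨i, x⟩)))
      | .split i => .inr (.inr (.inr (.inl i)))
      | .stMul q q' r r' => .inr (.inr (.inr (.inr (.inl (q, q', r, r')))))
      | .stSum => .inr (.inr (.inr (.inr (.inr (.inl ())))))
      | .commPP i j _ x y => .inr (.inr (.inr (.inr (.inr (.inr (.inl (0, ⟨i, x⟩, ⟨j, y⟩)))))))
      | .commPQ i j _ x y => .inr (.inr (.inr (.inr (.inr (.inr (.inl (1, ⟨i, x⟩, ⟨j, y⟩)))))))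
      | .commQQ i j _ x y => .inr (.inr (.inr (.inr (.inr (.inr (.inl (2, ⟨i, x⟩, ⟨j, y⟩)))))))
      | .commPB i j _ x =>
        .inr (.inr (.inr (.inr (.inr (.inr (.inr (.inl (false, ⟨i, x⟩, j))))))))
      | .commQB i j _ x =>
        .inr (.inr (.inr (.inr (.inr (.inr (.inr (.inl (true, ⟨i, x⟩, j))))))))
      | .commBB i j _ => .inr (.inr (.inr (.inr (.inr (.inr (.inr (.inr (.inl (i, j)))))))))
      | .commS q q' i m =>
        .inr (.inr (.inr (.inr (.inr (.inr (.inr (.inr (.inr (q, q', ⟨i, m⟩))))))))))
    fun a b h => by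
      cases a <;> cases b <;> simp at h <;>
        first
          | (obtain ⟨rfl, h⟩ := h; simp_all)
          | simp_all

instance : Finite (ValRel D) :=
  Finite.of_injective (β := Unit ⊕ D.Op ⊕ D.Op ⊕ Unit ⊕ (Fin 5 × Bool × D.K × D.Sy × D.Sy))
    (fun
      | .root => .inl ()
      | .step o => .inr (.inl o)
      | .mtch o => .inr (.inr (.inl o))
      | .noHist => .inr (.inr (.inr (.inl ())))
      | .bad w v k x y => .inr (.inr (.inr (.inr (w, v, k, x, y)))))
    fun a b h => by cases a <;> cases b <;> simp_all

instance : Finite (RelIx D) :=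
  Finite.of_injective
    (β := (Srt × Srt) ⊕ Unit ⊕ Gen D ⊕ (Bool × StackRel D) ⊕ Unit ⊕ Bool ⊕ Bool ⊕
      (Bool × Bool × ValRel D) ⊕ Bool ⊕ Unit)
    (fun
      | .orth s t => .inl (s, t)
      | .sum => .inr (.inl ())
      | .typed x => .inr (.inr (.inl x))
      | .stack b r => .inr (.inr (.inr (.inl (b, r))))
      | .deltaIota => .inr (.inr (.inr (.inr (.inl ()))))
      | .rootL b => .inr (.inr (.inr (.inr (.inr (.inl b)))))
      | .rootR b => .inr (.inr (.inr (.inr (.inr (.inr (.inl b))))))
      | .value b y r => .inr (.inr (.inr (.inr (.inr (.inr (.inr (.inl (b, y, r))))))))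
      | .acc b => .inr (.inr (.inr (.inr (.inr (.inr (.inr (.inr (.inl b))))))))
      | .rej => .inr (.inr (.inr (.inr (.inr (.inr (.inr (.inr (.inr ())))))))))
    fun a b h => by cases a <;> cases b <;> simp_all

/-- The free algebra on the generators. -/
abbrev Free : Type := FreeAlgebra (ZMod 2) (Gen D)

/-- The relations in the free algebra. -/
noncomputable def rels : Set (Free D) := Set.range (relOf D (FreeAlgebra.ι (ZMod 2)))

/-- The machine algebra. -/
abbrev MAlg : Type := RingQuot fun x y : Free D => x ∈ rels D ∧ y = 0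

/-- The projection from the free algebra. -/
noncomputable def proj : Free D →ₐ[ZMod 2] MAlg D := RingQuot.mkAlgHom (ZMod 2) _

/-- A generator in the algebra. -/
noncomputable def gen (x : Gen D) : MAlg D := proj D (FreeAlgebra.ι (ZMod 2) x)

end Vale.Agent.P193.Bh.Alg
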