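import Mathlib
import Vale.Agent.P193.Bh.Interface
import Vale.Agent.P193.Bh.Alg.Pres

/-!
# P193 algebra half: the relations inside the machine algebra

The machine algebra is finitely presented, its stack operators satisfy `Ops.Rel`, and every
generator lies in one corner between two sorts.
-/

namespace Vale.Agent.P193.Bh.Alg

open Decider

variable {Ltr : Type} [Fintype Ltr] [DecidableEq Ltr] (D : Decider Ltr)

theorem map_relOf {A B : Type} [Ring A] [Ring B] (φ : A →+* B) (g : Gen D → A) (r : RelIx D) :
    φ (relOf D g r) = relOf D (fun x => φ (g x)) r := by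
  have hp : ∀ (b : Bool) (i : SI D) (u : List (Al D i)),
      φ ((opsOf D g b).pushW i u) = (opsOf D (fun x => φ (g x)) b).pushW i u := by
    intro b i u
    induction u with
    | nil => rfl
    | cons x u ih =>
      simp only [Ops.pushW, List.foldr_cons, map_mul] at ih ⊢
      rw [ih]; rfl
  have hq : ∀ (b : Bool) (i : SI D) (u : List (Al D i)),
      φ ((opsOf D g b).popW i u) = (opsOf D (fun x => φ (g x)) b).popW i u := by
    intro b i u
    induction u using List.reverseRecOn with
    | nil => rfl
    | append_singleton u x ih =>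
      simp only [Ops.popW, List.foldl_append, List.foldl_cons, List.foldl_nil, map_mul] at ih ⊢
      rw [ih]; rfl
  have hb : ∀ (b : Bool) (i : SI D) (x : Blk (Al D i)),
      φ ((opsOf D g b).blk i x) = (opsOf D (fun x => φ (g x)) b).blk i x := by
    intro b i x
    simp only [Ops.blk, map_mul, hp, hq]
    congr 2
    simp only [Ops.mid]
    split <;> rfl
  have hm : ∀ (b : Bool) (q' q : D.St) (x : ∀ i, Blk (Al D i)),
      φ ((opsOf D g b).mono q' q x) = (opsOf D (fun x => φ (g x)) b).mono q' q x := by
    intro b q' q x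
    simp only [Ops.mono, Ops.blkProd, map_mul]
    congr 1
    induction (Finset.univ : Finset (SI D)).toList with
    | nil => rfl
    | cons i l ih => simp only [List.foldr_cons, map_mul, hb, ih]
  rcases r with ⟨s, t⟩ | _ | x | ⟨b, r⟩ | _ | b | b | ⟨b, y, r⟩ | b | _
  · simp only [relOf, map_sub, map_mul, apply_ite φ, map_zero]
  · simp only [relOf, map_sub, map_add, map_one]
  · simp only [relOf, map_sub, map_mul]
  · rcases r with _ | _ | _ | _ | _ | _ | _ | _ | _ | _ | _ | _ | _ | ⟨q, q', i, m⟩
    case commS =>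
      rcases m with x | x | _ <;> simp only [relOf, stackRel, map_sub, map_mul]
    all_goals
      simp only [relOf, stackRel, opsOf, map_sub, map_add, map_mul, map_sum, apply_ite φ, map_zero]
  · simp only [relOf, map_sub, map_mul]
  · simp only [relOf, map_sub, map_mul]
  · simp only [relOf, map_sub, map_mul, hm]
  · rcases r with _ | o | o | _ | ⟨w, v, k, x, z⟩
    · cases y <;> cases b <;>
        simp only [relOf, valRel, valGen, jot, map_sub, map_mul, if_true, Bool.false_eq_true, if_false]
    · cases y <;> cases b <;> cases o <;>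
        simp only [relOf, valRel, valGen, wgt, lam, map_sub, map_mul, hm]
    · simp only [relOf, valRel, map_sub, map_mul, hm]
    · simp only [relOf, valRel, map_sub, map_mul]
    · simp only [relOf, valRel, map_mul]
      congr 1
      fin_cases w <;>
        simp only [badOp, opsOf, map_mul, apply_ite φ, map_zero] <;> rfl
  · cases b <;> simp only [relOf, jot, map_sub, map_mul, hm]
  · simp only [relOf, map_mul, hm]

theorem gen_rel (r : RelIx D) : relOf D (gen D) r = 0 := by
  have h : proj D (relOf D (FreeAlgebra.ι (ZMod 2)) r) = proj D 0 :=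
    RingQuot.mkAlgHom_rel _ ⟨⟨r, rfl⟩, rfl⟩
  rw [map_zero] at h
  rw [← h]
  exact (map_relOf D (proj D).toRingHom _ r).symm

theorem proj_surjective : Function.Surjective (proj D) :=
  RingQuot.mkAlgHom_surjective _ _

theorem proj_ker (x : Free D) (h : proj D x = 0) :
    x ∈ TwoSidedIdeal.span (rels D) := by
  let I := TwoSidedIdeal.span (rels D)
  let f : Free D →ₐ[ZMod 2] I.ringCon.Quotient := RingCon.mkₐ (ZMod 2) I.ringCon
  have hf : ∀ a, f a = 0 ↔ a ∈ I := fun a => by
    rw [TwoSidedIdeal.mem_iff]
    exact (RingCon.eq I.ringCon).trans Iff.rfl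
  let l : MAlg D →ₐ[ZMod 2] I.ringCon.Quotient :=
    RingQuot.liftAlgHom (ZMod 2) ⟨f, fun a b hab => by
      rw [hab.2, map_zero]; exact (hf a).2 (TwoSidedIdeal.subset_span hab.1)⟩
  have : l (proj D x) = f x := RingQuot.liftAlgHom_mkAlgHom_apply _ _ _ _
  rw [h, map_zero] at this
  exact (hf x).1 this.symm

theorem isFPAlgebra_alg : IsFPAlgebra (MAlg D) := by
  classical
  obtain ⟨n, ⟨e⟩⟩ := Finite.exists_equiv_fin (Gen D)
  let eq : Free D ≃ₐ[ZMod 2] FreeAlgebra (ZMod 2) (Fin n) := AlgEquiv.ofAlgHom
    (FreeAlgebra.lift (ZMod 2) fun x => FreeAlgebra.ι (ZMod 2) (e x))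
    (FreeAlgebra.lift (ZMod 2) fun x => FreeAlgebra.ι (ZMod 2) (e.symm x))
    (by ext x; simp) (by ext x; simp)
  refine ⟨n, (proj D).comp eq.symm.toAlgHom, (proj_surjective D).comp eq.symm.surjective,
    (Set.finite_range fun r : RelIx D => eq (relOf D (FreeAlgebra.ι (ZMod 2)) r)).toFinset, ?_, ?_⟩
  · intro r hr
    rw [Set.Finite.mem_toFinset] at hr
    obtain ⟨r, rfl⟩ := hr
    show proj D (eq.symm (eq (relOf D (FreeAlgebra.ι (ZMod 2)) r))) = 0
    rw [AlgEquiv.symm_apply_apply]
    exact (map_relOf D (proj D).toRingHom _ r).trans (gen_rel D r)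
  · intro x hx
    rw [Set.Finite.coe_toFinset]
    have hx' : eq.symm x ∈ TwoSidedIdeal.span (rels D) := proj_ker D _ hx
    let J : TwoSidedIdeal (Free D) := TwoSidedIdeal.comap eq.toAlgHom
      (TwoSidedIdeal.span (Set.range fun r => eq (relOf D (FreeAlgebra.ι (ZMod 2)) r)))
    have hJ : TwoSidedIdeal.span (rels D) ≤ J := by
      rw [TwoSidedIdeal.span_le]
      rintro _ ⟨r, rfl⟩
      exact (TwoSidedIdeal.mem_comap _).2 (TwoSidedIdeal.subset_span ⟨r, rfl⟩)
    have := (TwoSidedIdeal.mem_comap _).1 (hJ hx')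
    simpa using this

variable {D}

theorem gen_one_mul (s t : Srt) :
    gen D (.one s) * gen D (.one t) = if s = t then gen D (.one s) else 0 :=
  sub_eq_zero.1 (gen_rel D (.orth s t))

theorem gen_typed (x : Gen D) :
    gen D (.one x.tgt) * gen D x * gen D (.one x.src) = gen D x :=
  sub_eq_zero.1 (gen_rel D (.typed x))

theorem gen_sum :
    gen D (.one .O) + gen D (.one .K) + gen D (.one (.S false)) + gen D (.one (.S true)) = 1 :=
  sub_eq_zero.1 (gen_rel D .sum)

theorem one_gen (x : Gen D) : gen D (.one x.tgt) * gen D x = gen D x := by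
  conv_lhs => rw [← gen_typed x]
  rw [← mul_assoc, ← mul_assoc, gen_one_mul, if_pos rfl]
  exact gen_typed x

theorem gen_oneS (x : Gen D) : gen D x * gen D (.one x.src) = gen D x := by
  conv_lhs => rw [← gen_typed x]
  rw [mul_assoc, gen_one_mul, if_pos rfl]
  exact gen_typed x

theorem gen_mul_of_ne (x y : Gen D) (h : x.src ≠ y.tgt) : gen D x * gen D y = 0 := by
  rw [← gen_oneS x, ← one_gen y, mul_assoc, ← mul_assoc (gen D (.one x.src)), gen_one_mul,
    if_neg h, zero_mul, mul_zero]

/-- The stack operators of the machine algebra obey the relations. -/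
theorem ops_rel (b : Bool) : (opsOf D (gen D) b).Rel where
  one_idem := (gen_one_mul (D := D) (.S b) (.S b)).trans (if_pos rfl)
  push_corner i x := ⟨one_gen (.push b i x), gen_oneS (.push b i x)⟩
  pop_corner i x := ⟨one_gen (.pop b i x), gen_oneS (.pop b i x)⟩
  bot_corner i := ⟨one_gen (.bot b i), gen_oneS (.bot b i)⟩
  st_corner q q' := ⟨one_gen (.st b q q'), gen_oneS (.st b q q')⟩
  pop_push i x := (sub_eq_zero.1 (gen_rel D (.stack b (.popPush i x x)))).trans (if_pos rfl)
  pop_push_ne i x y h :=
    (sub_eq_zero.1 (gen_rel D (.stack b (.popPush i x y)))).trans (if_neg h)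
  bot_idem i := sub_eq_zero.1 (gen_rel D (.stack b (.botBot i)))
  bot_push i x := gen_rel D (.stack b (.botPush i x))
  pop_bot i x := gen_rel D (.stack b (.popBot i x))
  split i := sub_eq_zero.1 (gen_rel D (.stack b (.split i)))
  st_mul q q' r r' := sub_eq_zero.1 (gen_rel D (.stack b (.stMul q q' r r')))
  st_sum := sub_eq_zero.1 (gen_rel D (.stack b .stSum))
  comm i j h :=
    ⟨fun x y => sub_eq_zero.1 (gen_rel D (.stack b (.commPP i j h x y))),
      fun x y => sub_eq_zero.1 (gen_rel D (.stack b (.commPQ i j h x y))),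
      fun x y => sub_eq_zero.1 (gen_rel D (.stack b (.commQQ i j h x y))),
      fun x => sub_eq_zero.1 (gen_rel D (.stack b (.commPB i j h x))),
      fun x => sub_eq_zero.1 (gen_rel D (.stack b (.commQB i j h x))),
      sub_eq_zero.1 (gen_rel D (.stack b (.commBB i j h)))⟩
  st_comm q q' i :=
    ⟨fun x => sub_eq_zero.1 (gen_rel D (.stack b (.commS q q' i (.inl x)))),
      fun x => sub_eq_zero.1 (gen_rel D (.stack b (.commS q q' i (.inr (.inl x))))),
      sub_eq_zero.1 (gen_rel D (.stack b (.commS q q' i (.inr (.inr ())))))⟩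

end Vale.Agent.P193.Bh.Alg
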