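import Mathlib
import Vale.Agent.P193.Bh.Alg.Blocks

/-!
# P193 algebra half: products and refinements of monomials

A product of two monomials is zero or a monomial, computed stack by stack.  A monomial is the sum
of monomials that know more of one stack.
-/

namespace Vale.Agent.P193.Bh.Alg.Ops

set_option linter.unusedSectionVars false

variable {A Q I : Type} {Al : I → Type} [Ring A] [Fintype I] [DecidableEq I]
  [∀ i, Fintype (Al i)] [∀ i, DecidableEq (Al i)] [Fintype Q] [DecidableEq Q]
variable {o : Ops A Q I Al} (h : o.Rel)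
include h

lemma popW_one_mul (i : I) (b : Blk (Al i)) : o.popW i [] * o.blk i b = o.blk i b :=
  one_blk h i b

/-- Popping a segment that is on top. -/
lemma popW_blk_prefix (i : I) (v w u : List (Al i)) (e : Bool) :
    o.popW i v * o.blk i ⟨w, v ++ u, e⟩ = o.blk i ⟨w, u, e⟩ := by
  induction v using List.reverseRecOn generalizing u with
  | nil => exact one_blk h i _
  | append_singleton v x ih =>
    rw [popW_concat, mul_assoc, List.append_assoc, List.singleton_append, ih,
      pop_blk_cons h, if_pos rfl]

/-- Popping below a known whole stack, or against a different letter, gives zero. -/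
lemma popW_blk_zero (i : I) (v w u : List (Al i)) (e : Bool) (h1 : ¬ v <+: u)
    (h2 : e = true ∨ ¬ u <+: v) : o.popW i v * o.blk i ⟨w, u, e⟩ = 0 := by
  induction v using List.reverseRecOn with
  | nil => exact absurd List.nil_prefix h1
  | append_singleton v x ih =>
    rw [popW_concat, mul_assoc]
    by_cases hv : v <+: u
    · obtain ⟨t, rfl⟩ := hv
      rw [popW_blk_prefix h]
      rcases t with _ | ⟨y, t⟩
      · rcases h2 with rfl | h2
        · exact pop_blk_exact h i x w
        · exact absurd (by simp) h2
      · rw [pop_blk_cons h, if_neg]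
        rintro rfl
        exact h1 ⟨t, by simp⟩
    · rw [ih hv (h2.imp_right fun h2 hu => h2 (hu.trans (List.prefix_append v [x]))), mul_zero]

/-- Popping through the known part. -/
lemma popW_blk_extend (i : I) (t w u : List (Al i)) :
    o.popW i (u ++ t) * o.blk i ⟨w, u, false⟩ = o.blk i ⟨w ++ t, [], false⟩ := by
  induction t using List.reverseRecOn with
  | nil =>
    have := popW_blk_prefix h i u w [] false
    simpa using this
  | append_singleton t x ih =>
    rw [← List.append_assoc, popW_concat, mul_assoc, ih, pop_blk_nil h, List.append_assoc]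

lemma pushW_blk (i : I) (p w u : List (Al i)) (e : Bool) :
    o.pushW i p * o.blk i ⟨w, u, e⟩ = o.blk i ⟨w, p ++ u, e⟩ := by
  induction p with
  | nil => exact one_blk h i _
  | cons x p ih => rw [pushW_cons, mul_assoc, ih, push_blk h]; rfl

/-- A product of blocks of one stack is zero or a block. -/
lemma blk_mul_blk (i : I) (x y : Blk (Al i)) :
    o.blk i x * o.blk i y = 0 ∨ ∃ z, o.blk i x * o.blk i y = o.blk i z := by
  have h1 : o.popW i x.src * o.blk i y = 0 ∨ ∃ z, o.popW i x.src * o.blk i y = o.blk i z := by
    obtain ⟨w, u, e⟩ := y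
    by_cases hv : x.src <+: u
    · obtain ⟨t, rfl⟩ := hv
      exact Or.inr ⟨_, popW_blk_prefix h i _ w t e⟩
    · by_cases he : e = true ∨ ¬ u <+: x.src
      · exact Or.inl (popW_blk_zero h i _ w u e hv he)
      · simp only [not_or, Bool.not_eq_true, not_not] at he
        obtain ⟨rfl, t, ht⟩ := he
        exact Or.inr ⟨_, by rw [← ht]; exact popW_blk_extend h i t w u⟩
  rw [blk, mul_assoc]
  rcases h1 with h1 | ⟨⟨w, u, e⟩, h1⟩
  · exact Or.inl (by rw [h1, mul_zero])
  · rw [h1, mul_assoc]
    cases hx : x.exact
    · exact Or.inr ⟨_, by rw [show o.mid i false = o.one from rfl, one_blk h, pushW_blk h]⟩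
    · cases u with
      | nil => exact Or.inr ⟨_, by rw [show o.mid i true = o.bot i from rfl, bot_blk_nil h,
          pushW_blk h]⟩
      | cons a u =>
        exact Or.inl (by rw [show o.mid i true = o.bot i from rfl, bot_blk_cons h, mul_zero])

lemma commute_blk_blk {i j : I} (hij : i ≠ j) (x : Blk (Al i)) (y : Blk (Al j)) :
    Commute (o.blk i x) (o.blk j y) := by
  refine commute_blk h ?_ (fun z => ?_) (fun z => ?_) ?_ y
  · exact (blk_one h i x).trans (one_blk h i x).symm
  · exact (commute_blk h (commute_one h (h.push_corner j z).1 (h.push_corner j z).2)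
      ((h.comm j i hij.symm).1 z) ((h.comm j i hij.symm).2.1 z)
      ((h.comm j i hij.symm).2.2.2.1 z) x).symm
  · exact (commute_pop_blk h j z hij x).symm
  · exact (commute_bot_blk h j hij x).symm

lemma commute_blk_blkProd {i : I} (x : Blk (Al i)) (y : ∀ j, Blk (Al j)) :
    ∀ l : List I, i ∉ l → Commute (o.blk i x) (o.blkProd l y)
  | [], _ => (blk_one h i x).trans (one_blk h i x).symm
  | j :: l, hl => by
    simp only [List.mem_cons, not_or] at hl
    exact (commute_blk_blk h hl.1 x (y j)).mul_right (commute_blk_blkProd x y l hl.2)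

lemma blkProd_mul : ∀ (l : List I), l.Nodup → ∀ x y z : ∀ j, Blk (Al j),
    (∀ j ∈ l, o.blk j (x j) * o.blk j (y j) = o.blk j (z j)) →
      o.blkProd l x * o.blkProd l y = o.blkProd l z
  | [], _, _, _, _, _ => h.one_idem
  | j :: l, hl, x, y, z, hz => by
    have hl' := List.nodup_cons.1 hl
    simp only [blkProd, List.foldr_cons]
    have ih := blkProd_mul l hl'.2 x y z fun k hk => hz k (List.mem_cons_of_mem _ hk)
    have hc := (commute_blk_blkProd h (y j) x l hl'.1).eq
    simp only [blkProd] at ih hc
    rw [← hz j (List.mem_cons_self ..), ← ih]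
    simp only [mul_assoc]
    congr 1
    rw [← mul_assoc, ← hc, mul_assoc]

lemma blkProd_mul_zero : ∀ (l : List I), l.Nodup → ∀ x y : ∀ j, Blk (Al j),
    (∃ j ∈ l, o.blk j (x j) * o.blk j (y j) = 0) → o.blkProd l x * o.blkProd l y = 0
  | [], _, _, _, h0 => by simp at h0
  | j :: l, hl, x, y, ⟨k, hk, h0⟩ => by
    have hl' := List.nodup_cons.1 hl
    simp only [blkProd, List.foldr_cons]
    have hc := (commute_blk_blkProd h (y j) x l hl'.1).eq
    simp only [blkProd] at hc
    rw [mul_assoc, ← mul_assoc (List.foldr _ _ l), ← hc, mul_assoc, ← mul_assoc (o.blk j (x j))]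
    rcases List.mem_cons.1 hk with rfl | hk
    · rw [h0, zero_mul]
    · rw [show List.foldr (fun i a => o.blk i (x i) * a) o.one l *
          List.foldr (fun i a => o.blk i (y i) * a) o.one l = 0 from
          blkProd_mul_zero l hl'.2 x y ⟨k, hk, h0⟩, mul_zero]

lemma commute_st_blkProd (q q' : Q) (l : List I) (y : ∀ j, Blk (Al j)) :
    Commute (o.st q q') (o.blkProd l y) := by
  induction l with
  | nil => exact commute_one h (h.st_corner q q').1 (h.st_corner q q').2
  | cons j l ih => exact (commute_st_blk h q q' j (y j)).mul_right ih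

lemma mono_mul (p' p r' r : Q) (x y : ∀ j, Blk (Al j)) :
    o.mono p' p x * o.mono r' r y =
      (if p = r' then o.st p' r else 0) *
        (o.blkProd Finset.univ.toList x * o.blkProd Finset.univ.toList y) := by
  simp only [mono, mul_assoc]
  rw [← mul_assoc (o.blkProd _ x), ← (commute_st_blkProd h r' r _ x).eq, ← h.st_mul]
  simp only [mul_assoc]

lemma mono_mul_eq {p' p r : Q} {x y z : ∀ j, Blk (Al j)}
    (hz : ∀ j, o.blk j (x j) * o.blk j (y j) = o.blk j (z j)) :
    o.mono p' p x * o.mono p r y = o.mono p' r z := by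
  rw [mono_mul h, if_pos rfl, blkProd_mul h _ (Finset.nodup_toList _) x y z fun j _ => hz j, mono]

lemma mono_mul_ne {p' p r' r : Q} (hp : p ≠ r') (x y : ∀ j, Blk (Al j)) :
    o.mono p' p x * o.mono r' r y = 0 := by
  rw [mono_mul h, if_neg hp, zero_mul]

lemma mono_mul_zero {p' p r' r : Q} {x y : ∀ j, Blk (Al j)} {j : I}
    (h0 : o.blk j (x j) * o.blk j (y j) = 0) :
    o.mono p' p x * o.mono r' r y = 0 := by
  rw [mono_mul h, blkProd_mul_zero h _ (Finset.nodup_toList _) x y
    ⟨j, Finset.mem_toList.2 (Finset.mem_univ j), h0⟩, mul_zero]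

/-- A product of monomials is zero, or the states match and it is the monomial of the products of
the blocks. -/
lemma mono_mul_cases (p' p r' r : Q) (x y : ∀ j, Blk (Al j)) :
    o.mono p' p x * o.mono r' r y = 0 ∨ (p = r' ∧ ∃ z : ∀ j, Blk (Al j),
      (∀ j, o.blk j (x j) * o.blk j (y j) = o.blk j (z j)) ∧
        o.mono p' p x * o.mono r' r y = o.mono p' r z) := by
  classical
  by_cases h0 : ∃ j, o.blk j (x j) * o.blk j (y j) = 0
  · obtain ⟨j, hj⟩ := h0; exact Or.inl (mono_mul_zero h hj)
  by_cases hp : p = r'
  · subst hp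
    simp only [not_exists] at h0
    have hz : ∀ j, ∃ z, o.blk j (x j) * o.blk j (y j) = o.blk j z := fun j =>
      (blk_mul_blk h j _ _).resolve_left (h0 j)
    choose z hz using hz
    exact Or.inr ⟨rfl, z, hz, mono_mul_eq h hz⟩
  · exact Or.inl (mono_mul_ne h hp x y)

lemma exists_blkProd_update (i : I) (b : ∀ j, Blk (Al j)) :
    ∀ l : List I, l.Nodup → i ∈ l →
      ∃ P R, ∀ z, o.blkProd l (Function.update b i z) = P * o.blk i z * R
  | [], _, hi => absurd hi List.not_mem_nil
  | j :: l, hl, hi => by
    have hl' := List.nodup_cons.1 hl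
    by_cases hji : j = i
    · subst hji
      refine ⟨o.one, o.blkProd l b, fun z => ?_⟩
      rw [one_blk h]
      simp only [blkProd, List.foldr_cons, Function.update_self]
      congr 1
      have hj := hl'.1
      clear hl hl' hi
      induction l with
      | nil => rfl
      | cons k l ih =>
        simp only [List.mem_cons, not_or] at hj
        simp only [List.foldr_cons, Function.update_of_ne (Ne.symm hj.1), ih hj.2]
    · obtain ⟨P, R, hPR⟩ := exists_blkProd_update i b l hl'.2
        ((List.mem_cons.1 hi).resolve_left (Ne.symm hji))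
      refine ⟨o.blk j (b j) * P, R, fun z => ?_⟩
      simp only [blkProd, List.foldr_cons, Function.update_of_ne hji]
      have := hPR z
      simp only [blkProd] at this
      rw [this]
      simp only [mul_assoc]

/-- One unknown bottom is empty or has a top letter. -/
lemma mono_split (q' q : Q) (b : ∀ j, Blk (Al j)) (i : I) (he : (b i).exact = false) :
    o.mono q' q b = o.mono q' q (Function.update b i ⟨(b i).src, (b i).tgt, true⟩) +
      ∑ x, o.mono q' q (Function.update b i ⟨(b i).src ++ [x], (b i).tgt ++ [x], false⟩) := by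
  obtain ⟨P, R, hPR⟩ := exists_blkProd_update h i b Finset.univ.toList (Finset.nodup_toList _)
    (Finset.mem_toList.2 (Finset.mem_univ i))
  have hb : Function.update b i ⟨(b i).src, (b i).tgt, false⟩ = b := by
    rw [← he]; exact Function.update_eq_self i b
  conv_lhs => rw [← hb]
  simp only [mono, hPR, blk_split h i (b i).src (b i).tgt, mul_add, add_mul, Finset.mul_sum,
    Finset.sum_mul]

end Vale.Agent.P193.Bh.Alg.Ops
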