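import Mathlib
import Vale.Agent.P193.Bh.Alg.Mono

/-!
# P193 algebra half: composition of monomials, and refinement

`Blk.comp` computes the product of two blocks of one stack, `Mon` is the index type of monomials,
and `Mon.comp` computes their product.  A monomial with unknown bottoms is a sum of monomials that
know the stacks down to a given depth.
-/

namespace Vale.Agent.P193.Bh.Alg

/-- The product of two blocks: `x` after `y`. -/
def Blk.comp {α : Type} [DecidableEq α] (x y : Blk α) : Option (Blk α) :=
  if x.src <+: y.tgt then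
    if x.exact then
      if y.tgt = x.src then some ⟨y.src, x.tgt, true⟩ else none
    else some ⟨y.src, x.tgt ++ y.tgt.drop x.src.length, y.exact⟩
  else if y.exact = false ∧ y.tgt <+: x.src then
    some ⟨y.src ++ x.src.drop y.tgt.length, x.tgt, x.exact⟩
  else none

/-- The index of a monomial. -/
structure Mon (Q I : Type) (Al : I → Type) where
  dst : Q
  src : Q
  blk : ∀ i, Blk (Al i)

namespace Ops

set_option linter.unusedSectionVars false

variable {A Q I : Type} {Al : I → Type} [Ring A] [Fintype I] [DecidableEq I]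
  [∀ i, Fintype (Al i)] [∀ i, DecidableEq (Al i)] [Fintype Q] [DecidableEq Q]

/-- The monomial of an index. -/
noncomputable def monoM (o : Ops A Q I Al) (m : Mon Q I Al) : A := o.mono m.dst m.src m.blk

variable {o : Ops A Q I Al} (h : o.Rel)
include h

theorem blk_comp (i : I) (x y : Blk (Al i)) :
    o.blk i x * o.blk i y = (x.comp y).elim 0 (o.blk i) := by
  obtain ⟨p, s, ex⟩ := x
  obtain ⟨w, u, ey⟩ := y
  unfold Blk.comp
  rw [blk, mul_assoc]
  simp only
  by_cases hp : p <+: u
  · obtain ⟨t, rfl⟩ := hp
    rw [if_pos (List.prefix_append p t), popW_blk_prefix h, mul_assoc]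
    cases ex
    · rw [show o.mid i false = o.one from rfl, one_blk h, pushW_blk h]
      simp
    · rw [show o.mid i true = o.bot i from rfl]
      rcases t with _ | ⟨a, t⟩
      · rw [bot_blk_nil h, pushW_blk h]
        simp
      · rw [bot_blk_cons h, mul_zero]
        simp
  · rw [if_neg hp]
    by_cases hq : ey = false ∧ u <+: p
    · rw [if_pos hq]
      obtain ⟨rfl, t, rfl⟩ := hq
      rw [popW_blk_extend h, mul_assoc]
      cases ex
      · rw [show o.mid i false = o.one from rfl, one_blk h, pushW_blk h]
        simp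
      · rw [show o.mid i true = o.bot i from rfl, bot_blk_nil h, pushW_blk h]
        simp
    · rw [if_neg hq, popW_blk_zero h i p w u ey hp ?_, mul_zero]
      · rfl
      · by_cases he : ey = true
        · exact Or.inl he
        · exact Or.inr fun hu => hq ⟨by simpa using he, hu⟩

theorem monoM_mul_none {m n : Mon Q I Al}
    (hn : m.src ≠ n.dst ∨ ∃ i, (m.blk i).comp (n.blk i) = none) :
    o.monoM m * o.monoM n = 0 := by
  rcases hn with hs | ⟨i, hi⟩
  · exact mono_mul_ne h hs _ _
  · exact mono_mul_zero h (j := i) (by rw [blk_comp h, hi]; rfl)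

theorem monoM_mul_some {m n : Mon Q I Al} (hs : m.src = n.dst) {z : ∀ i, Blk (Al i)}
    (hz : ∀ i, (m.blk i).comp (n.blk i) = some (z i)) :
    o.monoM m * o.monoM n = o.monoM ⟨m.dst, n.src, z⟩ := by
  rw [monoM, monoM, monoM, ← hs]
  exact mono_mul_eq h fun i => by rw [blk_comp h, hz i]; rfl

theorem monoM_mul (m n : Mon Q I Al) :
    o.monoM m * o.monoM n = 0 ∨ (m.src = n.dst ∧ ∃ z : ∀ i, Blk (Al i),
      (∀ i, (m.blk i).comp (n.blk i) = some (z i)) ∧
        o.monoM m * o.monoM n = o.monoM ⟨m.dst, n.src, z⟩) := by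
  classical
  by_cases hs : m.src = n.dst
  · by_cases hn : ∃ i, (m.blk i).comp (n.blk i) = none
    · exact Or.inl (monoM_mul_none h (Or.inr hn))
    · have hz : ∀ i, ∃ z, (m.blk i).comp (n.blk i) = some z := fun i =>
        Option.ne_none_iff_exists'.1 fun he => hn ⟨i, he⟩
      choose z hz using hz
      exact Or.inr ⟨hs, z, hz, monoM_mul_some h hs hz⟩
  · exact Or.inl (monoM_mul_none h (Or.inl hs))

end Ops

/-! ### Depths -/

/-- The block knows the stack down to the depth `L`. -/
def Blk.Deep {α : Type} (L : ℕ) (b : Blk α) : Prop :=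
  if b.exact then b.src.length < L else b.src.length = L

/-- `b'` is `b` knowing more of the stack. -/
def Blk.Ext {α : Type} (L : ℕ) (b b' : Blk α) : Prop :=
  b' = b ∨ (b.exact = false ∧ b'.Deep L ∧ ∃ t, b'.src = b.src ++ t ∧ b'.tgt = b.tgt ++ t)

namespace Ops

variable {A Q I : Type} {Al : I → Type} [Ring A] [Fintype I] [DecidableEq I]
  [∀ i, Fintype (Al i)] [∀ i, DecidableEq (Al i)] [Fintype Q] [DecidableEq Q]
variable {o : Ops A Q I Al} (h : o.Rel)
include h

/-- Refining one stack. -/
theorem refine_one {S : Type*} [SetLike S A] [AddSubmonoidClass S A] (T : S) (x : A) (i : I)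
    (L : ℕ) : ∀ (n : ℕ) (m : Mon Q I Al), (m.blk i).exact = false →
      (m.blk i).src.length + n = L →
      (∀ b, b.Deep L → (∃ t, b.src = (m.blk i).src ++ t ∧ b.tgt = (m.blk i).tgt ++ t) →
        x * o.monoM ⟨m.dst, m.src, Function.update m.blk i b⟩ ∈ T) →
      x * o.monoM m ∈ T
  | 0, m, he, hn, hT => by
    have hb : (m.blk i).Deep L := by
      unfold Blk.Deep
      rw [if_neg (by simp [he])]
      simpa using hn
    have := hT (m.blk i) hb ⟨[], by simp, by simp⟩
    rwa [Function.update_eq_self] at this
  | n + 1, m, he, hn, hT => by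
    have hx : x * o.monoM m = x * o.monoM ⟨m.dst, m.src,
        Function.update m.blk i ⟨(m.blk i).src, (m.blk i).tgt, true⟩⟩ +
        ∑ a, x * o.monoM ⟨m.dst, m.src,
          Function.update m.blk i ⟨(m.blk i).src ++ [a], (m.blk i).tgt ++ [a], false⟩⟩ := by
      rw [monoM, mono_split h m.dst m.src m.blk i he, mul_add, Finset.mul_sum]
      rfl
    rw [hx]
    refine add_mem (hT _ ?_ ⟨[], by simp, by simp⟩) (sum_mem fun a _ => ?_)
    · unfold Blk.Deep
      rw [if_pos rfl]
      simp only
      omega
    · refine refine_one T x i L n _ (by simp) (by simp; omega) fun b hb ⟨t, ht1, ht2⟩ => ?_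
      simp only [Function.update_idem]
      refine hT b hb ⟨a :: t, ?_, ?_⟩
      · simp [ht1]
      · simp [ht2]

/-- Refining the stacks of a set of indices. -/
theorem refine_set {S : Type*} [SetLike S A] [AddSubmonoidClass S A] (T : S) (x : A) (L : I → ℕ)
    (s : Finset I) : ∀ m : Mon Q I Al, (∀ i ∈ s, (m.blk i).src.length < L i) →
      (∀ z : ∀ i, Blk (Al i), (∀ i ∉ s, z i = m.blk i) →
        (∀ i ∈ s, (m.blk i).Ext (L i) (z i) ∧ (z i).Deep (L i)) →
        x * o.monoM ⟨m.dst, m.src, z⟩ ∈ T) →
      x * o.monoM m ∈ T := by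
  induction s using Finset.induction_on with
  | empty =>
    intro m _ hT
    exact hT m.blk (fun _ _ => rfl) (by simp)
  | @insert i s hi ih =>
    intro m hl hT
    refine ih m (fun j hj => hl j (Finset.mem_insert_of_mem hj)) fun z hz1 hz2 => ?_
    have hzi : z i = m.blk i := hz1 i hi
    have hli := hl i (Finset.mem_insert_self i s)
    have hgo : ∀ b, b.Deep (L i) → (m.blk i).Ext (L i) b →
        x * o.monoM ⟨m.dst, m.src, Function.update z i b⟩ ∈ T := fun b hb hext => by
      refine hT _ (fun j hj => ?_) fun j hj => ?_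
      · simp only [Finset.mem_insert, not_or] at hj
        rw [Function.update_of_ne hj.1]
        exact hz1 j hj.2
      · rcases Finset.mem_insert.1 hj with rfl | hj
        · rw [Function.update_self]
          exact ⟨hext, hb⟩
        · rw [Function.update_of_ne (fun hji : j = i => hi (hji ▸ hj))]
          exact hz2 j hj
    cases he : (m.blk i).exact
    · refine refine_one h T x i (L i) (L i - (m.blk i).src.length) ⟨m.dst, m.src, z⟩
        (by simp only [hzi]; exact he) (by simp only [hzi]; omega) fun b hb hbt => ?_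
      simp only [hzi] at hbt
      exact hgo b hb (Or.inr ⟨he, hb, hbt⟩)
    · have hd : (m.blk i).Deep (L i) := by
        unfold Blk.Deep
        rw [if_pos he]
        exact hli
      have := hgo (m.blk i) hd (Or.inl rfl)
      rwa [← hzi, Function.update_eq_self] at this

end Ops

end Vale.Agent.P193.Bh.Alg
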