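import Mathlib
import Vale.Agent.P193.Bh.Alg.Pres

/-!
# P193 algebra half: the model

The machine algebra acts on the space with a basis vector for the sort `O`, one for every element
of the group and one for every configuration of each copy, the second one carrying a group element.
Every generator maps a basis vector to a basis vector or to zero.
-/

namespace Vale.Agent.P193.Bh.Alg

open Decider

variable {Ltr : Type} [Fintype Ltr] [DecidableEq Ltr] (D : Decider Ltr) (G : Type) [Group G]

/-- What the machine algebra needs of the group. -/
structure Setting where
  lt : Ltr → G
  inv : Ltr → Ltr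
  lt_inv : ∀ a, lt (inv a) = (lt a)⁻¹
  gens : Subgroup.closure (Set.range lt) = ⊤
  infinite : Infinite G
  facts : D.Facts fun w => (w.map lt).prod = 1

/-- The basis. -/
inductive Bas
  | o
  | k (g : G)
  | c (c : D.Cfg)
  | p (c : D.Cfg) (g : G)

variable {D G}

/-- A configuration with the top segment of one stack rewritten. -/
def stkMap (i : SI D) (f : List (Al D i) → Option (List (Al D i))) (c : D.Cfg) : Option D.Cfg :=
  match i, f with
  | none, f => (f c.hist).map fun l => ⟨c.st, c.stk, l⟩
  | some j, f => (f (c.stk j)).map fun l => ⟨c.st, Function.update c.stk j l, c.hist⟩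

/-- Pushing. -/
def pushC (i : SI D) (x : Al D i) (c : D.Cfg) : Option D.Cfg :=
  stkMap i (fun l => some (x :: l)) c

/-- Popping `x`. -/
noncomputable def popC (i : SI D) (x : Al D i) (c : D.Cfg) : Option D.Cfg :=
  stkMap i (fun l => match l with
    | y :: l => if y = x then some l else none
    | [] => none) c

/-- Testing the bottom. -/
def botC (i : SI D) (c : D.Cfg) : Option D.Cfg :=
  stkMap i (fun l => match l with
    | [] => some []
    | _ => none) c

/-- A state unit. -/
noncomputable def stC (q q' : D.St) (c : D.Cfg) : Option D.Cfg :=
  if c.st = q' then some ⟨q, c.stk, c.hist⟩ else none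

/-- A map of configurations on one copy, the payload kept. -/
def onCopy (b : Bool) (f : D.Cfg → Option D.Cfg) : Bas D G → Option (Bas D G)
  | .c c => if b then none else (f c).map .c
  | .p c g => if b then (f c).map fun c' => .p c' g else none
  | _ => none

variable (s : Setting D G)

/-- The word read by a configuration, as a group element. -/
def Setting.val (c : D.Cfg) : G := ((letters c.hist).map s.lt).prod

open Classical in
/-- The action of a generator on the basis. -/
noncomputable def act : Gen D → Bas D G → Option (Bas D G)
  | .one .O, .o => some .o
  | .one .K, .k g => some (.k g)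
  | .one (.S false), .c c => some (.c c)
  | .one (.S true), .p c g => some (.p c g)
  | .lett a, .k g => some (.k (s.lt a * g))
  | .iota, .o => some (.k 1)
  | .delta, .k g => if g = 1 then some .o else none
  | .push b i x, v => onCopy b (pushC i x) v
  | .pop b i x, v => onCopy b (popC i x) v
  | .bot b i, v => onCopy b (botC i) v
  | .st b q q', v => onCopy b (stC q q') v
  | .root false, .o => some (.c D.root)
  | .root true, .k g => some (.p D.root g)
  | .root' false, .c c => if c = D.root then some .o else none
  | .root' true, .p c g => if c = D.root then some (.k g) else none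
  | .valY false, .c c => if D.Reach c then some (.k (s.val c)) else none
  | .valY true, .p c g => if D.Reach c then some (.k (s.val c * g)) else none
  | .valB false, .c c => if D.Reach c then some .o else none
  | .valB true, .p c g => if D.Reach c then some (.k g) else none
  | _, _ => none

variable (D G) in
/-- The space of the model. -/
abbrev Vec : Type := Bas D G →₀ ZMod 2

/-- The linear map of a partial map of the basis. -/
noncomputable def lin (f : Bas D G → Option (Bas D G)) : Module.End (ZMod 2) (Vec D G) :=
  Finsupp.linearCombination (ZMod 2) fun v => (f v).elim 0 fun w => Finsupp.single w 1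

theorem lin_single (f : Bas D G → Option (Bas D G)) (v : Bas D G) :
    lin f (Finsupp.single v 1) = (f v).elim 0 fun w => Finsupp.single w 1 := by
  simp [lin]

/-- The free algebra acting on the model. -/
noncomputable def rho₀ : Free D →ₐ[ZMod 2] Module.End (ZMod 2) (Vec D G) :=
  FreeAlgebra.lift (ZMod 2) fun x => lin (act s x)

/-- Goal: every relation holds in the model. -/
def ModelGoal : Prop :=
  ∀ (Ltr : Type) [Fintype Ltr] [DecidableEq Ltr] (D : Decider Ltr) (G : Type) [Group G]
    (s : Setting D G) (r : RelIx D), relOf D (fun x => lin (act s x)) r = 0

end Vale.Agent.P193.Bh.Alg
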