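import Mathlib
import Vale.Agent.P193.Bh.Alg.Basic
import Vale.Agent.P193.Bh.Alg.Model
import Vale.Agent.P193.Bh.Alg.Mono

/-!
# P193 algebra half: values of reachable configurations, and the relations of the group

On the vector of a reachable configuration both values are computed along its history.  The two
final windows then give `L w = 1` on the group sort when the word `w` is trivial and
`delta L w iota = 0` when it is not.
-/

namespace Vale.Agent.P193.Bh.Alg

open Decider

variable {Ltr : Type} [Fintype Ltr] [DecidableEq Ltr] {D : Decider Ltr}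

variable (D) in
/-- The product of the letters of a word on the group sort. -/
noncomputable def letW : List Ltr → MAlg D
  | [] => gen D (.one .K)
  | a :: w => gen D (.lett a) * letW w

theorem one_letW (w : List Ltr) : gen D (.one .K) * letW D w = letW D w := by
  cases w with
  | nil => exact (gen_one_mul (D := D) .K .K).trans (if_pos rfl)
  | cons a w =>
    rw [letW, ← mul_assoc]
    exact congrArg (· * letW D w) (one_gen (D := D) (.lett a))

theorem letW_one (w : List Ltr) : letW D w * gen D (.one .K) = letW D w := by
  induction w with
  | nil => exact (gen_one_mul (D := D) .K .K).trans (if_pos rfl)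
  | cons a w ih => rw [letW, mul_assoc, ih]

theorem letW_append (u w : List Ltr) : letW D (u ++ w) = letW D u * letW D w := by
  induction u with
  | nil => exact (one_letW w).symm
  | cons a u ih => rw [List.cons_append, letW, letW, ih, mul_assoc]

/-- The blocks that turn the root into a configuration. -/
def cfgBlk (c : D.Cfg) : ∀ i : SI D, Blk (Al D i)
  | none => ⟨[], c.hist, true⟩
  | some i => ⟨D.root.stk i, c.stk i, true⟩

variable (D) in
/-- The vector of a configuration. -/
noncomputable def vec (b : Bool) (c : D.Cfg) : MAlg D :=
  (opsOf D (gen D) b).mono c.st .start (cfgBlk c) * gen D (.root b)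

theorem rootBlk_eq : rootBlk D = cfgBlk (D := D) D.root := by
  funext i
  cases i <;> rfl

theorem root_corner (b : Bool) :
    (opsOf D (gen D) b).mono .start .start (rootBlk D) * gen D (.root b) = gen D (.root b) := by
  rw [← sub_eq_zero.1 (gen_rel D (.rootR b)), mul_assoc, sub_eq_zero.1 (gen_rel D (.rootL b))]
  exact gen_oneS (D := D) (.root b)

theorem vec_root (b : Bool) : vec D b D.root = gen D (.root b) := by
  rw [vec, ← rootBlk_eq]
  exact root_corner b

theorem blk_match (b : Bool) (i : SI D) (p : List (Al D i)) (e : Bool) (post r l : List (Al D i))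
    (hm : if e then l = p else p <+: l) :
    (opsOf D (gen D) b).blk i ⟨p, post, e⟩ * (opsOf D (gen D) b).blk i ⟨r, l, true⟩ =
      (opsOf D (gen D) b).blk i ⟨r, post ++ l.drop p.length, true⟩ := by
  have h := ops_rel (D := D) b
  have hp : p <+: l := by cases e <;> simp_all
  obtain ⟨t, rfl⟩ := hp
  rw [Ops.blk, mul_assoc, Ops.popW_blk_prefix h, mul_assoc, List.drop_left]
  cases e
  · rw [show (opsOf D (gen D) b).mid i false = (opsOf D (gen D) b).one from rfl, Ops.one_blk h,
      Ops.pushW_blk h]
  · have ht : t = [] := by simpa using hm
    subst ht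
    rw [show (opsOf D (gen D) b).mid i true = (opsOf D (gen D) b).bot i from rfl,
      Ops.bot_blk_nil h, Ops.pushW_blk h]

theorem fwd_vec (b : Bool) (o : D.Op) (c : D.Cfg) (hc : D.Can o c) :
    (opsOf D (gen D) b).mono (D.rule o).dst (D.rule o).src (fwdBlk D o) * vec D b c =
      vec D b (D.app o c) := by
  rw [vec, vec, ← mul_assoc, ← hc.1]
  congr 1
  refine Ops.mono_mul_eq (ops_rel b) fun i => ?_
  rcases i with _ | i
  · exact blk_match b none [] false [o] [] c.hist (by rw [if_neg Bool.false_ne_true]; exact List.nil_prefix)
  · exact blk_match b (some i) _ _ _ _ _ (hc.2 i)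

theorem dom_vec (b : Bool) (o : D.Op) (c : D.Cfg) (hc : D.Can o c) :
    (opsOf D (gen D) b).mono (D.rule o).src (D.rule o).src (domBlk D o) * vec D b c =
      vec D b c := by
  rw [vec, ← mul_assoc, ← hc.1]
  congr 1
  refine Ops.mono_mul_eq (ops_rel b) fun i => ?_
  rcases i with _ | i
  · exact blk_match b none [] false [] [] c.hist (by rw [if_neg Bool.false_ne_true]; exact List.nil_prefix)
  · rw [show cfgBlk c (some i) = ⟨D.root.stk i, c.stk i, true⟩ from rfl]
    refine (blk_match b (some i) _ _ _ _ _ (hc.2 i)).trans ?_
    have hp : ((D.rule o).pre i).1 <+: c.stk i := by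
      have := hc.2 i
      unfold Decider.Part.Match at this
      split at this
      · rw [this]
      · exact this
    exact congrArg (fun l => (opsOf D (gen D) b).blk (some i) ⟨D.root.stk i, l, true⟩)
      (List.prefix_iff_eq_append.1 hp)

/-- The reachability value on the vector of a reachable configuration. -/
theorem valB_vec (b : Bool) {c : D.Cfg} (hc : D.Reach c) :
    gen D (.valB b) * vec D b c = gen D (.one (baseSrt b)) := by
  induction hc with
  | root => rw [vec_root]; exact sub_eq_zero.1 (gen_rel D (.value b false .root))
  | @app o c hc hcan ih =>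
    rw [← fwd_vec b o c hcan, ← mul_assoc]
    have h := sub_eq_zero.1 (gen_rel D (.value b false (.step o)))
    simp only [valGen, wgt] at h
    rw [h, mul_assoc, dom_vec b o c hcan, mul_assoc, ih, gen_one_mul, if_pos rfl]

theorem jot_corner (b : Bool) : gen D (.one .K) * jot D (gen D) b = jot D (gen D) b := by
  cases b
  · exact one_gen (D := D) .iota
  · exact (gen_one_mul (D := D) .K .K).trans (if_pos rfl)

/-- The weighted value on the vector of a reachable configuration. -/
theorem valY_vec (b : Bool) {c : D.Cfg} (hc : D.Reach c) :
    gen D (.valY b) * vec D b c = letW D (letters c.hist) * jot D (gen D) b := by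
  induction hc with
  | root =>
    rw [vec_root, show letters D.root.hist = [] from rfl, letW, jot_corner]
    exact sub_eq_zero.1 (gen_rel D (.value b true .root))
  | @app o c hc hcan ih =>
    rw [← fwd_vec b o c hcan, ← mul_assoc]
    have h := sub_eq_zero.1 (gen_rel D (.value b true (.step o)))
    simp only [valGen, wgt] at h
    rw [h, mul_assoc, dom_vec b o c hcan, mul_assoc, ih]
    rw [← mul_assoc]
    congr 1
    cases o <;> first | rfl | exact one_letW _

theorem fin_vec (b : Bool) (v : Bool) (c : D.Cfg) (hc : D.Final v c) :
    (opsOf D (gen D) b).mono (.pop v) (.pop v) (finBlk D) * vec D b c = vec D b c := by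
  obtain ⟨h1, h2, h3⟩ := hc
  rw [vec, ← mul_assoc, ← h1]
  congr 1
  refine Ops.mono_mul_eq (ops_rel b) fun i => ?_
  rcases i with _ | _ | k
  · exact blk_match b none [] false [] [] c.hist (by rw [if_neg Bool.false_ne_true]; exact List.nil_prefix)
  · rw [show cfgBlk c (some none) = ⟨D.root.stk none, c.stk none, true⟩ from rfl]
    refine (blk_match b (some none) _ _ _ _ _ (by simp only [finBlk, if_true]; exact h3)).trans ?_
    rw [show c.stk none = [Sum.inr TSym.real] from h3]
    rfl
  · rw [show cfgBlk c (some (some k)) = ⟨D.root.stk (some k), c.stk (some k), true⟩ from rfl]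
    refine (blk_match b (some (some k)) _ _ _ _ _ (by simp only [finBlk, if_true]; exact h2 k)).trans ?_
    rw [h2 k]
    rfl

variable {G : Type} [Group G] (s : Setting D G)
include s

theorem exists_final (w : List Ltr) (v : Bool) (hv : v = true ↔ (w.map s.lt).prod = 1) :
    ∃ c, D.Reach c ∧ D.Final v c ∧ letters c.hist = w := by
  obtain ⟨c, hc, h1, h2, h3, h4, -⟩ := s.facts.real_pop w v 0 0 hv
  exact ⟨c, hc, ⟨h1, h2, by simpa using h3⟩, h4⟩

/-- A trivial word acts as the identity of the group sort. -/
theorem letW_eq_one {w : List Ltr} (hw : (w.map s.lt).prod = 1) :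
    letW D w = gen D (.one .K) := by
  obtain ⟨c, hc, hf, rfl⟩ := exists_final s w true (iff_of_true rfl hw)
  have h : (gen D (.valY true) - jot D (gen D) true * gen D (.valB true)) *
      (opsOf D (gen D) true).mono (.pop true) (.pop true) (finBlk D) = 0 :=
    gen_rel D (.acc true)
  have h' := congrArg (· * vec D true c) h
  simp only [mul_assoc, fin_vec true true c hf, zero_mul, sub_mul, valY_vec true hc,
    valB_vec true hc, sub_eq_zero] at h'
  simp only [jot, baseSrt, letW_one, gen_one_mul, if_true] at h'
  exact h'

/-- A nontrivial word moves the unit vector off itself. -/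
theorem delta_letW_iota {w : List Ltr} (hw : (w.map s.lt).prod ≠ 1) :
    gen D .delta * (letW D w * gen D .iota) = 0 := by
  obtain ⟨c, hc, hf, rfl⟩ := exists_final s w false (iff_of_false (by simp) hw)
  have h : gen D .delta * gen D (.valY false) *
      (opsOf D (gen D) false).mono (.pop false) (.pop false) (finBlk D) = 0 := gen_rel D .rej
  have h' := congrArg (· * vec D false c) h
  simpa only [mul_assoc, fin_vec false false c hf, zero_mul, valY_vec false hc, jot] using h'

end Vale.Agent.P193.Bh.Alg
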