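import Mathlib
import Vale.Agent.P193.Bh.Alg.Eval
import Vale.Agent.P193.Bh.Alg.Comp

/-!
# P193 algebra half: vectors

A monomial sends the root to a vector or to zero, and both values vanish on the vector of an
unreachable configuration.
-/

namespace Vale.Agent.P193.Bh.Alg

open Decider

variable {Ltr : Type} [Fintype Ltr] [DecidableEq Ltr] {D : Decider Ltr}

theorem blk_nomatch (b : Bool) (i : SI D) (p : List (Al D i)) (e : Bool) (post r l : List (Al D i))
    (hm : ¬ (if e then l = p else p <+: l)) :
    (opsOf D (gen D) b).blk i ⟨p, post, e⟩ * (opsOf D (gen D) b).blk i ⟨r, l, true⟩ = 0 := by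
  have h := ops_rel (D := D) b
  rw [Ops.blk, mul_assoc]
  by_cases hp : p <+: l
  · obtain ⟨t, rfl⟩ := hp
    cases e
    · exact absurd (List.prefix_append p t) (by simpa using hm)
    · rw [Ops.popW_blk_prefix h, mul_assoc]
      rcases t with _ | ⟨x, t⟩
      · simp at hm
      · rw [show (opsOf D (gen D) b).mid i true = (opsOf D (gen D) b).bot i from rfl,
          Ops.bot_blk_cons h, mul_zero]
  · rw [Ops.popW_blk_zero h i p r l true hp (Or.inl rfl), mul_zero]

/-- The root test kills the other vectors. -/
theorem root'_vec (b : Bool) {c : D.Cfg} (hc : c ≠ D.root) :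
    gen D (.root' b) * vec D b c = 0 := by
  have h1 : gen D (.root' b) =
      gen D (.root' b) * (opsOf D (gen D) b).mono .start .start (rootBlk D) := by
    rw [← sub_eq_zero.1 (gen_rel D (.rootR b)), ← mul_assoc,
      sub_eq_zero.1 (gen_rel D (.rootL b))]
    exact (one_gen (D := D) (.root' b)).symm
  rw [h1, mul_assoc, vec, ← mul_assoc (Ops.mono _ _ _ _)]
  suffices (opsOf D (gen D) b).mono .start .start (rootBlk D) *
      (opsOf D (gen D) b).mono c.st .start (cfgBlk c) = 0 by rw [this, zero_mul, mul_zero]
  by_cases hs : c.st = .start
  · have : ∃ i : SI D, (rootBlk D i).src ≠ (cfgBlk c i).tgt := by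
      by_contra hne
      push Not at hne
      apply hc
      obtain ⟨st, stk, hist⟩ := c
      simp only at hs
      subst hs
      have hh : hist = [] := (hne none).symm
      have hk : stk = D.root.stk := funext fun i => (hne (some i)).symm
      subst hh hk
      rfl
    obtain ⟨i, hi⟩ := this
    rw [hs]
    refine Ops.mono_mul_zero (ops_rel b) (j := i) ?_
    rcases i with _ | i
    · exact blk_nomatch b none _ true _ _ _ (fun h => hi (by simpa [rootBlk, cfgBlk] using h.symm))
    · exact blk_nomatch b (some i) _ true _ _ _
        (fun h => hi (by simpa [rootBlk, cfgBlk] using h.symm))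
  · exact Ops.mono_mul_ne (ops_rel b) (Ne.symm hs) _ _

theorem value_vec_eq (b y : Bool) (o : D.Op) (c : D.Cfg) (ho : c.hist.head? = some o) :
    gen D (valGen D b y) * vec D b c =
      wgt D (gen D) b y o * (gen D (valGen D b y) *
        ((opsOf D (gen D) b).mono (D.rule o).src (D.rule o).src (domBlk D o) *
          ((opsOf D (gen D) b).mono (D.rule o).src (D.rule o).dst (bwdBlk D o) * vec D b c))) := by
  have h := ops_rel (D := D) b
  obtain ⟨h', hh⟩ : ∃ h', c.hist = o :: h' := by
    cases hc : c.hist with
    | nil => simp [hc] at ho
    | cons o' h' => simp [hc] at ho; exact ⟨h', by rw [ho]⟩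
  have hpop : gen D (.push b none o) * gen D (.pop b none o) * vec D b c = vec D b c := by
    rw [vec, ← mul_assoc, mul_assoc (gen D (.push b none o))]
    congr 1
    have e1 := Ops.mul_mono h (i := none) (q' := c.st) (q := .start) (b := cfgBlk c)
      (a := gen D (.pop b none o)) (c := ⟨[], h', true⟩)
      ((h.st_comm c.st .start none).2.1 o).symm
      (by
        rw [show cfgBlk c none = ⟨[], o :: h', true⟩ by simp only [cfgBlk, hh]; rfl]
        exact (Ops.pop_blk_cons h none o o [] h' true).trans (if_pos rfl))
      (fun j hj => Ops.commute_pop_blk h none o hj _)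
    rw [e1]
    have e2 := Ops.push_mono h none o c.st .start (Function.update (cfgBlk c) none ⟨[], h', true⟩)
    refine e2.trans ?_
    rw [Function.update_idem, Function.update_self]
    congr 1
    refine Function.update_eq_self_iff.2 ?_
    simp only [cfgBlk, hh]; rfl
  have hm := gen_rel D (.value b y (.mtch o))
  simp only [relOf, valRel, mul_sub, sub_eq_zero] at hm
  conv_lhs => rw [← hpop, ← mul_assoc, hm]
  have hs := sub_eq_zero.1 (gen_rel D (.value b y (.step o)))
  rw [← mul_assoc (gen D (valGen D b y)), hs]
  simp only [mul_assoc]

/-- Both values vanish on the vector of an unreachable configuration. -/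
theorem value_vec_zero (b y : Bool) : ∀ (n : ℕ) (c : D.Cfg), c.hist.length = n → ¬ D.Reach c →
    gen D (valGen D b y) * vec D b c = 0 := by
  intro n
  induction n with
  | zero =>
    intro c hn hc
    have h := ops_rel (D := D) b
    have hh : c.hist = [] := List.length_eq_zero_iff.1 hn
    have hbot : gen D (.bot b none) * vec D b c = vec D b c := by
      rw [vec, ← mul_assoc]
      congr 1
      have e1 := Ops.mul_mono h (i := none) (q' := c.st) (q := .start) (b := cfgBlk c)
        (a := gen D (.bot b none)) (c := ⟨[], [], true⟩)
        ((h.st_comm c.st .start none).2.2).symm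
        (by
          rw [show cfgBlk c none = ⟨[], [], true⟩ by simp only [cfgBlk, hh]; rfl]
          exact Ops.bot_blk_nil h none [] true)
        (fun j hj => Ops.commute_bot_blk h none hj _)
      rw [e1]
      congr 1
      refine Function.update_eq_self_iff.2 ?_
      simp only [cfgBlk, hh]; rfl
    have hr := gen_rel D (.value b y .noHist)
    simp only [relOf, valRel, mul_sub, sub_eq_zero] at hr
    rw [← hbot, ← mul_assoc, hr, mul_assoc, mul_assoc,
      root'_vec b (fun he => hc (by rw [he]; exact Decider.Reach.root)), mul_zero, mul_zero]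
  | succ n ih =>
    intro c hn hc
    obtain ⟨o, h', hh⟩ : ∃ o h', c.hist = o :: h' := by
      cases hcs : c.hist with
      | nil => simp [hcs] at hn
      | cons o h' => exact ⟨o, h', rfl⟩
    rw [value_vec_eq b y o c (by simp [hh])]
    by_cases hm : c.st = (D.rule o).dst ∧ ∀ i,
        (if ((D.rule o).pre i).2 then c.stk i = (D.rule o).post i else (D.rule o).post i <+: c.stk i)
    · let c' : D.Cfg := ⟨(D.rule o).src,
        fun i => ((D.rule o).pre i).1 ++ (c.stk i).drop ((D.rule o).post i).length, h'⟩
      have hb : (opsOf D (gen D) b).mono (D.rule o).src (D.rule o).dst (bwdBlk D o) * vec D b c =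
          vec D b c' := by
        rw [vec, vec, ← mul_assoc, ← hm.1]
        congr 1
        refine Ops.mono_mul_eq (ops_rel b) fun i => ?_
        rcases i with _ | i
        · refine (blk_match b none [o] false [] [] c.hist
            (by rw [if_neg Bool.false_ne_true, hh]; exact ⟨h', rfl⟩)).trans ?_
          simp only [hh]; rfl
        · exact blk_match b (some i) _ _ _ _ _ (hm.2 i)
      have hcan : D.Can o c' := by
        refine ⟨rfl, fun i => ?_⟩
        unfold Decider.Part.Match
        have := hm.2 i
        split
        · next he =>
          rw [if_pos he] at this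
          simp [c', this]
        · exact List.prefix_append _ _
      have happ : D.app o c' = c := by
        obtain ⟨st, stk, hist⟩ := c
        simp only [Decider.app, c'] at *
        subst hh
        rw [hm.1]
        congr 1
        funext i
        rw [List.drop_left]
        have := hm.2 i
        split at this
        · simp [this]
        · exact (List.prefix_iff_eq_append.1 this)
      have hc' : ¬ D.Reach c' := fun h => hc (happ ▸ Decider.Reach.app h hcan)
      rw [hb, dom_vec b o c' hcan, ih c' (by simpa [c', hh] using hn) hc', mul_zero]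
    · have hb : (opsOf D (gen D) b).mono (D.rule o).src (D.rule o).dst (bwdBlk D o) * vec D b c =
          0 := by
        rw [vec, ← mul_assoc]
        by_cases hst : c.st = (D.rule o).dst
        · obtain ⟨i, hi⟩ := not_forall.1 fun h => hm ⟨hst, h⟩
          rw [Ops.mono_mul_zero (ops_rel b) (j := some i) (blk_nomatch b (some i) _ _ _ _ _ hi),
            zero_mul]
        · rw [Ops.mono_mul_ne (ops_rel b) (Ne.symm hst), zero_mul]
      rw [hb, mul_zero, mul_zero, mul_zero]

set_option linter.unusedSectionVars false in
/-- The root blocks absorb a block into one that starts at the root. -/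
theorem comp_root (i : SI D) (x z : Blk (Al D i))
    (h : x.comp ⟨(rootBlk D i).src, (rootBlk D i).src, true⟩ = some z) :
    z = ⟨(rootBlk D i).src, z.tgt, true⟩ := by
  unfold Blk.comp at h
  split at h
  · split at h
    · split at h
      · injection h with h; rw [← h]
      · simp at h
    · injection h with h; rw [← h]
  · split at h
    · next hh => simp at hh
    · simp at h

/-- A monomial sends the root to a vector or to zero. -/
theorem mono_root (b : Bool) (m : Mon D.St (SI D) (Al D)) :
    (opsOf D (gen D) b).monoM m * gen D (.root b) = 0 ∨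
      ∃ c, (opsOf D (gen D) b).monoM m * gen D (.root b) = vec D b c := by
  rw [← root_corner b, ← mul_assoc]
  rcases Ops.monoM_mul (ops_rel (D := D) b) m ⟨.start, .start, rootBlk D⟩ with
    h0 | ⟨-, z, hz, he⟩
  · left
    simp only [Ops.monoM] at h0
    rw [Ops.monoM, h0, zero_mul]
  · refine Or.inr ⟨⟨m.dst, fun i => (z (some i)).tgt, (z none).tgt⟩, ?_⟩
    simp only [Ops.monoM] at he
    rw [Ops.monoM, he, vec]
    congr 2
    funext i
    rcases i with _ | i
    · exact comp_root none _ _ (hz none)
    · exact comp_root (some i) _ _ (hz (some i))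

end Vale.Agent.P193.Bh.Alg
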