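import Mathlib
import Vale.Agent.P193.Bh.Alg.Eval

/-!
# P193 algebra half: the group inside the machine algebra, and the group sort

A letter word acts on the group sort through its value, so the group embeds in the units.  Between
the sorts `O` and `K` there are only the translations and the maps through the unit vector.
-/

namespace Vale.Agent.P193.Bh.Alg

open Decider

variable {Ltr : Type} [Fintype Ltr] [DecidableEq Ltr] {D : Decider Ltr} {G : Type} [Group G]

variable (s : Setting D G)

theorem Setting.exists_word (g : G) : ∃ w : List Ltr, (w.map s.lt).prod = g := by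
  have hg : g ∈ Subgroup.closure (Set.range s.lt) := by rw [s.gens]; exact Subgroup.mem_top g
  induction hg using Subgroup.closure_induction with
  | mem x hx => obtain ⟨a, rfl⟩ := hx; exact ⟨[a], by simp⟩
  | one => exact ⟨[], rfl⟩
  | mul x y _ _ hx hy =>
    obtain ⟨u, rfl⟩ := hx
    obtain ⟨w, rfl⟩ := hy
    exact ⟨u ++ w, by simp⟩
  | inv x _ hx =>
    obtain ⟨u, rfl⟩ := hx
    refine ⟨(u.map s.inv).reverse, ?_⟩
    simp [List.prod_inv_reverse, List.map_reverse, Function.comp_def, s.lt_inv]

/-- A word for a group element. -/
noncomputable def Setting.word (g : G) : List Ltr := (s.exists_word g).choose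

theorem Setting.word_prod (g : G) : ((s.word g).map s.lt).prod = g := (s.exists_word g).choose_spec

/-- The translation by `g` on the group sort. -/
noncomputable def Setting.trans (g : G) : MAlg D := letW D (s.word g)

theorem letW_eq_of_prod {u w : List Ltr} (h : (u.map s.lt).prod = (w.map s.lt).prod) :
    letW D u = letW D w := by
  obtain ⟨v, hv⟩ : ∃ v : List Ltr, (v.map s.lt).prod = ((u.map s.lt).prod)⁻¹ := s.exists_word _
  have h1 : letW D (v ++ w) = gen D (.one .K) := letW_eq_one s (by simp [hv, h])
  have h2 : letW D (u ++ v) = gen D (.one .K) := letW_eq_one s (by simp [hv])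
  calc letW D u = letW D u * letW D (v ++ w) := by rw [h1, letW_one]
    _ = letW D (u ++ v) * letW D w := by rw [letW_append, letW_append, mul_assoc]
    _ = letW D w := by rw [h2, one_letW]

theorem letW_eq_trans (w : List Ltr) : letW D w = s.trans (w.map s.lt).prod :=
  letW_eq_of_prod s (s.word_prod _).symm

theorem trans_mul (g h : G) : s.trans g * s.trans h = s.trans (g * h) := by
  rw [Setting.trans, Setting.trans, ← letW_append, letW_eq_trans s, List.map_append,
    List.prod_append, s.word_prod, s.word_prod]

theorem trans_one : s.trans (1 : G) = gen D (.one .K) := letW_eq_one s (s.word_prod 1)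

theorem trans_corner (g : G) :
    gen D (.one .K) * s.trans g = s.trans g ∧ s.trans g * gen D (.one .K) = s.trans g :=
  ⟨one_letW _, letW_one _⟩

open Classical in
theorem delta_trans_iota (g : G) :
    gen D .delta * (s.trans g * gen D .iota) = if g = 1 then gen D (.one .O) else 0 := by
  split
  · next h =>
    subst h
    rw [trans_one, show gen D (.one .K) * gen D .iota = gen D .iota from
      one_gen (D := D) .iota]
    exact sub_eq_zero.1 (gen_rel D .deltaIota)
  · next h => exact delta_letW_iota s (by rwa [s.word_prod])

/-- The group in the units of the machine algebra. -/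
noncomputable def Setting.unit (g : G) : (MAlg D)ˣ where
  val := s.trans g + (1 - gen D (.one .K))
  inv := s.trans g⁻¹ + (1 - gen D (.one .K))
  val_inv := by
    have hK : gen D (.one .K) * gen D (.one .K) = gen D (.one .K) :=
      (gen_one_mul (D := D) .K .K).trans (if_pos rfl)
    simp only [add_mul, mul_add, sub_mul, mul_sub, one_mul, mul_one, trans_mul, mul_inv_cancel,
      trans_one, (trans_corner s _).1, (trans_corner s _).2, hK]
    abel
  inv_val := by
    have hK : gen D (.one .K) * gen D (.one .K) = gen D (.one .K) :=
      (gen_one_mul (D := D) .K .K).trans (if_pos rfl)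
    simp only [add_mul, mul_add, sub_mul, mul_sub, one_mul, mul_one, trans_mul, inv_mul_cancel,
      trans_one, (trans_corner s _).1, (trans_corner s _).2, hK]
    abel

/-- The embedding of the group. -/
noncomputable def Setting.unitHom : G →* (MAlg D)ˣ where
  toFun := s.unit
  map_one' := Units.ext (by simp [Setting.unit, trans_one])
  map_mul' g h := Units.ext (by
    have hK : gen D (.one .K) * gen D (.one .K) = gen D (.one .K) :=
      (gen_one_mul (D := D) .K .K).trans (if_pos rfl)
    simp only [Setting.unit, Units.val_mul, add_mul, mul_add, sub_mul, mul_sub, one_mul, mul_one,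
      trans_mul, (trans_corner s _).1, (trans_corner s _).2, hK]
    abel)

/-- The spanning maps from a base sort to the group sort. -/
noncomputable def Setting.baseSpan : Bool → Set (MAlg D)
  | false => {a | ∃ g, a = s.trans g * gen D .iota}
  | true => {a | (∃ g, a = s.trans g) ∨
      ∃ g h, a = s.trans g * gen D .iota * (gen D .delta * s.trans h)}

/-- The maps from a base sort to the group sort. -/
noncomputable def Setting.toK (b : Bool) : Submodule (ZMod 2) (MAlg D) :=
  Submodule.span (ZMod 2) (s.baseSpan b)

theorem jot_mem (b : Bool) : jot D (gen D) b ∈ s.toK b := by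
  cases b
  · exact Submodule.subset_span ⟨1, by
      rw [trans_one]; exact (one_gen (D := D) .iota).symm⟩
  · exact Submodule.subset_span (Or.inl ⟨1, (trans_one s).symm⟩)

theorem trans_mem (g : G) : s.trans g ∈ s.toK true :=
  Submodule.subset_span (Or.inl ⟨g, rfl⟩)

theorem toK_mul {a x : MAlg D} {b : Bool} (ha : a ∈ s.toK true) (hx : x ∈ s.toK b) :
    a * x ∈ s.toK b := by
  induction ha using Submodule.span_induction with
  | zero => rw [zero_mul]; exact zero_mem _
  | add _ _ _ _ h1 h2 => rw [add_mul]; exact add_mem h1 h2
  | smul t _ _ h1 => rw [smul_mul_assoc]; exact Submodule.smul_mem _ t h1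
  | mem a ha =>
    induction hx using Submodule.span_induction with
    | zero => rw [mul_zero]; exact zero_mem _
    | add _ _ _ _ h1 h2 => rw [mul_add]; exact add_mem h1 h2
    | smul t _ _ h1 => rw [mul_smul_comm]; exact Submodule.smul_mem _ t h1
    | mem x hx =>
      classical
      rcases ha with ⟨g, rfl⟩ | ⟨g, h, rfl⟩ <;> cases b
      · obtain ⟨g', rfl⟩ := hx
        exact Submodule.subset_span ⟨g * g', by rw [← mul_assoc, trans_mul]⟩
      · rcases hx with ⟨g', rfl⟩ | ⟨g', h', rfl⟩
        · exact Submodule.subset_span (Or.inl ⟨g * g', trans_mul s g g'⟩)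
        · exact Submodule.subset_span (Or.inr ⟨g * g', h', by
            simp only [← mul_assoc, trans_mul]⟩)
      · obtain ⟨g', rfl⟩ := hx
        have : s.trans g * gen D .iota * (gen D .delta * s.trans h) *
            (s.trans g' * gen D .iota) = if h * g' = 1 then s.trans g * gen D .iota else 0 := by
          rw [mul_assoc _ _ (s.trans g' * _), mul_assoc (gen D .delta), ← mul_assoc (s.trans h),
            trans_mul, delta_trans_iota]
          split
          · rw [mul_assoc]; exact congrArg _ (gen_oneS (D := D) .iota)
          · exact mul_zero _
        rw [this]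
        split
        · exact Submodule.subset_span ⟨g, rfl⟩
        · exact zero_mem _
      · rcases hx with ⟨g', rfl⟩ | ⟨g', h', rfl⟩
        · exact Submodule.subset_span (Or.inr ⟨g, h * g', by
            simp only [mul_assoc, trans_mul]⟩)
        · have : s.trans g * gen D .iota * (gen D .delta * s.trans h) *
              (s.trans g' * gen D .iota * (gen D .delta * s.trans h')) =
              if h * g' = 1 then s.trans g * gen D .iota * (gen D .delta * s.trans h') else 0 := by
            rw [mul_assoc _ (gen D .delta * s.trans h), ← mul_assoc (gen D .delta * s.trans h),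
              mul_assoc (gen D .delta), ← mul_assoc (s.trans h), trans_mul, delta_trans_iota]
            split
            · rw [← mul_assoc, mul_assoc (s.trans g)]
              exact congrArg (fun z => s.trans g * z * _) (gen_oneS (D := D) .iota)
            · rw [zero_mul, mul_zero]
          rw [this]
          split
          · exact Submodule.subset_span (Or.inr ⟨g, h', rfl⟩)
          · exact zero_mem _

end Vale.Agent.P193.Bh.Alg
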