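import Mathlib
import Vale.Agent.P193.Bh.Alg.EvalZero
import Vale.Agent.P193.Bh.Alg.Group

/-!
# P193 algebra half: point functionals

The covector of a configuration is the root test after the monomial that moves the configuration
to the root.  It pairs with the vectors by the Kronecker delta, and every root test after a
monomial is zero or a covector.
-/

namespace Vale.Agent.P193.Bh.Alg

open Decider

set_option linter.unusedSectionVars false

variable {Ltr : Type} [Fintype Ltr] [DecidableEq Ltr] {D : Decider Ltr}

/-- Monomials of the machine algebra. -/
abbrev MonD (D : Decider Ltr) : Type := Mon D.St (SI D) (Al D)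

variable (D) in
/-- The monomial of an index, in one copy. -/
noncomputable def monoD (b : Bool) (m : MonD D) : MAlg D := (opsOf D (gen D) b).monoM m

/-- The blocks that turn a configuration into the root. -/
def coBlk (c : D.Cfg) : ∀ i : SI D, Blk (Al D i)
  | none => ⟨c.hist, [], true⟩
  | some i => ⟨c.stk i, D.root.stk i, true⟩

/-- The index of the move of a configuration to the root. -/
def coMon (c : D.Cfg) : MonD D := ⟨.start, c.st, coBlk c⟩

variable (D) in
/-- The covector of a configuration. -/
noncomputable def covec (b : Bool) (c : D.Cfg) : MAlg D :=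
  gen D (.root' b) * monoD D b (coMon c)

theorem root'_rootMono (b : Bool) :
    gen D (.root' b) * monoD D b ⟨.start, .start, rootBlk D⟩ = gen D (.root' b) := by
  rw [monoD, Ops.monoM, ← sub_eq_zero.1 (gen_rel D (.rootR b)), ← mul_assoc,
    sub_eq_zero.1 (gen_rel D (.rootL b))]
  exact one_gen (D := D) (.root' b)

/-- Composing with the root on the left gives a block that ends at the root. -/
theorem root_comp (i : SI D) (y z : Blk (Al D i))
    (h : Blk.comp ⟨(rootBlk D i).src, (rootBlk D i).src, true⟩ y = some z) :
    z = ⟨z.src, (rootBlk D i).src, true⟩ := by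
  unfold Blk.comp at h
  simp only [if_true] at h
  split at h
  · split at h
    · injection h with h; rw [← h]
    · simp at h
  · split at h
    · injection h with h; rw [← h]
    · simp at h

/-- A root test after a monomial is zero or a covector. -/
theorem root'_mono (b : Bool) (m : MonD D) :
    gen D (.root' b) * monoD D b m = 0 ∨
      ∃ c, gen D (.root' b) * monoD D b m = covec D b c := by
  rw [← root'_rootMono b, mul_assoc]
  rcases Ops.monoM_mul (ops_rel (D := D) b) ⟨.start, .start, rootBlk D⟩ m with
    h0 | ⟨-, z, hz, he⟩
  · exact Or.inl (by rw [monoD, monoD, h0, mul_zero])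
  · refine Or.inr ⟨⟨m.src, fun i => (z (some i)).src, (z none).src⟩, ?_⟩
    rw [monoD, monoD, he, covec]
    congr 2
    simp only [coMon, Mon.mk.injEq, true_and]
    funext i
    rcases i with _ | i
    · exact root_comp none _ _ (hz none)
    · exact root_comp (some i) _ _ (hz (some i))

theorem comp_co_cfg (c : D.Cfg) (i : SI D) (l : List (Al D i)) :
    Blk.comp (coBlk c i) ⟨(rootBlk D i).src, l, true⟩ =
      if l = (coBlk c i).src then some (rootBlk D i) else none := by
  have h1 : (coBlk c i).exact = true := by cases i <;> rfl
  have h2 : (coBlk c i).tgt = (rootBlk D i).src := by cases i <;> rfl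
  have h3 : rootBlk D i = ⟨(rootBlk D i).src, (rootBlk D i).src, true⟩ := by cases i <;> rfl
  unfold Blk.comp
  simp only [h1, if_true]
  by_cases hl : l = (coBlk c i).src
  · rw [if_pos (by rw [hl]), if_pos hl, if_pos hl, h2, ← h3]
  · rw [if_neg hl]
    split
    · rfl
    · simp

open Classical in
/-- Covectors pair with vectors by the Kronecker delta. -/
theorem covec_vec (b : Bool) (c c' : D.Cfg) :
    covec D b c * vec D b c' = if c = c' then gen D (.one (baseSrt b)) else 0 := by
  have hvec : vec D b c' = monoD D b ⟨c'.st, .start, cfgBlk c'⟩ * gen D (.root b) := rfl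
  rw [covec, hvec, mul_assoc, ← mul_assoc (monoD D b _)]
  split
  · next h =>
    subst h
    rw [monoD, monoD, Ops.monoM_mul_some (ops_rel (D := D) b) (z := rootBlk D) rfl fun i => ?_]
    · simp only [Ops.monoM, coMon]
      rw [root_corner]
      exact sub_eq_zero.1 (gen_rel D (.rootL b))
    · rcases i with _ | i
      · exact (comp_co_cfg c none c.hist).trans (if_pos rfl)
      · exact (comp_co_cfg c (some i) (c.stk i)).trans (if_pos rfl)
  · next h =>
    have : monoD D b (coMon c) * monoD D b ⟨c'.st, .start, cfgBlk c'⟩ = 0 := by
      refine Ops.monoM_mul_none (ops_rel (D := D) b) ?_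
      by_cases hs : c.st = c'.st
      · right
        by_contra hne
        push Not at hne
        apply h
        obtain ⟨st, stk, hist⟩ := c
        obtain ⟨st', stk', hist'⟩ := c'
        simp only at hs
        subst hs
        have hh : hist' = hist := by
          by_contra hx
          exact hne none ((comp_co_cfg (⟨st, stk, hist⟩ : D.Cfg) none hist').trans (if_neg hx))
        have hk : stk' = stk := funext fun i => by
          by_contra hx
          exact hne (some i)
            ((comp_co_cfg (⟨st, stk, hist⟩ : D.Cfg) (some i) (stk' i)).trans (if_neg hx))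
        rw [hh, hk]
      · exact Or.inl hs
    rw [this, zero_mul, mul_zero]

end Vale.Agent.P193.Bh.Alg
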