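import Mathlib
import Vale.Agent.P193.Bh.Alg.Point

/-!
# P193 algebra half: spanning sets

Between any two sorts the machine algebra is spanned by translations, monomials, vectors, and the
two values and the root test after a monomial.
-/

namespace Vale.Agent.P193.Bh.Alg

open Decider

set_option linter.unusedSectionVars false

variable {Ltr : Type} [Fintype Ltr] [DecidableEq Ltr] {D : Decider Ltr} {G : Type} [Group G]
variable (s : Setting D G)

/-- The maps from a copy to the group sort. -/
noncomputable def Setting.coreSpan (b : Bool) : Submodule (ZMod 2) (MAlg D) :=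
  Submodule.span (ZMod 2)
    {a | (∃ (y : Bool) (κ : MAlg D) (m : MonD D), κ ∈ s.toK (y || b) ∧
        a = κ * (gen D (valGen D b y) * monoD D b m)) ∨
      ∃ (κ : MAlg D) (m : MonD D), κ ∈ s.toK b ∧ a = κ * (gen D (.root' b) * monoD D b m)}

/-- The maps into the group sort. -/
noncomputable def Setting.HK : Srt → Submodule (ZMod 2) (MAlg D)
  | .O => s.toK false
  | .K => s.toK true
  | .S b => s.coreSpan b

/-- The maps into the base sort of a copy. -/
noncomputable def Setting.HB : Bool → Srt → Submodule (ZMod 2) (MAlg D)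
  | true, X => s.HK X
  | false, X => (s.HK X).map (LinearMap.mulLeft (ZMod 2) (gen D .delta))

/-- The maps into a copy. -/
noncomputable def Setting.HS (b : Bool) (X : Srt) : Submodule (ZMod 2) (MAlg D) :=
  Submodule.span (ZMod 2)
    {a | (X = .S b ∧ ∃ m, a = monoD D b m) ∨ ∃ c x, x ∈ s.HB b X ∧ a = vec D b c * x}

/-- The maps between two sorts. -/
noncomputable def Setting.H : Srt → Srt → Submodule (ZMod 2) (MAlg D)
  | .O, X => s.HB false X
  | .K, X => s.HB true X
  | .S b, X => s.HS b X

theorem HK_mul {κ x : MAlg D} {X : Srt} (hκ : κ ∈ s.toK true) (hx : x ∈ s.HK X) :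
    κ * x ∈ s.HK X := by
  cases X with
  | O => exact toK_mul s hκ hx
  | K => exact toK_mul s hκ hx
  | S b =>
    induction hx using Submodule.span_induction with
    | zero => rw [mul_zero]; exact zero_mem _
    | add _ _ _ _ h1 h2 => rw [mul_add]; exact add_mem h1 h2
    | smul t _ _ h1 => rw [mul_smul_comm]; exact Submodule.smul_mem _ t h1
    | mem a ha =>
      rcases ha with ⟨y, κ', m, hκ', rfl⟩ | ⟨κ', m, hκ', rfl⟩
      · exact Submodule.subset_span (Or.inl ⟨y, κ * κ', m, toK_mul s hκ hκ', (mul_assoc ..).symm⟩)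
      · exact Submodule.subset_span (Or.inr ⟨κ * κ', m, toK_mul s hκ hκ', (mul_assoc ..).symm⟩)

theorem lett_mem (a : Ltr) : gen D (.lett a) ∈ s.toK true := by
  have h : gen D (.lett a) = letW D [a] := (gen_oneS (D := D) (.lett a)).symm
  rw [h, letW_eq_trans s]
  exact trans_mem s _

theorem iota_delta_mem : gen D .iota * gen D .delta ∈ s.toK true :=
  Submodule.subset_span (Or.inr ⟨1, 1, by
    rw [trans_one, show gen D (.one .K) * gen D .iota = gen D .iota from
      one_gen (D := D) .iota, show gen D .delta * gen D (.one .K) = gen D .delta from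
      gen_oneS (D := D) .delta]⟩)

theorem one_HK {X : Srt} {x : MAlg D} (hx : x ∈ s.HK X) : gen D (.one .K) * x ∈ s.HK X := by
  rw [← trans_one s]
  exact HK_mul s (trans_mem s 1) hx

theorem HB_mem {b : Bool} {X : Srt} {x : MAlg D} (hx : x ∈ s.HB b X) :
    ∀ {κ : MAlg D}, κ ∈ s.toK b → κ * x ∈ s.HK X := by
  intro κ hκ
  cases b
  · obtain ⟨y, hy, rfl⟩ := hx
    induction hκ using Submodule.span_induction with
    | zero => rw [zero_mul]; exact zero_mem _
    | add _ _ _ _ h1 h2 => rw [add_mul]; exact add_mem h1 h2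
    | smul t _ _ h1 => rw [smul_mul_assoc]; exact Submodule.smul_mem _ t h1
    | mem a ha =>
      obtain ⟨g, rfl⟩ := ha
      rw [LinearMap.mulLeft_apply, mul_assoc, ← mul_assoc (gen D .iota)]
      exact HK_mul s (trans_mem s g) (HK_mul s (iota_delta_mem s) hy)
  · exact HK_mul s hκ hx

theorem vec_mul_mem (b : Bool) (c : D.Cfg) {X : Srt} {x : MAlg D} (hx : x ∈ s.HB b X) :
    vec D b c * x ∈ s.HS b X :=
  Submodule.subset_span (Or.inr ⟨c, x, hx, rfl⟩)

theorem one_base_mem {b : Bool} {X : Srt} {x : MAlg D} (hx : x ∈ s.HB b X) :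
    gen D (.one (baseSrt b)) * x ∈ s.HB b X := by
  cases b
  · obtain ⟨y, hy, rfl⟩ := hx
    refine ⟨y, hy, ?_⟩
    simp only [LinearMap.mulLeft_apply, baseSrt, ← mul_assoc]
    exact congrArg (· * y) (one_gen (D := D) .delta).symm
  · exact one_HK s hx

/-- An operator of a copy applied to the maps into that copy. -/
theorem op_HS (b : Bool) {a : MAlg D}
    (ha : ∀ m : MonD D, a * monoD D b m = 0 ∨ ∃ m', a * monoD D b m = monoD D b m')
    {X : Srt} {x : MAlg D} (hx : x ∈ s.HS b X) : a * x ∈ s.HS b X := by
  induction hx using Submodule.span_induction with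
  | zero => rw [mul_zero]; exact zero_mem _
  | add _ _ _ _ h1 h2 => rw [mul_add]; exact add_mem h1 h2
  | smul t _ _ h1 => rw [mul_smul_comm]; exact Submodule.smul_mem _ t h1
  | mem z hz =>
    rcases hz with ⟨rfl, m, rfl⟩ | ⟨c, x, hx, rfl⟩
    · rcases ha m with h0 | ⟨m', h0⟩ <;> rw [h0]
      · exact zero_mem _
      · exact Submodule.subset_span (Or.inl ⟨rfl, m', rfl⟩)
    · rw [← mul_assoc, vec, ← mul_assoc]
      change a * monoD D b ⟨c.st, .start, cfgBlk c⟩ * gen D (.root b) * x ∈ _
      rcases ha ⟨c.st, .start, cfgBlk c⟩ with h0 | ⟨m', h0⟩ <;> rw [h0]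
      · rw [zero_mul, zero_mul]; exact zero_mem _
      · rcases mono_root b m' with h1 | ⟨c', h1⟩ <;> rw [monoD, h1]
        · rw [zero_mul]; exact zero_mem _
        · exact vec_mul_mem s b c' hx

theorem push_HS (b : Bool) (i : SI D) (x : Al D i) (m : MonD D) :
    gen D (.push b i x) * monoD D b m = 0 ∨
      ∃ m', gen D (.push b i x) * monoD D b m = monoD D b m' :=
  Or.inr ⟨⟨m.dst, m.src, Function.update m.blk i ⟨(m.blk i).src, x :: (m.blk i).tgt, (m.blk i).exact⟩⟩,
    Ops.push_mono (ops_rel (D := D) b) i x m.dst m.src m.blk⟩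

theorem pop_HS (b : Bool) (i : SI D) (x : Al D i) (m : MonD D) :
    gen D (.pop b i x) * monoD D b m = 0 ∨
      ∃ m', gen D (.pop b i x) * monoD D b m = monoD D b m' := by
  rcases Ops.pop_mono (ops_rel (D := D) b) i x m.dst m.src m.blk with h | ⟨c, h⟩
  · exact Or.inl h
  · exact Or.inr ⟨⟨m.dst, m.src, Function.update m.blk i c⟩, h⟩

theorem bot_HS (b : Bool) (i : SI D) (m : MonD D) :
    gen D (.bot b i) * monoD D b m = 0 ∨
      ∃ m', gen D (.bot b i) * monoD D b m = monoD D b m' := by
  rcases Ops.bot_mono (ops_rel (D := D) b) i m.dst m.src m.blk with h | ⟨c, h⟩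
  · exact Or.inl h
  · exact Or.inr ⟨⟨m.dst, m.src, Function.update m.blk i c⟩, h⟩

theorem st_HS (b : Bool) (q q' : D.St) (m : MonD D) :
    gen D (.st b q q') * monoD D b m = 0 ∨
      ∃ m', gen D (.st b q q') * monoD D b m = monoD D b m' := by
  have h : gen D (.st b q q') * monoD D b m = _ :=
    Ops.st_mono (ops_rel (D := D) b) q q' m.dst m.src m.blk
  rw [h]
  split
  · exact Or.inr ⟨⟨q, m.src, m.blk⟩, rfl⟩
  · exact Or.inl rfl

theorem root'_HS (b : Bool) {X : Srt} {x : MAlg D} (hx : x ∈ s.HS b X) :
    gen D (.root' b) * x ∈ s.HB b X := by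
  induction hx using Submodule.span_induction with
  | zero => rw [mul_zero]; exact zero_mem _
  | add _ _ _ _ h1 h2 => rw [mul_add]; exact add_mem h1 h2
  | smul t _ _ h1 => rw [mul_smul_comm]; exact Submodule.smul_mem _ t h1
  | mem z hz =>
    rcases hz with ⟨rfl, m, rfl⟩ | ⟨c, x, hx, rfl⟩
    · have hk : jot D (gen D) b * (gen D (.root' b) * monoD D b m) ∈ s.HK (.S b) :=
        Submodule.subset_span (Or.inr ⟨_, m, jot_mem s b, rfl⟩)
      cases b
      · refine ⟨_, hk, ?_⟩
        simp only [LinearMap.mulLeft_apply, jot, ← mul_assoc,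
          sub_eq_zero.1 (gen_rel D .deltaIota)]
        exact congrArg (· * monoD D false m) (one_gen (D := D) (.root' false))
      · simp only [jot, ← mul_assoc] at hk
        rwa [show gen D (.one .K) * gen D (.root' true) = gen D (.root' true) from
          one_gen (D := D) (.root' true)] at hk
    · rw [← mul_assoc]
      by_cases hc : c = D.root
      · rw [hc, vec_root, sub_eq_zero.1 (gen_rel D (.rootL b))]
        exact one_base_mem s hx
      · rw [root'_vec b hc, zero_mul]; exact zero_mem _

theorem value_HS (b y : Bool) {X : Srt} {x : MAlg D} (hx : x ∈ s.HS b X) :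
    gen D (valGen D b y) * x ∈ s.HB (y || b) X := by
  induction hx using Submodule.span_induction with
  | zero => rw [mul_zero]; exact zero_mem _
  | add _ _ _ _ h1 h2 => rw [mul_add]; exact add_mem h1 h2
  | smul t _ _ h1 => rw [mul_smul_comm]; exact Submodule.smul_mem _ t h1
  | mem z hz =>
    rcases hz with ⟨rfl, m, rfl⟩ | ⟨c, x, hx, rfl⟩
    · have hk : jot D (gen D) (y || b) * (gen D (valGen D b y) * monoD D b m) ∈ s.HK (.S b) :=
        Submodule.subset_span (Or.inl ⟨y, _, m, jot_mem s _, rfl⟩)
      cases b <;> cases y <;> simp only [Bool.or_false, Bool.or_true, valGen] at hk ⊢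
      · refine ⟨_, hk, ?_⟩
        simp only [LinearMap.mulLeft_apply, jot, ← mul_assoc,
          sub_eq_zero.1 (gen_rel D .deltaIota)]
        exact congrArg (· * monoD D false m) (one_gen (D := D) (.valB false))
      all_goals
        simp only [jot, ← mul_assoc] at hk
      · rwa [show gen D (.one .K) * gen D (.valY false) = gen D (.valY false) from
          one_gen (D := D) (.valY false)] at hk
      · rwa [show gen D (.one .K) * gen D (.valB true) = gen D (.valB true) from
          one_gen (D := D) (.valB true)] at hk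
      · rwa [show gen D (.one .K) * gen D (.valY true) = gen D (.valY true) from
          one_gen (D := D) (.valY true)] at hk
    · rw [← mul_assoc]
      by_cases hc : D.Reach c
      · cases y
        · rw [valGen, valB_vec b hc, Bool.false_or]
          exact one_base_mem s hx
        · rw [valGen, valY_vec b hc, Bool.true_or, mul_assoc, letW_eq_trans s]
          exact HK_mul s (trans_mem s _) (HB_mem s hx (jot_mem s b))
      · rw [value_vec_zero b y _ c rfl hc, zero_mul]; exact zero_mem _

theorem gen_H (g : Gen D) {X : Srt} {x : MAlg D} (hx : x ∈ s.H g.src X) :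
    gen D g * x ∈ s.H g.tgt X := by
  cases g with
  | one t =>
    cases t with
    | O => exact one_base_mem s (b := false) hx
    | K => exact one_base_mem s (b := true) hx
    | S b => exact op_HS s b (fun m => Or.inr ⟨m, by
        have := Ops.one_blkProd (ops_rel (D := D) b) Finset.univ.toList m.blk
        rw [monoD, Ops.monoM, Ops.mono, ← mul_assoc]
        exact congrArg (· * _) ((ops_rel (D := D) b).st_corner m.dst m.src).1⟩) hx
  | lett a => exact HK_mul s (lett_mem s a) hx
  | iota =>
    have h := HB_mem s (b := false) hx (jot_mem s false)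
    exact h
  | delta => exact ⟨x, hx, rfl⟩
  | push b i x => exact op_HS s b (push_HS b i x) hx
  | pop b i x => exact op_HS s b (pop_HS b i x) hx
  | bot b i => exact op_HS s b (bot_HS b i) hx
  | st b q q' => exact op_HS s b (st_HS b q q') hx
  | root b =>
    have hx' : x ∈ s.HB b X := by cases b <;> exact hx
    show gen D (.root b) * x ∈ s.HS b X
    rw [← vec_root b]
    exact vec_mul_mem s b _ hx'
  | root' b =>
    have := root'_HS s b hx
    cases b <;> exact this
  | valY b =>
    have := value_HS s b true hx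
    cases b <;> exact this
  | valB b =>
    have := value_HS s b false hx
    cases b <;> exact this

theorem one_mem_H (Y : Srt) : gen D (.one Y) ∈ s.H Y Y := by
  cases Y with
  | O =>
    exact ⟨jot D (gen D) false, jot_mem s false, sub_eq_zero.1 (gen_rel D .deltaIota)⟩
  | K =>
    rw [← trans_one s]
    exact trans_mem s 1
  | S b =>
    have h := ops_rel (D := D) b
    have hl : ∀ l : List (SI D),
        (opsOf D (gen D) b).blkProd l (fun _ => ⟨[], [], false⟩) = (opsOf D (gen D) b).one := by
      intro l
      induction l with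
      | nil => rfl
      | cons i l ih =>
        simp only [Ops.blkProd, List.foldr_cons] at ih ⊢
        rw [ih]
        simp [Ops.blk, Ops.pushW, Ops.popW, Ops.mid, h.one_idem]
    have : gen D (.one (.S b)) =
        ∑ q : D.St, monoD D b ⟨q, q, fun _ => ⟨[], [], false⟩⟩ := by
      simp only [monoD, Ops.monoM, Ops.mono, hl, (h.st_corner _ _).2]
      exact h.st_sum.symm
    rw [this]
    exact sum_mem fun q _ => Submodule.subset_span (Or.inl ⟨rfl, _, rfl⟩)

/-- The spanning theorem. -/
theorem span_H (a : MAlg D) (Y X : Srt) :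
    gen D (.one Y) * a * gen D (.one X) ∈ s.H Y X := by
  let P : MAlg D → Prop := fun a => ∀ Y X, gen D (.one Y) * a * gen D (.one X) ∈ s.H Y X
  suffices ∀ f : Free D, ∀ w, P w → P (proj D f * w) by
    obtain ⟨f, rfl⟩ := proj_surjective D a
    have h1 : P 1 := fun Y X => by
      rw [mul_one, gen_one_mul]
      split
      · next h => subst h; exact one_mem_H s Y
      · exact zero_mem _
    have := this f 1 h1 Y X
    rwa [mul_one] at this
  intro f
  induction f using FreeAlgebra.induction with
  | grade0 r =>
    intro w hw Y X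
    rw [AlgHom.commutes, ← Algebra.smul_def, mul_smul_comm, smul_mul_assoc]
    exact Submodule.smul_mem _ _ (hw Y X)
  | grade1 g =>
    intro w hw Y X
    change gen D (.one Y) * (gen D g * w) * gen D (.one X) ∈ s.H Y X
    rw [← one_gen g, ← gen_oneS g]
    simp only [← mul_assoc, gen_one_mul]
    by_cases hY : Y = g.tgt
    · subst hY
      rw [if_pos rfl, one_gen g, mul_assoc (gen D g), mul_assoc (gen D g)]
      exact gen_H s g (hw g.src X)
    · rw [if_neg hY]
      simp
  | mul f g hf hg =>
    intro w hw
    rw [map_mul, mul_assoc]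
    exact hf _ (hg w hw)
  | add f g hf hg =>
    intro w hw Y X
    rw [map_add, add_mul, mul_add, add_mul]
    exact add_mem (hf w hw Y X) (hg w hw Y X)

end Vale.Agent.P193.Bh.Alg
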