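import Mathlib
import Vale.Agent.P193.Bh.Alg.Span

/-!
# P193 algebra half: pulling values back along the history

A value after a monomial that pushes on the history equals a weight times the value after the
monomial composed with the rule backwards.  Hence a map from a copy to the group sort is a sum of
point functionals and of values after monomials that only read a history of one fixed depth.
-/

namespace Vale.Agent.P193.Bh.Alg

open Decider

set_option linter.unusedSectionVars false

variable {Ltr : Type} [Fintype Ltr] [DecidableEq Ltr] {D : Decider Ltr} {G : Type} [Group G]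

/-- The backwards monomial of a rule. -/
def bwdMon (o : D.Op) : MonD D := ⟨(D.rule o).src, (D.rule o).dst, bwdBlk D o⟩

theorem Blk.comp_self {α : Type} [DecidableEq α] (p q : List α) (e : Bool) :
    Blk.comp ⟨p, p, e⟩ ⟨q, p, e⟩ = some (⟨q, p, e⟩ : Blk α) := by
  unfold Blk.comp
  cases e <;> simp

theorem Blk.comp_top {α : Type} [DecidableEq α] (p q w t : List α) (e : Bool) :
    Blk.comp ⟨p, q, false⟩ ⟨w, p ++ t, e⟩ = some (⟨w, q ++ t, e⟩ : Blk α) := by
  unfold Blk.comp
  simp

theorem Blk.comp_some {α : Type} [DecidableEq α] {p q w u : List α} {e : Bool} {z : Blk α}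
    (h : Blk.comp ⟨p, q, false⟩ ⟨w, u, e⟩ = some z) :
    (∃ t, u = p ++ t ∧ z = ⟨w, q ++ t, e⟩) ∨
      (e = false ∧ u <+: p ∧ z = ⟨w ++ p.drop u.length, q, false⟩) := by
  unfold Blk.comp at h
  simp only [Bool.false_eq_true, if_false] at h
  split at h
  · next hp =>
    obtain ⟨t, rfl⟩ := hp
    injection h with h
    exact Or.inl ⟨t, rfl, by rw [← h, List.drop_left]⟩
  · split at h
    · next hh => injection h with h; exact Or.inr ⟨hh.1, hh.2, h.symm⟩
    · simp at h

theorem comp_dom_bwd (o : D.Op) (i : SI D) :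
    (domBlk D o i).comp (bwdBlk D o i) = some (bwdBlk D o i) := by
  rcases i with _ | i <;> exact Blk.comp_self _ _ _

theorem comp_bwd_hist (o : D.Op) (v u : List D.Op) (e : Bool) :
    Blk.comp (bwdBlk D o none) (⟨v, o :: u, e⟩ : Blk (Al D none)) = some ⟨v, u, e⟩ :=
  Blk.comp_top (α := Al D none) [o] [] v u e

theorem push_pop_mono (b : Bool) (i : SI D) (x : Al D i) (m : MonD D) (u : List (Al D i))
    (hu : (m.blk i).tgt = x :: u) :
    gen D (.push b i x) * gen D (.pop b i x) * monoD D b m = monoD D b m := by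
  have h := ops_rel (D := D) b
  rw [mul_assoc, monoD, Ops.monoM]
  have e1 := Ops.mul_mono h (i := i) (q' := m.dst) (q := m.src) (b := m.blk)
    (a := gen D (.pop b i x)) (c := ⟨(m.blk i).src, u, (m.blk i).exact⟩)
    ((h.st_comm m.dst m.src i).2.1 x).symm
    (by
      rw [show m.blk i = ⟨(m.blk i).src, x :: u, (m.blk i).exact⟩ by rw [← hu]]
      exact (Ops.pop_blk_cons h i x x _ u _).trans (if_pos rfl))
    (fun j hj => Ops.commute_pop_blk h i x hj _)
  rw [e1]
  refine (Ops.push_mono h i x m.dst m.src _).trans ?_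
  rw [Function.update_idem, Function.update_self]
  congr 1
  refine Function.update_eq_self_iff.2 ?_
  rw [← hu]

/-- One step back along the history. -/
theorem pull_step (b y : Bool) (o : D.Op) (m : MonD D) (u : List D.Op)
    (hu : (m.blk none).tgt = o :: u) :
    gen D (valGen D b y) * monoD D b m =
      wgt D (gen D) b y o * (gen D (valGen D b y) * (monoD D b (bwdMon o) * monoD D b m)) := by
  have hm := gen_rel D (.value b y (.mtch o))
  simp only [relOf, valRel, mul_sub, sub_eq_zero] at hm
  have hs := sub_eq_zero.1 (gen_rel D (.value b y (.step o)))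
  conv_lhs => rw [← push_pop_mono b none o m u hu, ← mul_assoc, hm]
  rw [← mul_assoc (gen D (valGen D b y)), hs]
  simp only [mul_assoc]
  congr 2
  have : (opsOf D (gen D) b).mono (D.rule o).src (D.rule o).src (domBlk D o) *
      monoD D b (bwdMon o) = monoD D b (bwdMon o) :=
    Ops.monoM_mul_some (ops_rel (D := D) b) (m := ⟨_, _, domBlk D o⟩) (n := bwdMon o) rfl
      (comp_dom_bwd o)
  rw [← mul_assoc]
  exact congrArg (· * _) this

variable (s : Setting D G)

/-- The point functionals. -/
noncomputable def Setting.pts (b : Bool) : Submodule (ZMod 2) (MAlg D) :=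
  Submodule.span (ZMod 2) {a | ∃ κ c, κ ∈ s.toK b ∧ a = κ * covec D b c}

/-- Values after the monomials in `P`. -/
noncomputable def Setting.valSpan (b : Bool) (P : MonD D → Prop) : Submodule (ZMod 2) (MAlg D) :=
  Submodule.span (ZMod 2)
    {a | ∃ (y : Bool) (κ : MAlg D) (m : MonD D),
      κ ∈ s.toK (y || b) ∧ P m ∧ a = κ * (gen D (valGen D b y) * monoD D b m)}

/-- The monomial only reads the history, to the depth `n`. -/
def Aligned (n : ℕ) (m : MonD D) : Prop :=
  (m.blk none).exact = false ∧ (m.blk none).tgt = [] ∧ (m.blk none).src.length = n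

theorem toK_one_base {b : Bool} {κ : MAlg D} (hκ : κ ∈ s.toK b) :
    κ * gen D (.one (baseSrt b)) = κ := by
  induction hκ using Submodule.span_induction with
  | zero => exact zero_mul _
  | add _ _ _ _ h1 h2 => rw [add_mul, h1, h2]
  | smul t _ _ h1 => rw [smul_mul_assoc, h1]
  | mem a ha =>
    cases b
    · obtain ⟨g, rfl⟩ := ha
      rw [mul_assoc]
      exact congrArg _ (gen_oneS (D := D) .iota)
    · rcases ha with ⟨g, rfl⟩ | ⟨g, h, rfl⟩
      · exact (trans_corner s g).2
      · rw [mul_assoc, mul_assoc (gen D .delta)]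
        exact congrArg (fun z => s.trans g * gen D .iota * (gen D .delta * z)) (trans_corner s h).2

theorem toK_wgt {b y : Bool} {κ : MAlg D} (hκ : κ ∈ s.toK (y || b)) (o : D.Op) :
    κ * wgt D (gen D) b y o ∈ s.toK (y || b) := by
  cases y
  · simp only [Bool.false_or] at hκ ⊢
    rw [show wgt D (gen D) b false o = gen D (.one (baseSrt b)) from rfl, toK_one_base s hκ]
    exact hκ
  · simp only [Bool.true_or] at hκ ⊢
    refine toK_mul s hκ ?_
    have h1 : gen D (.one .K) ∈ s.toK true := trans_one s ▸ trans_mem s 1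
    cases o <;> first | exact lett_mem s _ | exact h1

theorem toK_jot {b y : Bool} {κ : MAlg D} (hκ : κ ∈ s.toK (y || b)) :
    κ * (if y then jot D (gen D) b else gen D (.one (baseSrt b))) ∈ s.toK b := by
  cases y
  · simp only [Bool.false_or] at hκ
    rw [if_neg Bool.false_ne_true, toK_one_base s hκ]
    exact hκ
  · exact toK_mul s hκ (jot_mem s b)

theorem root'_pts {b : Bool} {κ : MAlg D} (hκ : κ ∈ s.toK b) (m : MonD D) :
    κ * (gen D (.root' b) * monoD D b m) ∈ s.pts b := by
  rcases root'_mono b m with h | ⟨c, h⟩ <;> rw [h]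
  · rw [mul_zero]; exact zero_mem _
  · exact Submodule.subset_span ⟨κ, c, hκ, rfl⟩

/-- With the whole history known to be empty a value is a point functional. -/
theorem exact_pts {b y : Bool} {κ : MAlg D} (hκ : κ ∈ s.toK (y || b)) (m : MonD D)
    (ht : (m.blk none).tgt = []) (he : (m.blk none).exact = true) :
    κ * (gen D (valGen D b y) * monoD D b m) ∈ s.pts b := by
  have h := ops_rel (D := D) b
  have hbot : gen D (.bot b none) * monoD D b m = monoD D b m := by
    rw [monoD, Ops.monoM]
    have hb : m.blk none = ⟨(m.blk none).src, [], true⟩ := by rw [← ht, ← he]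
    refine (Ops.mul_mono h (i := none) (c := m.blk none) ((h.st_comm m.dst m.src none).2.2).symm
      ?_ fun j hj => Ops.commute_bot_blk h none hj _).trans (by rw [Function.update_eq_self])
    rw [hb]
    exact Ops.bot_blk_nil h none _ true
  have hr := gen_rel D (.value b y .noHist)
  simp only [relOf, valRel, mul_sub, sub_eq_zero] at hr
  rw [← hbot, ← mul_assoc (gen D (valGen D b y)), hr, ← mul_assoc (gen D (valGen D b y)),
    sub_eq_zero.1 (gen_rel D (.value b y .root)), mul_assoc, ← mul_assoc κ]
  exact root'_pts s (toK_jot s hκ) m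

/-- Pulling back until the history is only read. -/
theorem pull_mem (b : Bool) (n : ℕ) (P : D.St → Prop)
    (hP : ∀ o : D.Op, P (D.rule o).dst → P (D.rule o).src) :
    ∀ (k : ℕ) (m : MonD D), (m.blk none).tgt.length = k → (m.blk none).Deep n → P m.dst →
      ∀ {y : Bool} {κ : MAlg D}, κ ∈ s.toK (y || b) →
        κ * (gen D (valGen D b y) * monoD D b m) ∈
          s.pts b ⊔ s.valSpan b (fun m => Aligned n m ∧ P m.dst) := by
  intro k
  induction k with
  | zero =>
    intro m hk hd hp y κ hκ
    have ht : (m.blk none).tgt = [] := List.length_eq_zero_iff.1 hk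
    cases he : (m.blk none).exact
    · refine Submodule.mem_sup_right (Submodule.subset_span ⟨y, κ, m, hκ, ⟨⟨he, ht, ?_⟩, hp⟩, rfl⟩)
      unfold Blk.Deep at hd
      rwa [if_neg (by simp [he])] at hd
    · exact Submodule.mem_sup_left (exact_pts s hκ m ht he)
  | succ k ih =>
    intro m hk hd hp y κ hκ
    rcases hu : (m.blk none).tgt with _ | ⟨o, u⟩
    · simp [hu] at hk
    rw [pull_step b y o m u hu]
    rcases Ops.monoM_mul (ops_rel (D := D) b) (bwdMon o) m with h0 | ⟨hdst, z, hz, he⟩
    · rw [monoD, monoD, h0, mul_zero, mul_zero, mul_zero]; exact zero_mem _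
    · rw [monoD, monoD, he, ← mul_assoc κ]
      have hzn : z none = ⟨(m.blk none).src, u, (m.blk none).exact⟩ := by
        have h1 : m.blk none = ⟨(m.blk none).src, o :: u, (m.blk none).exact⟩ := by rw [← hu]
        have := hz none
        rw [h1] at this
        exact (Option.some.inj ((comp_bwd_hist o _ _ _).symm.trans this)).symm
      refine ih ⟨(bwdMon o).dst, m.src, z⟩ ?_ ?_ ?_ (toK_wgt s hκ o)
      · simp only [hzn]
        simp only [hu, List.length_cons, Nat.add_right_cancel_iff] at hk
        exact hk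
      · simp only [hzn]
        exact hd
      · refine hP o ?_
        rw [show (D.rule o).dst = m.dst from hdst]
        exact hp

/-- Every value after a monomial, pulled back to any large enough depth. -/
theorem pull_all (b : Bool) (n : ℕ) (P : D.St → Prop)
    (hP : ∀ o : D.Op, P (D.rule o).dst → P (D.rule o).src) (m : MonD D)
    (hn : (m.blk none).src.length < n) (hp : P m.dst) {y : Bool} {κ : MAlg D}
    (hκ : κ ∈ s.toK (y || b)) :
    κ * (gen D (valGen D b y) * monoD D b m) ∈
      s.pts b ⊔ s.valSpan b (fun m => Aligned n m ∧ P m.dst) := by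
  rw [← mul_assoc]
  refine Ops.refine_set (ops_rel (D := D) b) _ _ (fun _ => n) {none} m
    (fun i hi => by rw [Finset.mem_singleton.1 hi]; exact hn) fun z _ hz => ?_
  rw [mul_assoc]
  exact pull_mem s b n P hP _ ⟨m.dst, m.src, z⟩ rfl (hz none (Finset.mem_singleton_self _)).2 hp hκ

/-- The stacks other than the history read to one depth. -/
theorem refine_rest (b : Bool) (n L : ℕ) (P : D.St → Prop) (m : MonD D) (hm : Aligned n m)
    (hp : P m.dst) (hL : ∀ i, (m.blk i).src.length < L) {y : Bool} {κ : MAlg D}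
    (hκ : κ ∈ s.toK (y || b)) :
    κ * (gen D (valGen D b y) * monoD D b m) ∈
      s.valSpan b (fun m => Aligned n m ∧ P m.dst ∧ ∀ i, (m.blk (some i)).Deep L) := by
  rw [← mul_assoc]
  refine Ops.refine_set (ops_rel (D := D) b) _ _ (fun _ => L) (Finset.univ.erase none) m
    (fun i _ => hL i) fun z hz1 hz2 => ?_
  rw [mul_assoc]
  have hzn : z none = m.blk none := hz1 none (Finset.notMem_erase _ _)
  refine Submodule.subset_span ⟨y, κ, ⟨m.dst, m.src, z⟩, hκ, ⟨?_, hp, fun i => ?_⟩, rfl⟩
  · unfold Aligned at hm ⊢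
    simp only [hzn]
    exact hm
  · exact (hz2 (some i) (Finset.mem_erase.2 ⟨by simp, Finset.mem_univ _⟩)).2

/-- Two thresholds make everything a leaf: the first for the history, the second for the rest. -/
theorem leaf_form (b : Bool) (P : D.St → Prop)
    (hP : ∀ o : D.Op, P (D.rule o).dst → P (D.rule o).src) {a : MAlg D}
    (ha : a ∈ s.pts b ⊔ s.valSpan b (fun m => P m.dst)) :
    ∃ n L, a ∈ s.pts b ⊔ s.valSpan b
      (fun m => Aligned n m ∧ P m.dst ∧ ∀ i, (m.blk (some i)).Deep L) := by
  have h1 : ∃ N, ∀ n, N ≤ n → a ∈ s.pts b ⊔ s.valSpan b (fun m => Aligned n m ∧ P m.dst) := by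
    obtain ⟨p, hp, q, hq, rfl⟩ := Submodule.mem_sup.1 ha
    suffices ∃ N, ∀ n, N ≤ n → q ∈ s.pts b ⊔ s.valSpan b (fun m => Aligned n m ∧ P m.dst) by
      obtain ⟨N, hN⟩ := this
      exact ⟨N, fun n hn => add_mem (Submodule.mem_sup_left hp) (hN n hn)⟩
    clear ha
    induction hq using Submodule.span_induction with
    | zero => exact ⟨0, fun n _ => zero_mem _⟩
    | add u v _ _ h1 h2 =>
      obtain ⟨N1, hN1⟩ := h1
      obtain ⟨N2, hN2⟩ := h2
      exact ⟨max N1 N2, fun n hn => add_mem (hN1 n ((le_max_left _ _).trans hn))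
        (hN2 n ((le_max_right _ _).trans hn))⟩
    | smul t u _ h1 =>
      obtain ⟨N, hN⟩ := h1
      exact ⟨N, fun n hn => Submodule.smul_mem _ t (hN n hn)⟩
    | mem u hu =>
      obtain ⟨y, κ, m, hκ, hm, rfl⟩ := hu
      exact ⟨(m.blk none).src.length + 1, fun n hn => pull_all s b n P hP m hn hm hκ⟩
  obtain ⟨N, hN⟩ := h1
  obtain ⟨p, hp, q, hq, he⟩ := Submodule.mem_sup.1 (hN N le_rfl)
  suffices ∃ M, ∀ L, M ≤ L → q ∈ s.valSpan b
      (fun m => Aligned N m ∧ P m.dst ∧ ∀ i, (m.blk (some i)).Deep L) by
    obtain ⟨M, hM⟩ := this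
    refine ⟨N, M, ?_⟩
    rw [← he]
    exact add_mem (Submodule.mem_sup_left hp) (Submodule.mem_sup_right (hM M le_rfl))
  clear he
  induction hq using Submodule.span_induction with
  | zero => exact ⟨0, fun L _ => zero_mem _⟩
  | add u v _ _ h1 h2 =>
    obtain ⟨N1, hN1⟩ := h1
    obtain ⟨N2, hN2⟩ := h2
    exact ⟨max N1 N2, fun L hL => add_mem (hN1 L ((le_max_left _ _).trans hL))
      (hN2 L ((le_max_right _ _).trans hL))⟩
  | smul t u _ h1 =>
    obtain ⟨M, hM⟩ := h1
    exact ⟨M, fun L hL => Submodule.smul_mem _ t (hM L hL)⟩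
  | mem u hu =>
    obtain ⟨y, κ, m, hκ, ⟨hm, hpm⟩, rfl⟩ := hu
    exact ⟨(Finset.univ.sup fun i => (m.blk i).src.length) + 1, fun L hL =>
      refine_rest s b N L P m hm hpm (fun i =>
        lt_of_le_of_lt (Finset.le_sup (f := fun i => (m.blk i).src.length) (Finset.mem_univ i)) hL)
        hκ⟩

end Vale.Agent.P193.Bh.Alg
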