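import Mathlib
import Vale.Agent.P193.Bh.Alg.Pull

/-!
# P193 algebra half: the windows of the phases `start` and `pop`

The imposed invariants kill values after monomials into impossible windows.  In the phase `pop`
the fillers are removed forwards, which leaves a window that is zero, a window met by a `sand`
branch, or one of the two final windows.
-/

namespace Vale.Agent.P193.Bh.Alg

open Decider

set_option linter.unusedSectionVars false

variable {Ltr : Type} [Fintype Ltr] [DecidableEq Ltr] {D : Decider Ltr} (b : Bool)

theorem Blk.eq_mk {α : Type} {z : Blk α} {u : List α} (h : z.tgt = u) :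
    z = ⟨z.src, u, z.exact⟩ := by
  subst h
  rfl

/-- The monomial with one block replaced. -/
noncomputable def Mon.upd (m : MonD D) (i : SI D) (z : Blk (Al D i)) : MonD D :=
  ⟨m.dst, m.src, Function.update m.blk i z⟩

theorem pop_top (i : SI D) (x : Al D i) (m : MonD D) (u : List (Al D i))
    (hu : (m.blk i).tgt = x :: u) :
    gen D (.pop b i x) * monoD D b m =
      monoD D b (m.upd i ⟨(m.blk i).src, u, (m.blk i).exact⟩) := by
  have h := ops_rel (D := D) b
  exact Ops.mul_mono h (i := i) (q' := m.dst) (q := m.src) (b := m.blk)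
    ((h.st_comm m.dst m.src i).2.1 x).symm
    (by
      rw [show m.blk i = ⟨(m.blk i).src, x :: u, (m.blk i).exact⟩ by rw [← hu]]
      exact (Ops.pop_blk_cons h i x x _ u _).trans (if_pos rfl))
    (fun j hj => Ops.commute_pop_blk h i x hj _)

theorem push_top (i : SI D) (x : Al D i) (m : MonD D) (u : List (Al D i))
    (hu : (m.blk i).tgt = x :: u) :
    gen D (.push b i x) * monoD D b (m.upd i ⟨(m.blk i).src, u, (m.blk i).exact⟩) =
      monoD D b m := by
  rw [← pop_top b i x m u hu, ← mul_assoc]
  exact push_pop_mono b i x m u hu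

theorem bot_self (i : SI D) (m : MonD D) (ht : (m.blk i).tgt = [])
    (he : (m.blk i).exact = true) : gen D (.bot b i) * monoD D b m = monoD D b m := by
  have h := ops_rel (D := D) b
  have hb : m.blk i = ⟨(m.blk i).src, [], true⟩ := by rw [← ht, ← he]
  refine (Ops.mul_mono h (i := i) (c := m.blk i) ((h.st_comm m.dst m.src i).2.2).symm
    ?_ fun j hj => Ops.commute_bot_blk h i hj _).trans (congrArg (fun z => monoD D b ⟨m.dst, m.src, z⟩) (Function.update_eq_self i m.blk))
  rw [hb]
  exact Ops.bot_blk_nil h i _ true

theorem st_self (q : D.St) (m : MonD D) (hq : m.dst = q) :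
    gen D (.st b q q) * monoD D b m = monoD D b m := by
  subst hq
  exact (Ops.st_mono (ops_rel (D := D) b) m.dst m.dst m.dst m.src m.blk).trans (if_pos rfl)

theorem bad_zero (y : Bool) (w : Fin 5) (v : Bool) (k : D.K) (x z : D.Sy) (m : MonD D)
    (h : badOp D (gen D) b w v k x z * monoD D b m = monoD D b m) :
    gen D (valGen D b y) * monoD D b m = 0 := by
  have hr : gen D (valGen D b y) * badOp D (gen D) b w v k x z = 0 :=
    gen_rel D (.value b y (.bad w v k x z))
  rw [← h, ← mul_assoc, hr, zero_mul]

theorem pop_work_zero (y : Bool) (v : Bool) (k : D.K) (x : D.Sy) (m : MonD D) (u : List D.Sy)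
    (hd : m.dst = .pop v) (hu : (m.blk (some (some k))).tgt = x :: u) :
    gen D (valGen D b y) * monoD D b m = 0 := by
  refine bad_zero b y 0 v k x x m ?_
  simp only [badOp, opsOf]
  rw [mul_assoc]
  exact (congrArg _ (push_pop_mono b (some (some k)) x m u hu)).trans (st_self b _ m hd)

theorem pop_fuel_empty (y : Bool) (v : Bool) (m : MonD D) (hd : m.dst = .pop v)
    (hu : (m.blk (some none)).tgt = []) (he : (m.blk (some none)).exact = true) :
    gen D (valGen D b y) * monoD D b m = 0 := by
  refine bad_zero b y 1 v D.inK (.inr .fill) (.inr .fill) m ?_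
  simp only [badOp, opsOf]
  rw [mul_assoc]
  exact (congrArg _ (bot_self b (some none) m hu he)).trans (st_self b _ m hd)

theorem pop_fuel_deep (y : Bool) (v : Bool) (x z : D.Sy) (m : MonD D) (u : List D.Sy)
    (hd : m.dst = .pop v) (hx : x ≠ .inr .fill) (hu : (m.blk (some none)).tgt = x :: z :: u) :
    gen D (valGen D b y) * monoD D b m = 0 := by
  refine bad_zero b y 2 v D.inK x z m ?_
  simp only [badOp, opsOf, if_neg hx]
  simp only [mul_assoc]
  rw [pop_top b (some none) x m (z :: u) hu, ← mul_assoc (gen D (.push b (some none) z)),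
    push_pop_mono b (some none) z (m.upd (some none) ⟨(m.blk (some none)).src, z :: u,
      (m.blk (some none)).exact⟩) u (by simp [Mon.upd]),
    push_top b (some none) x m (z :: u) hu]
  exact st_self b _ m hd

theorem pop_fuel_wrong (y : Bool) (v : Bool) (x : D.Sy) (m : MonD D) (u : List D.Sy)
    (hd : m.dst = .pop v) (hx : ¬ (x = .inr .fill ∨ x = .inr .real ∨ x = .inr .sand))
    (hu : (m.blk (some none)).tgt = x :: u) :
    gen D (valGen D b y) * monoD D b m = 0 := by
  refine bad_zero b y 3 v D.inK x x m ?_
  simp only [badOp, opsOf, if_neg hx]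
  rw [mul_assoc]
  exact (congrArg _ (push_pop_mono b (some none) x m u hu)).trans (st_self b _ m hd)

theorem start_fuel_zero (y : Bool) (x : D.Sy) (m : MonD D) (u : List D.Sy)
    (hd : m.dst = .start) (hu : (m.blk (some none)).tgt = x :: u) :
    gen D (valGen D b y) * monoD D b m = 0 := by
  refine bad_zero b y 4 true D.inK x x m ?_
  simp only [badOp, opsOf, if_true]
  rw [mul_assoc]
  exact (congrArg _ (push_pop_mono b (some none) x m u hu)).trans (st_self b _ m hd)

theorem start_work_zero (y : Bool) (k : D.K) (hk : k ≠ D.inK) (x : D.Sy) (m : MonD D)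
    (u : List D.Sy) (hd : m.dst = .start) (hu : (m.blk (some (some k))).tgt = x :: u) :
    gen D (valGen D b y) * monoD D b m = 0 := by
  refine bad_zero b y 4 false k x x m ?_
  simp only [badOp, opsOf, Bool.false_eq_true, if_false, if_neg hk]
  rw [mul_assoc]
  exact (congrArg _ (push_pop_mono b (some (some k)) x m u hu)).trans (st_self b _ m hd)

/-- Removing one filler. -/
theorem pop_forward (v : Bool) (m : MonD D) (u : List D.Sy)
    (hd : m.dst = .pop v) (hu : (m.blk (some none)).tgt = .inr .fill :: u) :
    ∃ m' : MonD D, m'.dst = .pop v ∧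
      m'.blk (some none) = ⟨(m.blk (some none)).src, u, (m.blk (some none)).exact⟩ ∧
      (∀ k, m'.blk (some (some k)) = m.blk (some (some k))) ∧
      ∀ y, gen D (valGen D b y) * monoD D b m = gen D (valGen D b y) * monoD D b m' := by
  have h := ops_rel (D := D) b
  let o : D.Op := .popT v
  have hf : ∀ (i : SI D), ∃ z, (fwdBlk D o i).comp (m.blk i) = some z ∧
      (domBlk D o i).comp (m.blk i) = some (m.blk i) := by
    intro i
    rcases i with _ | _ | k
    · exact ⟨_, Blk.comp_top (α := Al D none) [] [o] _ (m.blk none).tgt _,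
        Blk.comp_top (α := Al D none) [] [] _ (m.blk none).tgt _⟩
    · have hb : m.blk (some none) = ⟨(m.blk (some none)).src, [.inr .fill] ++ u,
          (m.blk (some none)).exact⟩ := Blk.eq_mk hu
      rw [hb]
      exact ⟨_, Blk.comp_top (α := Al D (some none)) [.inr .fill] [] _ u _,
        Blk.comp_top (α := Al D (some none)) [.inr .fill] [.inr .fill] _ u _⟩
    · exact ⟨_, Blk.comp_top (α := Al D (some (some k))) [] [] _ (m.blk (some (some k))).tgt _,
        Blk.comp_top (α := Al D (some (some k))) [] [] _ (m.blk (some (some k))).tgt _,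
        ⟩
  choose z hz hz' using hf
  refine ⟨⟨.pop v, m.src, z⟩, rfl, ?_, fun k => ?_, fun y => ?_⟩
  · have hb : m.blk (some none) = ⟨(m.blk (some none)).src, [.inr .fill] ++ u,
        (m.blk (some none)).exact⟩ := Blk.eq_mk hu
    have h1 := hz (some none)
    rw [hb] at h1
    exact (Option.some.inj ((Blk.comp_top (α := Al D (some none)) [.inr .fill] [] _ u _).symm.trans
      h1)).symm
  · exact (Option.some.inj ((Blk.comp_top (α := Al D (some (some k))) [] []
      (m.blk (some (some k))).src (m.blk (some (some k))).tgt (m.blk (some (some k))).exact).symm.trans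
        (hz (some (some k))))).symm
  · have e1 : (opsOf D (gen D) b).mono (D.rule o).dst (D.rule o).src (fwdBlk D o) * monoD D b m =
        monoD D b ⟨.pop v, m.src, z⟩ :=
      Ops.monoM_mul_some h (m := ⟨_, _, fwdBlk D o⟩) (n := m) hd.symm hz
    have e2 : (opsOf D (gen D) b).mono (D.rule o).src (D.rule o).src (domBlk D o) * monoD D b m =
        monoD D b m := by
      refine (Ops.monoM_mul_some h (m := ⟨_, _, domBlk D o⟩) (n := m) hd.symm hz').trans ?_
      obtain ⟨d, q, bl⟩ := m
      subst hd
      rfl
    rw [← e1, ← mul_assoc (gen D (valGen D b y)) ((opsOf D (gen D) b).mono _ _ _)]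
    rw [sub_eq_zero.1 (gen_rel D (.value b y (.step o))), mul_assoc, mul_assoc, e2, ← mul_assoc]
    refine congrArg (· * monoD D b m) ?_
    cases y
    · exact (one_gen (D := D) (.valB b)).symm
    · exact (one_gen (D := D) (.valY b)).symm

/-- A functional killed by the final window and by impossible windows kills the window of a
`real` branch. -/
theorem real_zero (x : MAlg D) (v : Bool)
    (hfin : x * (opsOf D (gen D) b).mono (.pop v) (.pop v) (finBlk D) = 0)
    (hbad : ∀ m' : MonD D, (∀ y, gen D (valGen D b y) * monoD D b m' = 0) → x * monoD D b m' = 0)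
    (m : MonD D) (hd : m.dst = .pop v) (hw : ∀ k, (m.blk (some (some k))).tgt = [])
    (hu : (m.blk (some none)).tgt = [.inr .real]) : x * monoD D b m = 0 := by
  have h := ops_rel (D := D) b
  refine (Submodule.mem_bot (ZMod 2)).1 (Ops.refine_set h (⊥ : Submodule (ZMod 2) (MAlg D)) x
    (fun i => (m.blk i).src.length + 1) (Finset.univ.erase none) m
    (fun i _ => Nat.lt_succ_self _) fun z hz1 hz2 => (Submodule.mem_bot (ZMod 2)).2 ?_)
  change x * monoD D b ⟨m.dst, m.src, z⟩ = 0
  have key : ∀ i : D.Idx, z (some i) = ⟨(m.blk (some i)).src, (m.blk (some i)).tgt, true⟩ ∨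
      ∃ a, (z (some i)).tgt = (m.blk (some i)).tgt ++ [a] := by
    intro i
    obtain ⟨hext, hdeep⟩ := hz2 (some i) (Finset.mem_erase.2 ⟨by simp, Finset.mem_univ _⟩)
    rcases hext with he | ⟨-, -, t, ht1, ht2⟩
    · left
      unfold Blk.Deep at hdeep
      rw [he] at hdeep ⊢
      cases hx : (m.blk (some i)).exact
      · rw [if_neg (by simp [hx])] at hdeep; omega
      · rw [← hx]
    · unfold Blk.Deep at hdeep
      rw [ht1, List.length_append] at hdeep
      cases hx : (z (some i)).exact
      · rw [if_neg (by simp [hx])] at hdeep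
        obtain ⟨a, rfl⟩ := List.length_eq_one_iff.1 (show t.length = 1 by omega)
        exact Or.inr ⟨a, ht2⟩
      · rw [if_pos hx] at hdeep
        have : t = [] := List.length_eq_zero_iff.1 (by omega)
        subst this
        left
        rw [List.append_nil] at ht1 ht2
        rw [← ht1, ← ht2, ← hx]
  by_cases hk : ∃ k a, (z (some (some k))).tgt = [a]
  · obtain ⟨k, a, hk⟩ := hk
    exact hbad _ fun y => pop_work_zero b y v k a _ [] hd hk
  rcases key none with hf | ⟨a, hf⟩
  swap
  · rw [hu] at hf
    exact hbad _ fun y => pop_fuel_deep b y v _ a _ [] hd (by simp) hf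
  have hall : ∀ i, (finBlk D i).comp (z i) = some (z i) := by
    intro i
    rcases i with _ | _ | k
    · exact Blk.comp_top (α := Al D none) [] [] _ (z none).tgt _
    · rw [hf, hu]
      exact Blk.comp_self (α := Al D (some none)) _ _ _
    · rcases key (some k) with hc | ⟨a, ha⟩
      · rw [hc, hw k]
        exact Blk.comp_self (α := Al D (some (some k))) _ _ _
      · exact absurd ⟨k, a, by rw [ha, hw k]; rfl⟩ hk
  have : (opsOf D (gen D) b).mono (.pop v) (.pop v) (finBlk D) * monoD D b ⟨m.dst, m.src, z⟩ =
      monoD D b ⟨m.dst, m.src, z⟩ := by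
    refine (Ops.monoM_mul_some h (m := ⟨_, _, finBlk D⟩) (n := ⟨m.dst, m.src, z⟩) hd.symm
      hall).trans ?_
    rw [hd]
    rfl
  rw [← this, ← mul_assoc, hfin, zero_mul]

/-- The windows of the phase `pop`. -/
theorem pop_cases (v : Bool) : ∀ (u : List D.Sy) (m : MonD D), m.dst = .pop v →
    (∀ k, (m.blk (some (some k))).tgt = []) → (m.blk (some none)).tgt = u →
    (∀ y, gen D (valGen D b y) * monoD D b m = 0) ∨
      (∃ j, Decider.Part.Match ((u, (m.blk (some none)).exact) : Decider.Part D.Sy)
        (List.replicate j (.inr .fill) ++ [.inr .sand])) ∨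
      ((∃ j, Decider.Part.Match ((u, (m.blk (some none)).exact) : Decider.Part D.Sy)
        (List.replicate j (.inr .fill) ++ [.inr .real])) ∧
        (v = true → gen D (.valY b) * monoD D b m =
          jot D (gen D) b * (gen D (.valB b) * monoD D b m)) ∧
        (v = false → b = false → gen D .delta * (gen D (.valY b) * monoD D b m) = 0)) := by
  intro u
  induction u with
  | nil =>
    intro m hd _ hu
    cases he : (m.blk (some none)).exact
    · exact Or.inr (Or.inl ⟨0, List.nil_prefix⟩)
    · exact Or.inl fun y => pop_fuel_empty b y v m hd hu he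
  | cons x u ih =>
    intro m hd hw hu
    by_cases hx : x = .inr .fill
    · subst hx
      obtain ⟨m', hd', hf', hw', hval⟩ := pop_forward b v m u hd hu
      have hc : ∀ (l : List D.Sy), Decider.Part.Match ((u, (m.blk (some none)).exact) : Decider.Part D.Sy) l →
          Decider.Part.Match ((.inr .fill :: u, (m.blk (some none)).exact) : Decider.Part D.Sy)
            (.inr .fill :: l) := by
        intro l hl
        unfold Decider.Part.Match at hl ⊢
        simp only at hl ⊢
        split at hl <;> rename_i he
        · rw [if_pos he, hl]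
        · rw [if_neg he]
          exact List.cons_prefix_cons.2 ⟨rfl, hl⟩
      rcases ih m' hd' (fun k => by rw [hw' k]; exact hw k) (by rw [hf']) with
        h0 | ⟨j, hj⟩ | ⟨⟨j, hj⟩, h1, h2⟩
      · exact Or.inl fun y => (hval y).trans (h0 y)
      · rw [hf'] at hj
        exact Or.inr (Or.inl ⟨j + 1, hc _ hj⟩)
      · rw [hf'] at hj
        refine Or.inr (Or.inr ⟨⟨j + 1, hc _ hj⟩, fun hv => ?_, fun hv hb => ?_⟩)
        · rw [show gen D (.valY b) * monoD D b m = _ from hval true,
            show gen D (.valB b) * monoD D b m = _ from hval false]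
          exact h1 hv
        · rw [show gen D (.valY b) * monoD D b m = _ from hval true]
          exact h2 hv hb
    · rcases u with _ | ⟨z, u⟩
      · by_cases hs : x = .inr .sand
        · subst hs
          refine Or.inr (Or.inl ⟨0, ?_⟩)
          unfold Decider.Part.Match
          split <;> simp
        · by_cases hr : x = .inr .real
          · subst hr
            refine Or.inr (Or.inr ⟨⟨0, ?_⟩, fun hv => ?_, fun hv hb => ?_⟩)
            · unfold Decider.Part.Match
              split <;> simp
            · subst hv
              refine sub_eq_zero.1 ?_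
              rw [← mul_assoc, ← sub_mul]
              exact real_zero b _ true (gen_rel D (.acc b)) (fun m' hm' => by
                rw [sub_mul, mul_assoc]
                have e1 : gen D (.valY b) * monoD D b m' = 0 := hm' true
                have e2 : gen D (.valB b) * monoD D b m' = 0 := hm' false
                rw [e1, e2, mul_zero, sub_zero]) m hd hw hu
            · subst hv hb
              rw [← mul_assoc]
              exact real_zero false _ false (gen_rel D .rej) (fun m' hm' => by
                rw [mul_assoc]
                have e1 : gen D (.valY false) * monoD D false m' = 0 := hm' true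
                rw [e1, mul_zero]) m hd hw hu
          · exact Or.inl fun y => pop_fuel_wrong b y v x m [] hd (by simp [hx, hs, hr]) hu
      · exact Or.inl fun y => pop_fuel_deep b y v x z m u hd hx hu

end Vale.Agent.P193.Bh.Alg
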