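import Mathlib
import Vale.Agent.P193.Bh.Interface

/-!
# P193 algebra half: the seed without its swindle

The machine algebra is a `Core`; tensoring it with the swindle algebra gives a `Seed`.
-/

namespace Vale.Agent.P193.Bh.Alg

/-- A finitely presented algebra over the field with two elements with an idempotent of one-element
corner that separates. -/
structure Core where
  A : Type
  [instRing : Ring A]
  [instAlgebra : Algebra (ZMod 2) A]
  fp : IsFPAlgebra A
  e : A
  idem : e * e = e
  e_ne : e ≠ 0
  corner : ∀ a, e * a * e = 0 ∨ e * a * e = e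
  sep : ∀ a, a ≠ 0 → ∃ r s, e * r * a * s * e ≠ 0

attribute [instance] Core.instRing Core.instAlgebra

/-- Goal of the machine algebra: a core with the group among its units. -/
def CoreGoal : Prop :=
  ∀ (G : Type) [Group G] (n : ℕ) (s : Fin n → G), Subgroup.closure (Set.range s) = ⊤ →
    ComputablePred (fun l : List (Fin n × Bool) => wordVal s l = 1) →
      ∃ (C : Core) (u : G →* C.Aˣ), Function.Injective u

/-- Goal of the tensor step. -/
def TensorGoal : Prop :=
  ∀ C : Core, ∃ (S : Seed) (f : C.A →ₐ[ZMod 2] S.A), Function.Injective f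

theorem algebraHalf_of_goals (h1 : CoreGoal) (h2 : TensorGoal) : AlgebraHalf := by
  intro G _ n s hs hd
  obtain ⟨C, u, hu⟩ := h1 G n s hs hd
  obtain ⟨S, f, hf⟩ := h2 C
  exact ⟨S, (Units.map (f : C.A →* S.A)).comp u, (Units.map_injective hf).comp hu⟩

end Vale.Agent.P193.Bh.Alg
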