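import Vale.Agent.P193.Bh.Alg.ModelOps

/-!
# P193 algebra half: every relation holds in the model

Inversion of reachability by the top of the history turns the value relations into the facts about
the machine.
-/

namespace Vale.Agent.P193.Bh.Alg

open Decider

set_option linter.unusedSectionVars false

variable {Ltr : Type} [Fintype Ltr] [DecidableEq Ltr] {D : Decider Ltr} {G : Type} [Group G]

lemma sub_zero_of_eq {a b : Module.End (ZMod 2) (Vec D G)} (h : a = b) : a - b = 0 := by
  rw [h]
  exact LinearMap.ext fun x => sub_self _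

lemma mul_sub_zero {v a a' : Module.End (ZMod 2) (Vec D G)} (h : v * a = v * a') :
    v * (a - a') = 0 := by
  refine LinearMap.ext fun x => ?_
  show v (a x - a' x) = 0
  rw [map_sub]
  exact sub_eq_zero.2 (LinearMap.congr_fun h x)

/-! ### Rules as monomials -/

/-- The block backwards. -/
def swapBlk {α : Type} (b : Blk α) : Blk α := ⟨b.tgt, b.src, b.exact⟩

lemma blkMatch_split {α : Type} {b : Blk α} {l : List α} (h : BlkMatch b l) :
    b.src ++ l.drop b.src.length = l ∧ (b.exact = true → l.drop b.src.length = []) := by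
  obtain ⟨v, u, x⟩ := b
  cases x
  · obtain ⟨t, rfl⟩ := (h : v <+: l)
    exact ⟨by simp, fun e => Bool.noConfusion e⟩
  · obtain rfl : l = v := h
    exact ⟨by simp, fun _ => by simp⟩

lemma blkMatch_swap {α : Type} {b : Blk α} {l : List α} (h : BlkMatch b l) :
    BlkMatch (swapBlk b) (blkApply b l) ∧ blkApply (swapBlk b) (blkApply b l) = l := by
  obtain ⟨v, u, x⟩ := b
  obtain ⟨h1, h2⟩ := blkMatch_split h
  refine ⟨?_, ?_⟩
  · cases x
    · exact (List.prefix_append u _ : u <+: u ++ l.drop v.length)
    · show u ++ l.drop v.length = u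
      rw [h2 rfl, List.append_nil]
  · show v ++ (u ++ l.drop v.length).drop u.length = l
    rw [List.drop_left]
    exact h1

lemma monoC_swap {q' q : D.St} {bl : ∀ i : SI D, Blk (Al D i)} {c d : D.Cfg}
    (h : monoC q' q bl c = some d) : monoC q q' (fun i => swapBlk (bl i)) d = some c := by
  obtain ⟨h1, h2, h3, h4⟩ := monoC_eq_some_iff.1 h
  exact monoC_eq_some_iff.2 ⟨h3, fun i => by rw [h4 i]; exact (blkMatch_swap (h2 i)).1, h1,
    fun i => by rw [h4 i]; exact (blkMatch_swap (h2 i)).2.symm⟩

lemma bwdBlk_eq (o : D.Op) : bwdBlk D o = fun i => swapBlk (fwdBlk D o i) := by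
  funext i; cases i <;> rfl

lemma fwdBlk_eq (o : D.Op) : fwdBlk D o = fun i => swapBlk (bwdBlk D o i) := by
  funext i; cases i <;> rfl

lemma fwd_match_iff (o : D.Op) (c : D.Cfg) :
    (c.st = (D.rule o).src ∧ ∀ i, BlkMatch (fwdBlk D o i) (getS c i)) ↔ D.Can o c := by
  refine and_congr_right fun _ => ⟨fun h i => h (some i), fun h i => ?_⟩
  cases i with
  | none => exact List.nil_prefix
  | some i => exact h i

lemma getS_app (o : D.Op) (c : D.Cfg) (i : SI D) :
    getS (D.app o c) i = blkApply (fwdBlk D o i) (getS c i) := by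
  cases i <;> rfl

lemma monoC_fwd {o : D.Op} {c d : D.Cfg} :
    monoC (D.rule o).dst (D.rule o).src (fwdBlk D o) c = some d ↔
      D.Can o c ∧ d = D.app o c := by
  rw [monoC_eq_some_iff, ← fwd_match_iff]
  constructor
  · rintro ⟨h1, h2, h3, h4⟩
    exact ⟨⟨h1, h2⟩, cfg_ext h3 fun i => (h4 i).trans (getS_app o c i).symm⟩
  · rintro ⟨⟨h1, h2⟩, rfl⟩
    exact ⟨h1, h2, rfl, getS_app o c⟩

lemma monoC_dom {o : D.Op} {c d : D.Cfg} :
    monoC (D.rule o).src (D.rule o).src (domBlk D o) c = some d ↔ D.Can o c ∧ d = c := by
  have hm : ∀ i, BlkMatch (domBlk D o i) (getS c i) ↔ BlkMatch (fwdBlk D o i) (getS c i) := by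
    intro i; cases i <;> exact Iff.rfl
  have key : ∀ i, BlkMatch (domBlk D o i) (getS c i) →
      blkApply (domBlk D o i) (getS c i) = getS c i := fun i h => by
    have := (blkMatch_split h).1
    cases i <;> exact this
  rw [monoC_eq_some_iff, ← fwd_match_iff]
  constructor
  · rintro ⟨h1, h2, h3, h4⟩
    exact ⟨⟨h1, fun i => (hm i).1 (h2 i)⟩,
      cfg_ext (h3.trans h1.symm) fun i => (h4 i).trans (key i (h2 i))⟩
  · rintro ⟨⟨h1, h2⟩, rfl⟩
    exact ⟨h1, fun i => (hm i).2 (h2 i), h1, fun i => (key i ((hm i).2 (h2 i))).symm⟩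

lemma app_inj {o o' : D.Op} {c c' : D.Cfg} (h : D.Can o c) (h' : D.Can o' c')
    (e : D.app o c = D.app o' c') : o = o' ∧ c = c' := by
  obtain rfl : o = o' := (List.cons.inj (congrArg Cfg.hist e)).1
  exact ⟨rfl, monoC_inj (monoC_fwd.2 ⟨h, rfl⟩) (monoC_fwd.2 ⟨h', e⟩)⟩

/-- A reachable configuration is the root or an application of the top rule of its history. -/
lemma reach_inv {c : D.Cfg} (h : D.Reach c) :
    c = D.root ∨ ∃ o c', D.Reach c' ∧ D.Can o c' ∧ c = D.app o c' := by
  cases h with
  | root => exact Or.inl rfl
  | app h1 h2 => exact Or.inr ⟨_, _, h1, h2, rfl⟩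

lemma reach_app_iff {o : D.Op} {c : D.Cfg} (h : D.Can o c) :
    D.Reach (D.app o c) ↔ D.Reach c := by
  refine ⟨fun hr => ?_, fun hr => hr.app h⟩
  rcases reach_inv hr with e | ⟨o', c', h1, h2, e⟩
  · have := congrArg Cfg.hist e
    simp [app, Decider.root] at this
  · obtain ⟨-, rfl⟩ := app_inj h h2 e
    exact h1

lemma monoC_bwd_fwd {o : D.Op} {c : D.Cfg} (h : D.Can o c) :
    monoC (D.rule o).src (D.rule o).dst (bwdBlk D o) (D.app o c) = some c := by
  rw [bwdBlk_eq]
  exact monoC_swap (monoC_fwd.2 ⟨h, rfl⟩)

/-- Backwards, then forwards, is the identity where it is defined. -/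
lemma monoC_fwd_bwd {o : D.Op} {c c' : D.Cfg}
    (h : monoC (D.rule o).src (D.rule o).dst (bwdBlk D o) c = some c') :
    monoC (D.rule o).dst (D.rule o).src (fwdBlk D o) c' = some c := by
  rw [fwdBlk_eq]
  exact monoC_swap h

/-! ### Values -/

variable (s : Setting D G)

open Classical in
/-- A value of one copy in the model. -/
lemma lin_val_mul (b y : Bool) (f : D.Cfg → Option D.Cfg) :
    lin (act s (valGen D b y)) * onC b f = lin fun v => (onCopy b f v).bind (act s (valGen D b y)) :=
  lin_mul _ _

lemma letters_root : letters (D.root).hist = [] := rfl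

lemma val_app_letter (a : Ltr) (c : D.Cfg) :
    s.val (D.app (.letter a) c) = s.lt a * s.val c := by
  simp [Setting.val, app, letters]

lemma val_app_ne (o : D.Op) (c : D.Cfg) (h : ∀ a, o ≠ .letter a) :
    s.val (D.app o c) = s.val c := by
  cases o <;> first | exact absurd rfl (h _) | simp [Setting.val, app, letters]

lemma not_reach_bad (s : Setting D G) {c : D.Cfg} (h : D.Bad c) : ¬ D.Reach c :=
  fun hr => s.facts.not_bad c hr h

/-- Where a window is met only by unreachable configurations, values vanish. -/
lemma val_onC_eq_zero (b y : Bool) {f : D.Cfg → Option D.Cfg}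
    (h : ∀ c d, f c = some d → ¬ D.Reach d) :
    lin (act s (valGen D b y)) * (onC b f : Module.End (ZMod 2) (Vec D G)) = 0 := by
  rw [lin_val_mul, ← lin_none]
  refine lin_congr fun v => ?_
  cases v with
  | o => cases b <;> simp [onCopy]
  | k g => cases b <;> simp [onCopy]
  | c c =>
    cases b
    · simp only [onCopy, Bool.false_eq_true, if_false, Option.bind_map]
      rcases hf : f c with _ | d
      · rfl
      · cases y <;> simp [act, valGen, h c d hf]
    · simp [onCopy]
  | p c g =>
    cases b
    · simp [onCopy]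
    · simp only [onCopy, if_true, Option.bind_map]
      rcases hf : f c with _ | d
      · rfl
      · cases y <;> simp [act, valGen, h c d hf]

lemma popPush_id {i : SI D} {x : Al D i} {c d : D.Cfg}
    (h : ((popC i x c).bind (pushC i x)) = some d) : d = c ∧ ∃ l, getS c i = x :: l := by
  simp only [popC, pushC, stkMap_eq] at h
  rcases hg : getS c i with _ | ⟨y, l⟩
  · simp [hg] at h
  · by_cases hy : y = x
    · subst hy
      simp only [hg, if_true, Option.map_some, Option.bind_some, pushC, stkMap_eq, getS_setS_self,
        setS_setS, Option.some.injEq] at h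
      rw [← hg, setS_self] at h
      exact ⟨h.symm, l, rfl⟩
    · simp [hg, hy] at h

lemma rel_stack (b : Bool) (r : StackRel D) : stackRel D (modelGen s) b r = 0 := by
  classical
  cases r with
  | popPush i x y =>
    simp only [stackRel, opsOf_pop, opsOf_push, onC_mul, opsOf_one, sub_eq_zero]
    by_cases hxy : x = y
    · subst hxy
      rw [if_pos rfl]
      exact onC_congr b fun c => by
        simp [popC, pushC, stkMap_eq, getS_setS_self, setS_setS, setS_self]
    · rw [if_neg hxy, ← onC_none b]
      exact onC_congr b fun c => by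
        simp [popC, pushC, stkMap_eq, getS_setS_self, Ne.symm hxy]
  | botBot i =>
    show (opsOf D (modelGen s) b).bot i * (opsOf D (modelGen s) b).bot i -
      (opsOf D (modelGen s) b).bot i = 0
    rw [opsOf_bot, onC_mul]
    refine sub_zero_of_eq ?_
    refine onC_congr b fun c => ?_
    rcases hg : getS c i with _ | ⟨y, l⟩ <;>
      simp [botC, stkMap_eq, hg, getS_setS_self, setS_setS]
  | botPush i x =>
    show (opsOf D (modelGen s) b).bot i * (opsOf D (modelGen s) b).push i x = 0
    rw [opsOf_bot, opsOf_push, onC_mul, ← onC_none b]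
    exact onC_congr b fun c => by simp [botC, pushC, stkMap_eq, getS_setS_self]
  | popBot i x =>
    show (opsOf D (modelGen s) b).pop i x * (opsOf D (modelGen s) b).bot i = 0
    rw [opsOf_bot, opsOf_pop, onC_mul, ← onC_none b]
    refine onC_congr b fun c => ?_
    rcases hg : getS c i with _ | ⟨y, l⟩ <;> simp [botC, popC, stkMap_eq, hg, getS_setS_self]
  | split i =>
    show (opsOf D (modelGen s) b).bot i + ∑ x, (opsOf D (modelGen s) b).push i x *
      (opsOf D (modelGen s) b).pop i x - (opsOf D (modelGen s) b).one = 0
    simp only [opsOf_bot, opsOf_push, opsOf_pop, opsOf_one, onC_mul]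
    refine sub_zero_of_eq ?_
    refine End.ext_single fun v => ?_
    simp only [LinearMap.add_apply, LinearMap.sum_apply, onC, lin_single]
    cases v with
    | o => cases b <;> simp [onCopy]
    | k g => cases b <;> simp [onCopy]
    | c c =>
      cases b
      · rcases hg : getS c i with _ | ⟨y, l⟩
        · simp [onCopy, botC, popC, stkMap_eq, hg]
          rw [← hg, setS_self]
        · rw [Finset.sum_eq_single y]
          · simp [onCopy, botC, popC, pushC, stkMap_eq, hg, getS_setS_self, setS_setS]
            rw [← hg, setS_self]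
          · intro x _ hx
            simp [onCopy, popC, stkMap_eq, hg, Ne.symm hx]
          · simp
      · simp [onCopy]
    | p c g =>
      cases b
      · simp [onCopy]
      · rcases hg : getS c i with _ | ⟨y, l⟩
        · simp [onCopy, botC, popC, stkMap_eq, hg]
          rw [← hg, setS_self]
        · rw [Finset.sum_eq_single y]
          · simp [onCopy, botC, popC, pushC, stkMap_eq, hg, getS_setS_self, setS_setS]
            rw [← hg, setS_self]
          · intro x _ hx
            simp [onCopy, popC, stkMap_eq, hg, Ne.symm hx]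
          · simp
  | stMul q q' r r' =>
    show (opsOf D (modelGen s) b).st q q' * (opsOf D (modelGen s) b).st r r' -
      (if q' = r then (opsOf D (modelGen s) b).st q r' else 0) = 0
    rw [opsOf_st, opsOf_st, opsOf_st, onC_mul]
    refine sub_zero_of_eq ?_
    by_cases hq : q' = r
    · subst hq
      rw [if_pos rfl]
      exact onC_congr b fun c => by by_cases hc : c.st = r' <;> simp [stC, hc]
    · rw [if_neg hq, ← onC_none b]
      exact onC_congr b fun c => by by_cases hc : c.st = r' <;> simp [stC, hc, Ne.symm hq]
  | stSum =>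
    show ∑ q, (opsOf D (modelGen s) b).st q q - (opsOf D (modelGen s) b).one = 0
    simp only [opsOf_st, opsOf_one]
    refine sub_zero_of_eq ?_
    refine End.ext_single fun v => ?_
    simp only [LinearMap.sum_apply, onC, lin_single]
    cases v with
    | o => cases b <;> simp [onCopy]
    | k g => cases b <;> simp [onCopy]
    | c c =>
      cases b
      · rw [Finset.sum_eq_single c.st]
        · simp [onCopy, stC]
        · intro x _ hx; simp [onCopy, stC, Ne.symm hx]
        · simp
      · simp [onCopy]
    | p c g =>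
      cases b
      · simp [onCopy]
      · rw [Finset.sum_eq_single c.st]
        · simp [onCopy, stC]
        · intro x _ hx; simp [onCopy, stC, Ne.symm hx]
        · simp
  | commPP i j h x y =>
    show (opsOf D (modelGen s) b).push i x * (opsOf D (modelGen s) b).push j y -
      (opsOf D (modelGen s) b).push j y * (opsOf D (modelGen s) b).push i x = 0
    rw [opsOf_push, opsOf_push, onC_mul, onC_mul]
    refine sub_zero_of_eq ?_
    exact onC_congr b fun c => by
      simp [pushC, stkMap_eq, getS_setS_ne _ h, getS_setS_ne _ (Ne.symm h), setS_comm _ (Ne.symm h)]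
  | commPQ i j h x y =>
    show (opsOf D (modelGen s) b).push i x * (opsOf D (modelGen s) b).pop j y -
      (opsOf D (modelGen s) b).pop j y * (opsOf D (modelGen s) b).push i x = 0
    rw [opsOf_push, opsOf_pop, onC_mul, onC_mul]
    refine sub_zero_of_eq ?_
    refine onC_congr b fun c => ?_
    rcases hg : getS c j with _ | ⟨z, l⟩
    · simp [pushC, popC, stkMap_eq, getS_setS_ne _ (Ne.symm h), hg]
    · by_cases hz : z = y
      · simp [pushC, popC, stkMap_eq, getS_setS_ne _ h, getS_setS_ne _ (Ne.symm h), hg, hz,
          setS_comm _ (Ne.symm h)]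
      · simp [pushC, popC, stkMap_eq, getS_setS_ne _ (Ne.symm h), hg, hz]
  | commQQ i j h x y =>
    show (opsOf D (modelGen s) b).pop i x * (opsOf D (modelGen s) b).pop j y -
      (opsOf D (modelGen s) b).pop j y * (opsOf D (modelGen s) b).pop i x = 0
    rw [opsOf_pop, opsOf_pop, onC_mul, onC_mul]
    refine sub_zero_of_eq ?_
    refine onC_congr b fun c => ?_
    rcases hi : getS c i with _ | ⟨u, li⟩ <;> rcases hj : getS c j with _ | ⟨z, l⟩ <;>
      (try by_cases hu : u = x) <;> (try by_cases hz : z = y) <;>
      simp_all [popC, stkMap_eq, getS_setS_ne _ h, getS_setS_ne _ (Ne.symm h),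
        setS_comm _ (Ne.symm h)]
  | commPB i j h x =>
    show (opsOf D (modelGen s) b).push i x * (opsOf D (modelGen s) b).bot j -
      (opsOf D (modelGen s) b).bot j * (opsOf D (modelGen s) b).push i x = 0
    rw [opsOf_push, opsOf_bot, onC_mul, onC_mul]
    refine sub_zero_of_eq ?_
    refine onC_congr b fun c => ?_
    rcases hg : getS c j with _ | ⟨z, l⟩ <;>
      simp [pushC, botC, stkMap_eq, getS_setS_ne _ h, getS_setS_ne _ (Ne.symm h), hg,
        setS_comm _ (Ne.symm h)]
  | commQB i j h x =>
    show (opsOf D (modelGen s) b).pop i x * (opsOf D (modelGen s) b).bot j -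
      (opsOf D (modelGen s) b).bot j * (opsOf D (modelGen s) b).pop i x = 0
    rw [opsOf_pop, opsOf_bot, onC_mul, onC_mul]
    refine sub_zero_of_eq ?_
    refine onC_congr b fun c => ?_
    rcases hi : getS c i with _ | ⟨u, li⟩ <;> rcases hg : getS c j with _ | ⟨z, l⟩ <;>
      (try by_cases hu : u = x) <;>
      simp_all [popC, botC, stkMap_eq, getS_setS_ne _ h, getS_setS_ne _ (Ne.symm h),
        setS_comm _ (Ne.symm h)]
  | commBB i j h =>
    show (opsOf D (modelGen s) b).bot i * (opsOf D (modelGen s) b).bot j -
      (opsOf D (modelGen s) b).bot j * (opsOf D (modelGen s) b).bot i = 0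
    rw [opsOf_bot, opsOf_bot, onC_mul, onC_mul]
    refine sub_zero_of_eq ?_
    refine onC_congr b fun c => ?_
    rcases hi : getS c i with _ | ⟨u, li⟩ <;> rcases hg : getS c j with _ | ⟨z, l⟩ <;>
      simp [botC, stkMap_eq, getS_setS_ne _ h, getS_setS_ne _ (Ne.symm h), hi, hg,
        setS_comm _ (Ne.symm h)]
  | commS q q' i m =>
    have hget : ∀ c : D.Cfg, getS (⟨q, c.stk, c.hist⟩ : D.Cfg) i = getS c i := fun c => by
      cases i <;> rfl
    have hset : ∀ (c : D.Cfg) (l : List (Al D i)),
        setS (⟨q, c.stk, c.hist⟩ : D.Cfg) i l = ⟨q, (setS c i l).stk, (setS c i l).hist⟩ :=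
      fun c l => by cases i <;> rfl
    rcases m with x | x | x
    · show (opsOf D (modelGen s) b).st q q' * (opsOf D (modelGen s) b).push i x -
        (opsOf D (modelGen s) b).push i x * (opsOf D (modelGen s) b).st q q' = 0
      rw [opsOf_push, opsOf_st, onC_mul, onC_mul]
      refine sub_zero_of_eq ?_
      refine onC_congr b fun c => ?_
      by_cases hc : c.st = q' <;> simp [stC, pushC, stkMap_eq, setS_st, hc, hget, hset]
    · show (opsOf D (modelGen s) b).st q q' * (opsOf D (modelGen s) b).pop i x -
        (opsOf D (modelGen s) b).pop i x * (opsOf D (modelGen s) b).st q q' = 0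
      rw [opsOf_pop, opsOf_st, onC_mul, onC_mul]
      refine sub_zero_of_eq ?_
      refine onC_congr b fun c => ?_
      rcases hg : getS c i with _ | ⟨u, l⟩
      · by_cases hc : c.st = q' <;> simp [stC, popC, stkMap_eq, setS_st, hc, hg, hget]
      · by_cases hu : u = x <;> by_cases hc : c.st = q' <;>
          simp [stC, popC, stkMap_eq, setS_st, hc, hg, hu, hget, hset]
    · show (opsOf D (modelGen s) b).st q q' * (opsOf D (modelGen s) b).bot i -
        (opsOf D (modelGen s) b).bot i * (opsOf D (modelGen s) b).st q q' = 0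
      rw [opsOf_bot, opsOf_st, onC_mul, onC_mul]
      refine sub_zero_of_eq ?_
      refine onC_congr b fun c => ?_
      rcases hg : getS c i with _ | ⟨u, l⟩ <;> by_cases hc : c.st = q' <;>
        simp [stC, botC, stkMap_eq, setS_st, hc, hg, hget, hset]

/-- The sort of a basis vector. -/
def Bas.srt : Bas D G → Srt
  | .o => .O
  | .k _ => .K
  | .c _ => .S false
  | .p _ _ => .S true

lemma act_one (t : Srt) (v : Bas D G) : act s (.one t) v = if v.srt = t then some v else none := by
  rcases t with _ | _ | (_ | _) <;> cases v <;> simp [act, Bas.srt]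

lemma onCopy_srt {b : Bool} {f : D.Cfg → Option D.Cfg} {v w : Bas D G}
    (h : onCopy b f v = some w) : v.srt = .S b ∧ w.srt = .S b := by
  cases v <;> cases b <;> simp [onCopy] at h <;> obtain ⟨d, -, rfl⟩ := h <;>
    exact ⟨rfl, rfl⟩

lemma act_srt {x : Gen D} {v w : Bas D G} (h : act s x v = some w) :
    v.srt = x.src ∧ w.srt = x.tgt := by
  classical
  cases x with
  | one t =>
    rw [act_one] at h
    split at h
    · next e => cases h; exact ⟨e, e⟩
    · cases h
  | lett a => cases v <;> simp [act] at h; subst h; exact ⟨rfl, rfl⟩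
  | iota => cases v <;> simp [act] at h; subst h; exact ⟨rfl, rfl⟩
  | delta => cases v <;> simp [act] at h; obtain ⟨-, rfl⟩ := h; exact ⟨rfl, rfl⟩
  | push b i x => exact onCopy_srt (show onCopy b (pushC i x) v = some w by cases v <;> exact h)
  | pop b i x => exact onCopy_srt (show onCopy b (popC i x) v = some w by cases v <;> exact h)
  | bot b i => exact onCopy_srt (show onCopy b (botC i) v = some w by cases v <;> exact h)
  | st b q q' => exact onCopy_srt (show onCopy b (stC q q') v = some w by cases v <;> exact h)
  | root b => cases b <;> cases v <;> simp [act] at h <;> subst h <;> exact ⟨rfl, rfl⟩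
  | root' b => cases b <;> cases v <;> simp [act] at h <;> obtain ⟨-, rfl⟩ := h <;> exact ⟨rfl, rfl⟩
  | valY b => cases b <;> cases v <;> simp [act] at h <;> obtain ⟨-, rfl⟩ := h <;> exact ⟨rfl, rfl⟩
  | valB b => cases b <;> cases v <;> simp [act] at h <;> obtain ⟨-, rfl⟩ := h <;> exact ⟨rfl, rfl⟩

lemma rel_orth (t u : Srt) :
    modelGen s (.one t) * modelGen s (.one u) - (if t = u then modelGen s (.one t) else 0) = 0 := by
  refine sub_zero_of_eq ?_
  simp only [modelGen, lin_mul]
  by_cases h : t = u
  · subst h
    rw [if_pos rfl]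
    refine lin_congr fun v => ?_
    by_cases hv : v.srt = t <;> simp [act_one, hv]
  · rw [if_neg h, ← lin_none]
    refine lin_congr fun v => ?_
    by_cases hv : v.srt = u <;> simp [act_one, hv, Ne.symm h]

lemma rel_sum : modelGen s (.one .O) + modelGen s (.one .K) + modelGen s (.one (.S false)) +
    modelGen s (.one (.S true)) - 1 = 0 := by
  refine sub_zero_of_eq ?_
  refine End.ext_single fun v => ?_
  simp only [LinearMap.add_apply, modelGen, lin_single, Module.End.one_apply]
  cases v <;> simp [act]

lemma rel_typed (x : Gen D) :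
    modelGen s (.one x.tgt) * modelGen s x * modelGen s (.one x.src) - modelGen s x = 0 := by
  refine sub_zero_of_eq ?_
  simp only [modelGen, lin_mul]
  refine lin_congr fun v => ?_
  rcases hx : act s x v with _ | w
  · by_cases hv : v.srt = x.src <;> simp [act_one, hv, hx]
  · obtain ⟨h1, h2⟩ := act_srt s hx
    simp [act_one, h1, h2, hx]

lemma rel_root (b : Bool) :
    modelGen s (.root' b) * modelGen s (.root b) - modelGen s (.one (baseSrt b)) = 0 := by
  refine sub_zero_of_eq ?_
  simp only [modelGen, lin_mul]
  exact lin_congr fun v => by cases b <;> cases v <;> simp [act, baseSrt]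

lemma rel_rootR (b : Bool) : modelGen s (.root b) * modelGen s (.root' b) -
    (opsOf D (modelGen s) b).mono .start .start (rootBlk D) = 0 := by
  classical
  rw [mono_eq]
  refine sub_zero_of_eq ?_
  have hR : ∀ i, rootBlk D i = ⟨getS D.root i, getS D.root i, true⟩ := fun i => by
    cases i <;> rfl
  have key : ∀ c, monoC (.start : D.St) .start (rootBlk D) c =
      if c = D.root then some D.root else none := by
    intro c
    by_cases hc : c = D.root
    · subst hc
      rw [if_pos rfl]
      refine monoC_eq_some_iff.2 ⟨rfl, fun i => ?_, rfl, fun i => ?_⟩ <;> rw [hR]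
      · exact rfl
      · simp [blkApply]
    · rw [if_neg hc]
      rcases h : monoC (.start : D.St) .start (rootBlk D) c with _ | d
      · rfl
      · obtain ⟨h1, h2, -, -⟩ := monoC_eq_some_iff.1 h
        refine absurd (cfg_ext h1 fun i => ?_) hc
        have := h2 i
        rw [hR] at this
        exact this
  simp only [modelGen, lin_mul, onC]
  refine lin_congr fun v => ?_
  cases b <;> cases v <;> simp [act, onCopy, key] <;>
    (split <;> simp_all [act])

open Classical in
/-- The reachable configurations only. -/
noncomputable def cutR (c : D.Cfg) : Option D.Cfg := if D.Reach c then some c else none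

lemma cutR_eq_some {c d : D.Cfg} : cutR c = some d ↔ D.Reach c ∧ d = c := by
  classical
  unfold cutR
  by_cases hr : D.Reach c <;> simp [hr, eq_comm]

lemma bind_cutR {β : Type} (o : Option D.Cfg) {F : D.Cfg → Option β}
    (hF : ∀ d, ¬ D.Reach d → F d = none) : o.bind F = (o.bind cutR).bind F := by
  classical
  cases o with
  | none => rfl
  | some d => by_cases hr : D.Reach d <;> simp [cutR, hr, hF]

/-- A value only sees the reachable part of a map. -/
lemma val_onC_congr (b y : Bool) {f f' : D.Cfg → Option D.Cfg}
    (h : ∀ c, (f c).bind cutR = (f' c).bind cutR) :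
    lin (act s (valGen D b y)) * (onC b f : Module.End (ZMod 2) (Vec D G)) =
      lin (act s (valGen D b y)) * onC b f' := by
  rw [lin_val_mul, lin_val_mul]
  refine lin_congr fun v => ?_
  rcases v with _ | g | c | ⟨c, g⟩ <;> cases b <;>
    simp only [onCopy, Bool.false_eq_true, if_false, if_true, Option.bind_map]
  all_goals
    rw [bind_cutR (f c) ?_, bind_cutR (f' c) ?_, h c]
    all_goals
      intro d hd
      cases y <;> simp [act, valGen, hd]

lemma rel_valRoot (b y : Bool) : valRel D (modelGen s) b y .root = 0 := by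
  refine sub_zero_of_eq ?_
  have hroot : D.Reach D.root := .root
  cases b <;> cases y <;> simp only [jot, modelGen, baseSrt, valGen, Bool.false_eq_true,
    if_true, if_false, lin_mul] <;>
    refine lin_congr fun v => ?_ <;>
    cases v <;> simp [act, hroot, Setting.val, letters_root]

lemma rel_valStep (b y : Bool) (o : D.Op) : valRel D (modelGen s) b y (.step o) = 0 := by
  classical
  simp only [valRel, mono_eq]
  refine sub_zero_of_eq ?_
  have key : ∀ c, (D.Can o c ∧
      monoC (D.rule o).dst (D.rule o).src (fwdBlk D o) c = some (D.app o c) ∧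
      monoC (D.rule o).src (D.rule o).src (domBlk D o) c = some c) ∨
      (monoC (D.rule o).dst (D.rule o).src (fwdBlk D o) c = none ∧
      monoC (D.rule o).src (D.rule o).src (domBlk D o) c = none) := by
    intro c
    by_cases hc : D.Can o c
    · exact Or.inl ⟨hc, monoC_fwd.2 ⟨hc, rfl⟩, monoC_dom.2 ⟨hc, rfl⟩⟩
    · refine Or.inr ⟨?_, ?_⟩
      · exact Option.eq_none_iff_forall_ne_some.2 fun d h => hc (monoC_fwd.1 h).1
      · exact Option.eq_none_iff_forall_ne_some.2 fun d h => hc (monoC_dom.1 h).1
  -- the action of the weight on a value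
  have hw : ∃ m : G, (∀ c, s.val (D.app o c) = m * s.val c) ∧
      ∀ g : G, (wgt D (modelGen s) b true o) (Finsupp.single (.k g) 1) =
        Finsupp.single (.k (m * g)) 1 := by
    by_cases hlet : ∃ a, o = .letter a
    · obtain ⟨a, rfl⟩ := hlet
      exact ⟨s.lt a, val_app_letter s a, fun g => by simp [wgt, lam, modelGen, lin_single, act]⟩
    · push Not at hlet
      refine ⟨1, fun c => by rw [val_app_ne s o c hlet, one_mul], fun g => ?_⟩
      have hl : lam D (modelGen s) o = modelGen s (.one .K) := by
        cases o <;> first | exact absurd rfl (hlet _) | rfl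
      simp [wgt, hl, modelGen, lin_single, act]
  obtain ⟨m, hm1, hm2⟩ := hw
  refine End.ext_single fun v => ?_
  simp only [Module.End.mul_apply, onC, lin_single]
  rcases v with _ | g | c | ⟨c, g⟩ <;> cases b <;> simp only [onCopy, Bool.false_eq_true, if_false,
    if_true, Option.elim_none, map_zero]
  all_goals
    rcases key c with ⟨hc, e1, e2⟩ | ⟨e1, e2⟩
    · rw [e1, e2]
      simp only [Option.map_some, Option.elim_some, modelGen, lin_single]
      by_cases hr : D.Reach c
      · cases y
        · simp [act, valGen, wgt, modelGen, lin_single, reach_app_iff hc, hr, baseSrt]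
        · simp [act, valGen, reach_app_iff hc, hr, hm2, hm1, mul_assoc]
      · cases y <;> simp [act, valGen, reach_app_iff hc, hr]
    · rw [e1, e2]
      simp

lemma pushPop_eq (b : Bool) (i : SI D) (x : Al D i) :
    modelGen s (.push b i x) * modelGen s (.pop b i x) =
      onC b fun c => (popC i x c).bind (pushC i x) := by
  show (opsOf D (modelGen s) b).push i x * (opsOf D (modelGen s) b).pop i x = _
  rw [opsOf_push, opsOf_pop, onC_mul]

lemma popPush_mk {i : SI D} {x : Al D i} {c : D.Cfg} {l : List (Al D i)}
    (h : getS c i = x :: l) : (popC i x c).bind (pushC i x) = some c := by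
  simp [popC, pushC, stkMap_eq, h, getS_setS_self, setS_setS]
  rw [← h, setS_self]

lemma popC_cons {i : SI D} {x : Al D i} {c : D.Cfg} {l : List (Al D i)}
    (h : getS c i = x :: l) : popC i x c = some (setS c i l) := by
  simp [popC, stkMap_eq, h]

lemma botC_eq_some (i : SI D) {c d : D.Cfg} : botC i c = some d ↔ getS c i = [] ∧ d = c := by
  rw [botC, stkMap_eq]
  rcases hg : getS c i with _ | ⟨u, l⟩
  · simp only [Option.map_some, Option.some.injEq, true_and]
    rw [← hg, setS_self]
    exact eq_comm
  · simp

lemma rel_valMtch (b y : Bool) (o : D.Op) : valRel D (modelGen s) b y (.mtch o) = 0 := by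
  classical
  have e : modelGen s (.push b none o) * modelGen s (.pop b none o) =
      onC b (fun c => (popC (none : SI D) o c).bind (pushC (none : SI D) o)) :=
    pushPop_eq s b (none : SI D) o
  simp only [valRel, mono_eq, e, onC_mul]
  refine mul_sub_zero (val_onC_congr s b y fun c => ?_)
  refine Option.ext fun d => ?_
  simp only [Option.bind_eq_some_iff, cutR_eq_some]
  constructor
  · rintro ⟨e', h1, hr, rfl⟩
    obtain ⟨rfl, l, hl⟩ := popPush_id (Option.bind_eq_some_iff.2 h1)
    rcases reach_inv hr with rfl | ⟨o', c', h2, h3, rfl⟩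
    · simp [getS, Decider.root] at hl
    · simp only [getS, app, List.cons.injEq] at hl
      obtain ⟨rfl, -⟩ := hl
      exact ⟨_, ⟨c', monoC_bwd_fwd h3, monoC_fwd.2 ⟨h3, rfl⟩⟩, hr, rfl⟩
  · rintro ⟨e', ⟨c', h1, h2⟩, hr, rfl⟩
    have h3 := monoC_fwd_bwd h1
    rw [h2] at h3
    obtain rfl := Option.some.inj h3
    obtain ⟨-, rfl⟩ := monoC_fwd.1 h2
    exact ⟨_, Option.bind_eq_some_iff.1 (popPush_mk (i := (none : SI D)) (l := c'.hist) rfl),
      hr, rfl⟩

lemma rel_valNoHist (b y : Bool) : valRel D (modelGen s) b y .noHist = 0 := by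
  classical
  have hb : modelGen s (.bot b none) = onC b (botC (none : SI D)) := by
    rw [← opsOf_bot s]; rfl
  have hr : modelGen s (.root b) * modelGen s (.root' b) =
      onC b (fun c => if c = D.root then some c else none) := by
    simp only [modelGen, lin_mul, onC]
    refine lin_congr fun v => ?_
    rcases v with _ | g | c | ⟨c, g⟩ <;> cases b <;> simp [act, onCopy] <;>
      (by_cases hc : c = D.root <;> simp [hc, act])
  simp only [valRel, hb, hr]
  refine mul_sub_zero (val_onC_congr s b y fun c => ?_)
  refine Option.ext fun d => ?_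
  simp only [Option.bind_eq_some_iff, cutR_eq_some]
  constructor
  · rintro ⟨e', h1, hr', rfl⟩
    obtain ⟨hh, rfl⟩ := (botC_eq_some (none : SI D)).1 h1
    rcases reach_inv hr' with rfl | ⟨o', c', -, -, rfl⟩
    · exact ⟨_, if_pos rfl, .root, rfl⟩
    · exact absurd (show (D.app o' c').hist = [] from hh) (List.cons_ne_nil _ _)
  · rintro ⟨e', h1, hr', rfl⟩
    by_cases hc : c = D.root
    · subst hc
      rw [if_pos rfl] at h1
      cases h1
      exact ⟨_, (botC_eq_some (none : SI D)).2 ⟨rfl, rfl⟩, hr', rfl⟩
    · rw [if_neg hc] at h1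
      cases h1

lemma window_eq (b : Bool) (q : D.St) (i : SI D) (x : Al D i) :
    (opsOf D (modelGen s) b).st q q *
        ((opsOf D (modelGen s) b).push i x * (opsOf D (modelGen s) b).pop i x) =
      onC b fun c => ((popC i x c).bind (pushC i x)).bind (stC q q) := by
  rw [opsOf_push, opsOf_pop, opsOf_st, onC_mul, onC_mul]

lemma window_spec {q : D.St} {i : SI D} {x : Al D i} {c d : D.Cfg}
    (h : (((popC i x c).bind (pushC i x)).bind (stC q q)) = some d) :
    d = c ∧ c.st = q ∧ ∃ l, getS c i = x :: l := by
  obtain ⟨e, h1, h2⟩ := Option.bind_eq_some_iff.1 h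
  obtain ⟨rfl, l, hl⟩ := popPush_id h1
  simp only [stC] at h2
  split at h2
  · next he => cases h2; exact ⟨by rw [← he], he, l, hl⟩
  · cases h2

/-- A value vanishes on a window met by no reachable configuration. -/
lemma val_window_zero (b y : Bool) (q : D.St) (i : SI D) (x : Al D i)
    (h : ∀ c, c.st = q → (∃ l, getS c i = x :: l) → D.Bad c) :
    lin (act s (valGen D b y)) * ((opsOf D (modelGen s) b).st q q *
        ((opsOf D (modelGen s) b).push i x * (opsOf D (modelGen s) b).pop i x)) = 0 := by
  rw [window_eq]
  refine val_onC_eq_zero s b y fun c d hd => ?_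
  obtain ⟨rfl, hq, hl⟩ := window_spec hd
  exact not_reach_bad s (h d hq hl)

lemma window2_eq (b : Bool) (q : D.St) (i : SI D) (x z : Al D i) :
    (opsOf D (modelGen s) b).st q q * ((opsOf D (modelGen s) b).push i x *
        ((opsOf D (modelGen s) b).push i z * (opsOf D (modelGen s) b).pop i z) *
          (opsOf D (modelGen s) b).pop i x) =
      onC b fun c => ((popC i x c).bind fun a => ((popC i z a).bind (pushC i z)).bind
        (pushC i x)).bind (stC q q) := by
  simp only [opsOf_push, opsOf_pop, opsOf_st, onC_mul, Option.bind_assoc]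

lemma rel_valBad (b y : Bool) (w : Fin 5) (v : Bool) (k : D.K) (x z : D.Sy) :
    valRel D (modelGen s) b y (.bad w v k x z) = 0 := by
  classical
  show lin (act s (valGen D b y)) * badOp D (modelGen s) b w v k x z = 0
  fin_cases w
  · refine val_window_zero s b y (.pop v) (some (some k) : SI D) x fun c hq ⟨l, hl⟩ => ?_
    refine Or.inl ⟨v, hq, Or.inl ⟨k, fun he => ?_⟩⟩
    have hl' : c.stk (some k) = x :: l := hl
    rw [he] at hl'
    cases hl'
  · show lin (act s (valGen D b y)) *
      ((opsOf D (modelGen s) b).st (.pop v) (.pop v) * (opsOf D (modelGen s) b).bot (some none)) = 0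
    rw [opsOf_bot, opsOf_st, onC_mul]
    refine val_onC_eq_zero s b y fun c d h => ?_
    obtain ⟨e, h1, h2⟩ := Option.bind_eq_some_iff.1 h
    obtain ⟨hg, rfl⟩ := (botC_eq_some (some none : SI D)).1 h1
    simp only [stC] at h2
    split at h2
    · cases h2
      exact not_reach_bad s (Or.inl ⟨v, rfl, Or.inr (Or.inl hg)⟩)
    · cases h2
  · show lin (act s (valGen D b y)) * (if x = .inr .fill then 0 else
      (opsOf D (modelGen s) b).st (.pop v) (.pop v) * ((opsOf D (modelGen s) b).push (some none) x *
        ((opsOf D (modelGen s) b).push (some none) z * (opsOf D (modelGen s) b).pop (some none) z) *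
          (opsOf D (modelGen s) b).pop (some none) x)) = 0
    by_cases hx : x = .inr .fill
    · rw [if_pos hx, mul_zero]
    · rw [if_neg hx]
      refine (congrArg _ (window2_eq s b (.pop v) (some none : SI D) x z)).trans ?_
      refine val_onC_eq_zero s b y fun c d h => ?_
      obtain ⟨e, h1, h2⟩ := Option.bind_eq_some_iff.1 h
      obtain ⟨e1, g1, g2⟩ := Option.bind_eq_some_iff.1 h1
      obtain ⟨e2, g3, g4⟩ := Option.bind_eq_some_iff.1 g2
      obtain ⟨rfl, l, hl⟩ := popPush_id (c := e1) g3
      obtain ⟨rfl, l', hl'⟩ := popPush_id (c := c) (Option.bind_eq_some_iff.2 ⟨_, g1, g4⟩)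
      simp only [stC] at h2
      split at h2
      · cases h2
        refine not_reach_bad s (Or.inl ⟨v, rfl, Or.inr (Or.inr ⟨x, l', hl', hx, Or.inl ?_⟩)⟩)
        intro hnil
        rw [popC_cons hl', Option.some.injEq] at g1
        rw [← g1, getS_setS_self] at hl
        rw [hl] at hnil
        cases hnil
      · cases h2
  · show lin (act s (valGen D b y)) *
      (if x = .inr .fill ∨ x = .inr .real ∨ x = .inr .sand then 0 else
      (opsOf D (modelGen s) b).st (.pop v) (.pop v) *
        ((opsOf D (modelGen s) b).push (some none) x * (opsOf D (modelGen s) b).pop (some none) x)) = 0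
    by_cases hx : x = .inr .fill ∨ x = .inr .real ∨ x = .inr .sand
    · rw [if_pos hx, mul_zero]
    · rw [if_neg hx]
      simp only [not_or] at hx
      exact val_window_zero s b y (.pop v) (some none : SI D) x fun c hq ⟨l, hl⟩ =>
        Or.inl ⟨v, hq, Or.inr (Or.inr ⟨x, l, hl, hx.1, Or.inr ⟨hx.2.1, hx.2.2⟩⟩)⟩
  · cases v
    · show lin (act s (valGen D b y)) * (if k = D.inK then 0 else
        (opsOf D (modelGen s) b).st .start .start * ((opsOf D (modelGen s) b).push (some (some k)) x *
          (opsOf D (modelGen s) b).pop (some (some k)) x)) = 0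
      by_cases hk : k = D.inK
      · rw [if_pos hk, mul_zero]
      · rw [if_neg hk]
        refine val_window_zero s b y .start (some (some k) : SI D) x fun c hq ⟨l, hl⟩ => ?_
        refine Or.inr ⟨hq, Or.inr ⟨k, hk, fun he => ?_⟩⟩
        have hl' : c.stk (some k) = x :: l := hl
        rw [he] at hl'
        cases hl'
    · refine val_window_zero s b y .start (some none : SI D) x fun c hq ⟨l, hl⟩ => ?_
      refine Or.inr ⟨hq, Or.inl fun he => ?_⟩
      have hl' : c.stk none = x :: l := hl
      rw [show c.stk none = [] from he] at hl'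
      cases hl'

lemma rel_value (b y : Bool) (r : ValRel D) : valRel D (modelGen s) b y r = 0 := by
  cases r with
  | root => exact rel_valRoot s b y
  | step o => exact rel_valStep s b y o
  | mtch o => exact rel_valMtch s b y o
  | noHist => exact rel_valNoHist s b y
  | bad w v k x z => exact rel_valBad s b y w v k x z

/-- Reachable final windows carry the verdict. -/
lemma fin_val {v : Bool} {c d : D.Cfg} (h : monoC (.pop v) (.pop v) (finBlk D) c = some d)
    (hr : D.Reach d) : d = c ∧ (v = true ↔ s.val c = 1) := by
  obtain ⟨h1, h2, h3, h4⟩ := monoC_eq_some_iff.1 h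
  have e : d = c := by
    refine cfg_ext (h3.trans h1.symm) fun i => ?_
    rw [h4 i]
    have hm := h2 i
    rcases i with _ | _ | k <;>
      simp [finBlk, BlkMatch, blkApply, Decider.Part.Match] at hm ⊢ <;> simp [hm]
  subst e
  refine ⟨rfl, ?_⟩
  refine s.facts.final_sound v d hr ⟨h1, fun k => ?_, ?_⟩
  · exact h2 (some (some k))
  · exact h2 (some none)

lemma sub_mul_zero {v a a' : Module.End (ZMod 2) (Vec D G)} (h : a * v = a' * v) :
    (a - a') * v = 0 :=
  LinearMap.ext fun x => sub_eq_zero.2 (LinearMap.congr_fun h x)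

lemma rel_acc (b : Bool) : relOf D (modelGen s) (.acc b) = 0 := by
  classical
  simp only [relOf, mono_eq]
  refine sub_mul_zero ?_
  refine End.ext_single fun v => ?_
  simp only [Module.End.mul_apply, onC, lin_single]
  rcases v with _ | g | c | ⟨c, g⟩ <;> cases b <;>
    simp only [onCopy, Bool.false_eq_true, if_false, if_true, Option.elim_none, map_zero]
  all_goals
    rcases h : monoC (.pop true : D.St) (.pop true) (finBlk D) c with _ | d
    · simp
    · simp only [Option.map_some, Option.elim_some, jot, modelGen, lin_single]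
      by_cases hr : D.Reach d
      · obtain ⟨rfl, hv⟩ := fin_val s h hr
        simp [act, hr, hv.1 rfl, lin_single]
      · simp [act, hr, lin_single]

lemma rel_rej : relOf D (modelGen s) .rej = 0 := by
  classical
  simp only [relOf, mono_eq, modelGen, onC, lin_mul, ← lin_none]
  refine lin_congr fun v => ?_
  rcases v with _ | g | c | ⟨c, g⟩ <;> simp [act, onCopy]
  rcases h : monoC (.pop false : D.St) (.pop false) (finBlk D) c with _ | d
  · simp
  · by_cases hr : D.Reach d
    · obtain ⟨rfl, hv⟩ := fin_val s h hr
      have hne : s.val d ≠ 1 := fun e => Bool.noConfusion (hv.2 e)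
      simp [act, hr, hne]
    · simp [act, hr]

/-- Every relation holds in the model. -/
theorem modelGoal : ModelGoal := by
  intro Ltr _ _ D G _ s r
  classical
  show relOf D (modelGen s) r = 0
  cases r with
  | orth t u => exact rel_orth s t u
  | sum => exact rel_sum s
  | typed x => exact rel_typed s x
  | stack b r => exact rel_stack s b r
  | deltaIota =>
    simp only [relOf, sub_eq_zero, modelGen, lin_mul]
    exact lin_congr fun v => by cases v <;> simp [act]
  | rootL b => exact rel_root s b
  | rootR b => exact rel_rootR s b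
  | value b y r => exact rel_value s b y r
  | acc b => exact rel_acc s b
  | rej => exact rel_rej s

end Vale.Agent.P193.Bh.Alg
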