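import Mathlib
import Vale.Agent.P193.Bh.Alg.Point
import Vale.Agent.P193.Bh.Alg.ModelRel

/-!
# P193 algebra half: the representation of the machine algebra

The machine algebra acts on the model; the basic elements act as expected on the basis vectors.
-/

namespace Vale.Agent.P193.Bh.Alg

open Decider

set_option linter.unusedSectionVars false

variable {Ltr : Type} [Fintype Ltr] [DecidableEq Ltr] {D : Decider Ltr} {G : Type} [Group G]

theorem Setting.rho₀_rel (s : Setting D G) ⦃x y : Free D⦄ (h : x ∈ rels D ∧ y = 0) :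
    rho₀ s x = rho₀ s y := by
  obtain ⟨⟨r, rfl⟩, rfl⟩ := h
  rw [map_zero]
  refine (map_relOf D (A := Free D) (B := Module.End (ZMod 2) (Vec D G)) (rho₀ s : Free D →+* Module.End (ZMod 2) (Vec D G)) _ r).trans ?_
  have : (fun x : Gen D => (rho₀ s : Free D →+* Module.End (ZMod 2) (Vec D G)) (FreeAlgebra.ι (ZMod 2) x)) =
      fun x => lin (act s x) := by
    funext x
    exact FreeAlgebra.lift_ι_apply _ _
  rw [this]
  exact modelGoal Ltr D G s r

/-- The action of the machine algebra on the model. -/
noncomputable def Setting.rho (s : Setting D G) :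
    MAlg D →ₐ[ZMod 2] Module.End (ZMod 2) (Vec D G) :=
  RingQuot.liftAlgHom (ZMod 2) ⟨rho₀ s, s.rho₀_rel⟩

/-- The image of a basis vector. -/
noncomputable def Setting.ev (s : Setting D G) (a : MAlg D) (v : Bas D G) : Vec D G :=
  s.rho a (Finsupp.single v 1)

/-- A basis vector of a copy. -/
def bc : Bool → D.Cfg → G → Bas D G
  | false, c, _ => .c c
  | true, c, x => .p c x

/-- A basis vector of the base sort of a copy. -/
def b0 : Bool → G → Bas D G
  | false, _ => .o
  | true, x => .k x

/-- The payload that enters a weighted value. -/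
def pay : Bool → G → G
  | false, _ => 1
  | true, x => x

variable (s : Setting D G)

theorem rho_gen (g : Gen D) : s.rho (gen D g) = lin (act s g) := by
  rw [gen, Setting.rho, proj]
  exact (RingQuot.liftAlgHom_mkAlgHom_apply (ZMod 2) _ _ _).trans (FreeAlgebra.lift_ι_apply _ _)

theorem ev_add (a a' : MAlg D) (v : Bas D G) : s.ev (a + a') v = s.ev a v + s.ev a' v := by
  simp [Setting.ev]

theorem ev_zero (v : Bas D G) : s.ev 0 v = 0 := by simp [Setting.ev]

theorem ev_smul (t : ZMod 2) (a : MAlg D) (v : Bas D G) : s.ev (t • a) v = t • s.ev a v := by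
  simp [Setting.ev]

theorem ev_sum {ι : Type*} (F : Finset ι) (f : ι → MAlg D) (v : Bas D G) :
    s.ev (∑ i ∈ F, f i) v = ∑ i ∈ F, s.ev (f i) v := by
  simp [Setting.ev]

theorem ev_mul (a a' : MAlg D) (v : Bas D G) : s.ev (a * a') v = s.rho a (s.ev a' v) := by
  simp [Setting.ev, Module.End.mul_apply]

theorem ev_mul_zero {a' : MAlg D} {v : Bas D G} (h : s.ev a' v = 0) (a : MAlg D) :
    s.ev (a * a') v = 0 := by
  rw [ev_mul, h, map_zero]

theorem ev_mul_single {a' : MAlg D} {v w : Bas D G} (h : s.ev a' v = Finsupp.single w 1)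
    (a : MAlg D) : s.ev (a * a') v = s.ev a w := by
  rw [ev_mul, h]
  rfl

theorem ev_ext {a a' : MAlg D} (h : ∀ v, s.ev a v = s.ev a' v) : s.rho a = s.rho a' :=
  End.ext_single h

theorem ev_eq_zero {a : MAlg D} (h : s.rho a = 0) (v : Bas D G) : s.ev a v = 0 := by
  rw [Setting.ev, h, LinearMap.zero_apply]

theorem ev_gen (g : Gen D) (v : Bas D G) :
    s.ev (gen D g) v = (act s g v).elim 0 fun w => Finsupp.single w 1 := by
  rw [Setting.ev, rho_gen, lin_single]

theorem ev_iota : s.ev (gen D .iota) .o = Finsupp.single (.k 1) 1 := by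
  rw [ev_gen]; rfl

open Classical in
theorem ev_delta (x : G) :
    s.ev (gen D .delta) (.k x) = if x = 1 then Finsupp.single .o 1 else 0 := by
  rw [ev_gen]
  simp only [act]
  split <;> rfl

theorem ev_oneO : s.ev (gen D (.one .O)) .o = Finsupp.single .o 1 := by
  rw [ev_gen]; rfl

theorem ev_letW (w : List Ltr) (x : G) :
    s.ev (letW D w) (.k x) = Finsupp.single (.k ((w.map s.lt).prod * x)) 1 := by
  induction w generalizing x with
  | nil =>
    rw [letW, ev_gen]
    simp [act]
  | cons a w ih =>
    rw [letW, ev_mul_single s (ih x), ev_gen]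
    simp [act, mul_assoc]

theorem ev_trans (g x : G) :
    s.ev (s.trans g) (.k x) = Finsupp.single (.k (g * x)) 1 := by
  rw [Setting.trans, ev_letW, s.word_prod]

theorem rho_mono (b : Bool) (m : MonD D) :
    s.rho (monoD D b m) = onC b (monoC m.dst m.src m.blk) := by
  rw [← mono_eq s]
  have hp : ∀ (i : SI D) (u : List (Al D i)),
      s.rho ((opsOf D (gen D) b).pushW i u) = (opsOf D (modelGen s) b).pushW i u := by
    intro i u
    induction u with
    | nil => exact rho_gen s _
    | cons x u ih =>
      rw [Ops.pushW_cons, Ops.pushW_cons, map_mul, ih]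
      exact congrArg (· * _) (rho_gen s _)
  have hq : ∀ (i : SI D) (u : List (Al D i)),
      s.rho ((opsOf D (gen D) b).popW i u) = (opsOf D (modelGen s) b).popW i u := by
    intro i u
    induction u using List.reverseRecOn with
    | nil => exact rho_gen s _
    | append_singleton u x ih =>
      rw [Ops.popW_concat, Ops.popW_concat, map_mul, ih]
      exact congrArg (· * _) (rho_gen s _)
  have hb : ∀ (i : SI D) (x : Blk (Al D i)),
      s.rho ((opsOf D (gen D) b).blk i x) = (opsOf D (modelGen s) b).blk i x := by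
    intro i x
    simp only [Ops.blk, map_mul, hp, hq]
    congr 2
    simp only [Ops.mid]
    split <;> exact rho_gen s _
  rw [monoD, Ops.monoM, Ops.mono, Ops.mono, map_mul]
  refine congrArg₂ (· * ·) (rho_gen s _) ?_
  simp only [Ops.blkProd]
  induction (Finset.univ : Finset (SI D)).toList with
  | nil => exact rho_gen s _
  | cons i l ih => simp only [List.foldr_cons, map_mul, hb, ih]

theorem ev_mono (b : Bool) (m : MonD D) (c : D.Cfg) (x : G) :
    s.ev (monoD D b m) (bc b c x) =
      (monoC m.dst m.src m.blk c).elim 0 fun c' => Finsupp.single (bc b c' x) 1 := by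
  rw [Setting.ev, rho_mono, onC, lin_single]
  cases b <;> simp only [bc, onCopy, Bool.false_eq_true, if_false, if_true] <;>
    cases monoC m.dst m.src m.blk c <;> rfl

open Classical in
theorem ev_valY (b : Bool) (c : D.Cfg) (x : G) :
    s.ev (gen D (.valY b)) (bc b c x) =
      if D.Reach c then Finsupp.single (.k (s.val c * pay b x)) 1 else 0 := by
  rw [ev_gen]
  cases b <;> simp only [bc, act, pay, mul_one] <;> split <;> rfl

open Classical in
theorem ev_valB (b : Bool) (c : D.Cfg) (x : G) :
    s.ev (gen D (.valB b)) (bc b c x) =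
      if D.Reach c then Finsupp.single (b0 b x) 1 else 0 := by
  rw [ev_gen]
  cases b <;> simp only [bc, act, b0] <;> split <;> rfl

open Classical in
theorem ev_root' (b : Bool) (c : D.Cfg) (x : G) :
    s.ev (gen D (.root' b)) (bc b c x) =
      if c = D.root then Finsupp.single (b0 b x) 1 else 0 := by
  rw [ev_gen]
  cases b <;> simp only [bc, act, b0] <;> split <;> rfl

theorem ev_root (b : Bool) (x : G) :
    s.ev (gen D (.root b)) (b0 b x) = Finsupp.single (bc b D.root x) 1 := by
  rw [ev_gen]
  cases b <;> rfl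

theorem ev_vec (b : Bool) (c : D.Cfg) (x : G) :
    s.ev (vec D b c) (b0 b x) = Finsupp.single (bc b c x) 1 := by
  rw [show vec D b c = monoD D b ⟨c.st, .start, cfgBlk c⟩ * gen D (.root b) from rfl,
    ev_mul_single s (ev_root s b x), ev_mono]
  rw [(monoC_eq_some_iff (q' := c.st) (q := St.start) (bl := cfgBlk c) (c := D.root) (d := c)).2
    ⟨rfl, fun i => ?_, rfl, fun i => ?_⟩]
  · rfl
  · cases i <;> simp only [BlkMatch, Decider.Part.Match, getS, cfgBlk, if_true] <;> rfl
  · cases i <;> simp only [blkApply, getS, cfgBlk] <;>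
      exact ((congrArg _ List.drop_length).trans (List.append_nil _)).symm

open Classical in
theorem ev_covec (b : Bool) (c c' : D.Cfg) (x : G) :
    s.ev (covec D b c) (bc b c' x) =
      if c = c' then Finsupp.single (b0 b x) 1 else 0 := by
  rw [← ev_mul_single s (ev_vec s b c' x) (covec D b c), covec_vec]
  split
  · rw [ev_gen]
    cases b <;> rfl
  · exact ev_zero s _

end Vale.Agent.P193.Bh.Alg
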