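import Mathlib
import Vale.Agent.P193.Bh.Alg.Sem
import Vale.Agent.P193.Bh.Alg.Span

/-!
# P193 algebra half: the maps into the group sort are faithfully represented

A map into the group sort is a sum of translations and of maps through the unit vector.  As the
group is infinite, a generic point separates the two parts.
-/

namespace Vale.Agent.P193.Bh.Alg

open Decider

set_option linter.unusedSectionVars false

variable {Ltr : Type} [Fintype Ltr] [DecidableEq Ltr] {D : Decider Ltr} {G : Type} [Group G]
variable (s : Setting D G)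

theorem ev_sub (a a' : MAlg D) (v : Bas D G) : s.ev (a - a') v = s.ev a v - s.ev a' v := by
  simp [Setting.ev]

theorem ev_jot (b : Bool) (x : G) :
    s.ev (jot D (gen D) b) (b0 b x) = Finsupp.single (.k (pay b x)) 1 := by
  cases b <;> (rw [jot, ev_gen]; rfl)

/-- The values of a map from the sort `O` to the group sort. -/
theorem toK_false_repr {k : MAlg D} (hk : k ∈ s.toK false) :
    ∃ f : G →₀ ZMod 2, k = Finsupp.linearCombination (ZMod 2) (fun g => s.trans g * gen D .iota) f ∧
      s.ev k .o = f.mapDomain Bas.k := by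
  have hs : s.baseSpan false = Set.range (fun g => s.trans g * gen D .iota) := by
    ext a
    exact ⟨fun ⟨g, e⟩ => ⟨g, e.symm⟩, fun ⟨g, e⟩ => ⟨g, e.symm⟩⟩
  rw [Setting.toK, hs, Finsupp.mem_span_range_iff_exists_finsupp] at hk
  obtain ⟨f, rfl⟩ := hk
  refine ⟨f, rfl, ?_⟩
  rw [← Finsupp.linearCombination_apply]
  induction f using Finsupp.induction_linear with
  | zero => simp [ev_zero]
  | add f f' h h' => rw [map_add, ev_add, h, h', Finsupp.mapDomain_add]
  | single g t =>
    rw [Finsupp.linearCombination_single, ev_smul, ev_mul_single s (ev_iota s), ev_trans, mul_one,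
      Finsupp.mapDomain_single, Finsupp.smul_single, smul_eq_mul, mul_one]

/-- The two kinds of maps from the group sort to itself. -/
noncomputable def Setting.transComb :
    (G →₀ ZMod 2) × (G × G →₀ ZMod 2) →ₗ[ZMod 2] MAlg D :=
  (Finsupp.linearCombination (ZMod 2) fun g => s.trans g).coprod
    (Finsupp.linearCombination (ZMod 2) fun q =>
      s.trans q.1 * gen D .iota * (gen D .delta * s.trans q.2))

theorem toK_true_repr {k : MAlg D} (hk : k ∈ s.toK true) : ∃ p, s.transComb p = k := by
  have h : s.toK true ≤ LinearMap.range s.transComb := by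
    refine Submodule.span_le.2 ?_
    rintro a (⟨g, rfl⟩ | ⟨g, h, rfl⟩)
    · exact ⟨(Finsupp.single g 1, 0), by simp [Setting.transComb]⟩
    · exact ⟨(0, Finsupp.single (g, h) 1), by simp [Setting.transComb]⟩
  exact h hk

theorem ev_transComb (f : G →₀ ZMod 2) (F : G × G →₀ ZMod 2) (x : G) (w : Bas D G) :
    s.ev (s.transComb (f, F)) (.k x) w =
      match w with
      | .k y => f (y * x⁻¹) + F (y, x⁻¹)
      | _ => 0 := by
  classical
  have h1 : s.ev (Finsupp.linearCombination (ZMod 2) (fun g => s.trans g) f) (.k x) =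
      f.mapDomain fun g => Bas.k (g * x) := by
    induction f using Finsupp.induction_linear with
    | zero => simp [ev_zero]
    | add f f' h h' => rw [map_add, ev_add, h, h', Finsupp.mapDomain_add]
    | single g t =>
      rw [Finsupp.linearCombination_single, ev_smul, ev_trans, Finsupp.mapDomain_single,
        Finsupp.smul_single, smul_eq_mul, mul_one]
  have h2 : ∀ w, s.ev (Finsupp.linearCombination (ZMod 2)
      (fun q => s.trans q.1 * gen D .iota * (gen D .delta * s.trans q.2)) F) (.k x) w =
      match w with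
      | .k y => F (y, x⁻¹)
      | _ => 0 := by
    induction F using Finsupp.induction_linear with
    | zero => intro w; cases w <;> simp [ev_zero]
    | add f f' h h' => intro w; rw [map_add, ev_add, Finsupp.add_apply, h, h']; cases w <;> simp
    | single q t =>
      intro w
      obtain ⟨g, h⟩ := q
      have hd : s.ev (gen D .delta * s.trans h) (.k x) =
          if h * x = 1 then Finsupp.single .o 1 else 0 := by
        rw [ev_mul_single s (ev_trans s h x), ev_delta]
      rw [Finsupp.linearCombination_single, ev_smul, mul_assoc (s.trans g), ev_mul, ev_mul, hd]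
      by_cases hx : h * x = 1
      · obtain rfl : h = x⁻¹ := eq_inv_of_mul_eq_one_left hx
        rw [if_pos hx, show s.rho (gen D .iota) (Finsupp.single Bas.o 1) = _ from ev_iota s,
          show s.rho (s.trans g) (Finsupp.single (Bas.k 1) 1) = _ from ev_trans s g 1]
        cases w <;> simp [Finsupp.single_apply]
      · rw [if_neg hx, map_zero, map_zero, smul_zero, Finsupp.zero_apply]
        cases w with
        | k y =>
          refine (Finsupp.single_eq_of_ne ?_).symm
          exact fun e => hx (by rw [← (Prod.mk.inj e).2, inv_mul_cancel])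
        | _ => rfl
  have hinj : Function.Injective fun g : G => (Bas.k (g * x) : Bas D G) :=
    fun a a' e => mul_right_cancel (Bas.k.inj e)
  simp only [Setting.transComb, LinearMap.coprod_apply, ev_add, Finsupp.add_apply, h1, h2]
  cases w with
  | k y =>
    have hy := Finsupp.mapDomain_apply hinj f (y * x⁻¹)
    rw [inv_mul_cancel_right] at hy
    exact congrArg (· + _) hy
  | _ =>
    rw [Finsupp.mapDomain_of_notMem_range]
    · exact add_zero _
    · rintro ⟨g, e⟩; cases e

/-- Two finite sets of exceptions leave a generic point. -/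
theorem exists_generic (s : Setting D G) (S : Finset G) : ∃ x : G, x ∉ S := by
  have := s.infinite
  exact Infinite.exists_notMem_finset S

/-- A value that is constant off a finite set is zero. -/
theorem toK_const {k : MAlg D} (hk : k ∈ s.toK true) (S : Finset G) (w : Vec D G)
    (h : ∀ x ∉ S, s.ev k (.k x) = w) : w = 0 := by
  classical
  obtain ⟨⟨f, F⟩, rfl⟩ := toK_true_repr s hk
  ext v
  cases v with
  | k y =>
    obtain ⟨x, hx⟩ := exists_generic s
      (S ∪ F.support.image (fun q => q.2⁻¹) ∪ f.support.image fun g => g⁻¹ * y)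
    simp only [Finset.mem_union, Finset.mem_image, not_or, not_exists, not_and] at hx
    rw [← h x hx.1.1, ev_transComb]
    have h1 : f (y * x⁻¹) = 0 := Finsupp.notMem_support_iff.1 fun hm => hx.2 _ hm (by group)
    have h2 : F (y, x⁻¹) = 0 := Finsupp.notMem_support_iff.1 fun hm => hx.1.2 _ hm (inv_inv x)
    simp [h1, h2]
  | _ =>
    obtain ⟨x, hx⟩ := exists_generic s S
    rw [← h x hx, ev_transComb]
    rfl

theorem toK_eq_zero {b : Bool} {k : MAlg D} (hk : k ∈ s.toK b)
    (h : ∀ x, s.ev k (b0 b x) = 0) : k = 0 := by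
  classical
  cases b with
  | false =>
    obtain ⟨f, rfl, hf⟩ := toK_false_repr s hk
    have h0 : f.mapDomain (Bas.k (D := D)) = 0 := hf.symm.trans (h 1)
    rw [Finsupp.mapDomain_injective (fun a a' e => Bas.k.inj e)
      (h0.trans Finsupp.mapDomain_zero.symm), map_zero]
  | true =>
    obtain ⟨⟨f, F⟩, rfl⟩ := toK_true_repr s hk
    have hv : ∀ x y, f (y * x⁻¹) + F (y, x⁻¹) = 0 := fun x y => by
      have := DFunLike.congr_fun (h x) (.k y)
      rwa [show b0 true x = (Bas.k x : Bas D G) from rfl, ev_transComb] at this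
    have hf : f = 0 := by
      ext g
      obtain ⟨x, hx⟩ := exists_generic s (F.support.image fun q => q.2⁻¹)
      have h2 : F (g * x, x⁻¹) = 0 := Finsupp.notMem_support_iff.1 fun hm =>
        hx (Finset.mem_image.2 ⟨_, hm, inv_inv x⟩)
      simpa [h2] using hv x (g * x)
    have hF : F = 0 := by
      ext ⟨g, h⟩
      simpa [hf] using hv h⁻¹ g
    rw [hf, hF]
    exact map_zero _

theorem pair_free {b : Bool} {kY kB : MAlg D} (hY : kY ∈ s.toK true) (hB : kB ∈ s.toK b)
    (h : ∀ g x : G, s.ev kY (.k (g * pay b x)) + s.ev kB (b0 b x) = 0) : kY = 0 ∧ kB = 0 := by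
  have hw : ∀ x, s.ev kB (b0 b x) = 0 := fun x => by
    refine neg_eq_zero.1 (toK_const s hY ∅ _ fun y _ => ?_)
    have := h (y * (pay b x)⁻¹) x
    rw [inv_mul_cancel_right] at this
    exact eq_neg_of_add_eq_zero_left this
  refine ⟨toK_eq_zero s hY fun y => ?_, toK_eq_zero s hB hw⟩
  have := h (y * (pay b y)⁻¹) y
  rwa [inv_mul_cancel_right, hw, add_zero] at this

theorem pair_acc {b : Bool} {kY kB : MAlg D} (hY : kY ∈ s.toK true) (hB : kB ∈ s.toK b)
    (h : ∀ x : G, s.ev kY (.k (pay b x)) + s.ev kB (b0 b x) = 0) :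
    kY * jot D (gen D) b + kB = 0 := by
  refine toK_eq_zero s (add_mem (toK_mul s hY (jot_mem s b)) hB) fun x => ?_
  rw [ev_add, ev_mul_single s (ev_jot s b x)]
  exact h x

theorem pair_rej {b : Bool} {kY kB : MAlg D} (hY : kY ∈ s.toK true) (hB : kB ∈ s.toK b)
    (h : ∀ g : G, g ≠ 1 → ∀ x : G, s.ev kY (.k (g * pay b x)) + s.ev kB (b0 b x) = 0) :
    kB = 0 ∧ (b = true → kY = 0) ∧ (b = false → kY = kY * (gen D .iota * gen D .delta)) := by
  classical
  have hw : ∀ x, s.ev kB (b0 b x) = 0 := fun x => by
    refine neg_eq_zero.1 (toK_const s hY {pay b x} _ fun y hy => ?_)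
    have := h (y * (pay b x)⁻¹) (fun e => hy (by simpa using mul_inv_eq_one.1 e)) x
    rw [inv_mul_cancel_right] at this
    exact eq_neg_of_add_eq_zero_left this
  have hz : ∀ x y, y ≠ pay b x → s.ev kY (.k y) = 0 := fun x y hy => by
    have := h (y * (pay b x)⁻¹) (fun e => hy (mul_inv_eq_one.1 e)) x
    rwa [inv_mul_cancel_right, hw, add_zero] at this
  refine ⟨toK_eq_zero s hB hw, ?_, ?_⟩
  · rintro rfl
    refine toK_eq_zero s hY fun y => ?_
    obtain ⟨x, hx⟩ := exists_generic s {y}
    exact hz x y fun e => hx (Finset.mem_singleton.2 e.symm)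
  · rintro rfl
    refine sub_eq_zero.1 (toK_eq_zero s (sub_mem hY (toK_mul s hY (iota_delta_mem s))) fun y => ?_)
    rw [show b0 true y = (Bas.k y : Bas D G) from rfl, ev_sub]
    by_cases hy : y = 1
    · subst hy
      have e : s.ev (gen D .iota * gen D .delta) (.k 1) = Finsupp.single (.k 1) 1 := by
        rw [ev_mul_single s (by rw [ev_delta, if_pos rfl]), ev_iota]
      rw [ev_mul_single s e, sub_self]
    · have e : s.ev (gen D .iota * gen D .delta) (.k y) = 0 := by
        rw [ev_mul_zero s (by rw [ev_delta, if_neg hy])]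
      rw [hz 1 y hy, ev_mul_zero s e, sub_zero]

end Vale.Agent.P193.Bh.Alg
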