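import Mathlib
import Vale.Agent.P193.Bh.Alg.Pull

/-!
# P193 algebra half: windows that see the beginning of the history

A window before `pop` whose fuel is not an unknown extension of fillers, and a window of `start`
that meets no free word, are pulled back in finitely many steps to `start` or to a point.
-/

namespace Vale.Agent.P193.Bh.Alg

open Decider

set_option linter.unusedSectionVars false

variable {Ltr : Type} [Fintype Ltr] [DecidableEq Ltr] {D : Decider Ltr} {G : Type} [Group G]

/-- Only letters lead into `start`. -/
theorem dst_start {o : D.Op} (h : (D.rule o).dst = .start) : ∃ a, o = .letter a := by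
  cases o with
  | letter a => exact ⟨a, rfl⟩
  | bit b => cases b <;> simp [Decider.rule] at h
  | wait s => exact absurd h s.2.1
  | step q x =>
    obtain ⟨q, hq⟩ := q
    revert h
    simp only [Decider.rule]
    cases D.P q <;> (try cases x) <;> simp
  | loadPush k x => simp [Decider.rule] at h
  | loadPop k x => simp [Decider.rule] at h
  | loadRun q => simp [Decider.rule] at h
  | loadClr v => simp [Decider.rule] at h
  | halt v => simp [Decider.rule] at h
  | clrPop v k x => simp [Decider.rule] at h
  | clrDone v => simp [Decider.rule] at h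
  | popT v => simp [Decider.rule] at h

/-- A rule between the phases before `pop` puts one filler on the fuel. -/
theorem mid_rule {o : D.Op} (h1 : (D.rule o).src ≠ .start) (h2 : ∀ v, (D.rule o).dst ≠ .pop v) :
    (∀ v, (D.rule o).src ≠ .pop v) ∧ (D.rule o).pre none = ([], false) ∧
      (D.rule o).post none = [.inr .fill] := by
  cases o with
  | letter a => exact absurd rfl h1
  | bit b => exact absurd rfl h1
  | wait s => exact ⟨h2, rfl, rfl⟩
  | step q x =>
    obtain ⟨q, hq⟩ := q
    simp only [Decider.rule]
    cases D.P q <;> (try cases x) <;>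
      simp [Decider.free, Decider.fillT, Decider.topAt, Decider.pushAt]
  | loadPush k x => simp [Decider.rule, Decider.free, Decider.fillT, Decider.pushAt]
  | loadPop k x => simp [Decider.rule, Decider.topAt, Decider.fillT]
  | loadRun q => simp [Decider.rule, Decider.free, Decider.fillT]
  | loadClr v => simp [Decider.rule, Decider.free, Decider.fillT]
  | halt v => simp [Decider.rule, Decider.free, Decider.fillT]
  | clrPop v k x => simp [Decider.rule, Decider.topAt, Decider.fillT]
  | clrDone v => exact absurd rfl (h2 v)
  | popT v => exact absurd rfl (h2 v)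

/-- The fuel of a window is an unknown extension of fillers. -/
def FuelFree (z : Blk (Al D (some none))) : Prop :=
  z.exact = false ∧ ∀ x ∈ z.tgt, x = Sum.inr TSym.fill

/-- The word stack of a window is met by free words. -/
def InputFree (z : Blk (Al D (some (some D.inK)))) : Prop :=
  z.exact = false ∧ ∃ w : List Ltr, z.tgt <+: (w.flatMap D.code).map Sum.inl

variable (s : Setting D G)

/-- One more symbol of the history: a point, or a step back. -/
theorem split_hist (b : Bool) (T : Submodule (ZMod 2) (MAlg D)) (hT : s.pts b ≤ T) (n : ℕ)
    (m : MonD D) (hm : Aligned n m) {y : Bool} {κ : MAlg D} (hκ : κ ∈ s.toK (y || b))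
    (hstep : ∀ (o : D.Op) (v : List D.Op) (z : ∀ i, Blk (Al D i)), m.dst = (D.rule o).dst →
      z none = ⟨v, [], false⟩ →
      (∀ i, (bwdBlk D o (some i)).comp (m.blk (some i)) = some (z (some i))) →
      ∀ κ' ∈ s.toK (y || b),
        κ' * (gen D (valGen D b y) * monoD D b ⟨(D.rule o).src, m.src, z⟩) ∈ T) :
    κ * (gen D (valGen D b y) * monoD D b m) ∈ T := by
  obtain ⟨he, ht, hn⟩ := hm
  rw [← mul_assoc]
  refine Ops.refine_one (ops_rel (D := D) b) T _ none (n + 1) 1 m he (by rw [hn]) fun z hz ⟨t, hs, htg⟩ => ?_
  rw [mul_assoc]
  rw [ht, List.nil_append] at htg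
  unfold Blk.Deep at hz
  rw [hs, List.length_append, hn] at hz
  cases hx : z.exact
  · rw [if_neg (by simp [hx])] at hz
    obtain ⟨o, rfl⟩ := List.length_eq_one_iff.1 (show t.length = 1 by omega)
    show κ * (gen D (valGen D b y) * monoD D b ⟨m.dst, m.src, Function.update m.blk none z⟩) ∈ T
    rw [pull_step b y o ⟨m.dst, m.src, Function.update m.blk none z⟩ []
      (by simp only [Function.update_self]; exact htg)]
    rcases Ops.monoM_mul (ops_rel (D := D) b) (bwdMon o)
        ⟨m.dst, m.src, Function.update m.blk none z⟩ with h0 | ⟨hdst, u, hu, he'⟩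
    · rw [monoD, monoD, h0, mul_zero, mul_zero, mul_zero]; exact zero_mem _
    · rw [monoD, monoD, he', ← mul_assoc κ]
      refine hstep o z.src u hdst.symm ?_ (fun i => ?_) _ (toK_wgt s hκ o)
      · have h1 := hu none
        simp only [Function.update_self] at h1
        rw [show z = ⟨z.src, [o], false⟩ by rw [← hx, ← htg]] at h1
        exact (Option.some.inj ((comp_bwd_hist o _ _ _).symm.trans h1)).symm
      · have h1 := hu (some i)
        simp only [Function.update_of_ne (Option.some_ne_none i)] at h1
        exact h1
  · rw [if_pos hx] at hz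
    have : t = [] := List.length_eq_zero_iff.1 (by omega)
    subst this
    exact hT (exact_pts s hκ _ (by simp only [Function.update_self]; exact htg)
      (by simp only [Function.update_self]; exact hx))

/-- Windows before `pop` with a known bottom of the fuel come from `start`. -/
theorem early_mem (b : Bool) : ∀ (k n : ℕ) (m : MonD D), Aligned n m →
    (m.blk (some none)).tgt.length = k → m.dst ≠ .start → (∀ v, m.dst ≠ .pop v) →
    ¬ FuelFree (m.blk (some none)) → ∀ {y : Bool} {κ : MAlg D}, κ ∈ s.toK (y || b) →
      κ * (gen D (valGen D b y) * monoD D b m) ∈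
        s.pts b ⊔ s.valSpan b (fun m => m.dst = .start) := by
  intro k
  induction k using Nat.strong_induction_on with
  | _ k ih =>
    intro n m hm hk hns hnp hfree y κ hκ
    refine split_hist s b _ le_sup_left n m hm hκ fun o v z hdst hzn hz κ' hκ' => ?_
    by_cases hsrc : (D.rule o).src = .start
    · exact Submodule.mem_sup_right (Submodule.subset_span ⟨y, κ', _, hκ', hsrc, rfl⟩)
    obtain ⟨hsp, hpre, hpost⟩ := mid_rule hsrc (fun v' => by rw [← hdst]; exact hnp v')
    have h1 := hz none
    rw [show bwdBlk D o (some none) = ⟨[Sum.inr TSym.fill], [], false⟩ by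
      simp only [bwdBlk, hpre, hpost]; rfl] at h1
    rcases Blk.comp_some (α := Al D (some none)) (w := (m.blk (some none)).src)
        (u := (m.blk (some none)).tgt) (e := (m.blk (some none)).exact) h1 with
      ⟨t, ht, hzf⟩ | ⟨he, hpr, -⟩
    · refine ih t.length ?_ v.length ⟨(D.rule o).src, m.src, z⟩
        ⟨congrArg Blk.exact hzn, congrArg Blk.tgt hzn, congrArg (fun r => List.length (Blk.src r)) hzn⟩ ?_ hsrc hsp ?_ hκ'
      · rw [← hk, ht]
        exact Nat.lt_succ_self _
      · simp only [hzf]
        rfl
      · intro hff
        refine hfree ⟨?_, ?_⟩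
        · have := hff.1
          simp only [hzf] at this
          exact this
        · intro x hx
          rw [ht] at hx
          rcases List.mem_cons.1 hx with hx | hx
          · exact hx
          · refine hff.2 x ?_
            simp only [hzf]
            exact hx
    · refine absurd ⟨he, fun x hx => ?_⟩ hfree
      obtain ⟨r, hr⟩ := hpr
      have : x ∈ ([Sum.inr TSym.fill] : List (Al D (some none))) := hr ▸ List.mem_append_left _ hx
      exact List.mem_singleton.1 this

/-- Windows of `start` met by finitely many words are combinations of points. -/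
theorem start_mem (b : Bool) : ∀ (k n : ℕ) (m : MonD D), Aligned n m →
    (m.blk (some (some D.inK))).tgt.length = k → m.dst = .start →
    ¬ InputFree (m.blk (some (some D.inK))) → ∀ {y : Bool} {κ : MAlg D}, κ ∈ s.toK (y || b) →
      κ * (gen D (valGen D b y) * monoD D b m) ∈ s.pts b := by
  intro k
  induction k using Nat.strong_induction_on with
  | _ k ih =>
    intro n m hm hk hd hfree y κ hκ
    refine split_hist s b _ le_rfl n m hm hκ fun o v z hdst hzn hz κ' hκ' => ?_
    obtain ⟨a, rfl⟩ := dst_start (hdst.symm.trans hd)
    have h1 := hz (some D.inK)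
    rw [show bwdBlk D (.letter a) (some (some D.inK)) =
        ⟨(D.code a).map Sum.inl, [], false⟩ by
      simp [bwdBlk, Decider.rule, Decider.startPre, Decider.pushAt]; rfl] at h1
    rcases Blk.comp_some (α := Al D (some (some D.inK)))
        (w := (m.blk (some (some D.inK))).src) (u := (m.blk (some (some D.inK))).tgt)
        (e := (m.blk (some (some D.inK))).exact) h1 with ⟨t, ht, hzf⟩ | ⟨he, hpr, -⟩
    · refine ih t.length ?_ v.length ⟨(D.rule (.letter a)).src, m.src, z⟩
        ⟨congrArg Blk.exact hzn, congrArg Blk.tgt hzn, congrArg (fun r => List.length (Blk.src r)) hzn⟩ ?_ rfl ?_ hκ'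
      · rw [← hk, ht, List.length_append]
        refine Nat.lt_add_of_pos_left ?_
        exact List.length_pos_iff.2 fun h0 => D.code_ne a (List.map_eq_nil_iff.1 h0)
      · simp only [hzf]
        rfl
      · rintro ⟨he', w, hw⟩
        simp only [hzf] at he' hw
        refine hfree ⟨he', a :: w, ?_⟩
        rw [ht, List.flatMap_cons]
        exact ((List.prefix_append_right_inj _).2 hw).trans
          (List.map_append (f := Sum.inl) (l₁ := D.code a) (l₂ := w.flatMap D.code) ▸ List.prefix_refl _)
    · refine absurd ⟨he, [a], ?_⟩ hfree
      simpa using hpr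

end Vale.Agent.P193.Bh.Alg
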