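import Mathlib
import Vale.Agent.P193.Bh.Alg.Sem

/-!
# P193 algebra half: monomials are faithfully represented

Monomials that know every stack down to one depth have disjoint domains on which they agree only
when they are equal.  Every combination of monomials refines to such monomials.
-/

namespace Vale.Agent.P193.Bh.Alg

open Decider

set_option linter.unusedSectionVars false

variable {Ltr : Type} [Fintype Ltr] [DecidableEq Ltr] {D : Decider Ltr} {G : Type} [Group G]

/-- The monomial knows every stack down to the depths `L`. -/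
def Mon.Uni (L : SI D → ℕ) (m : MonD D) : Prop := ∀ i, (m.blk i).Deep (L i)

theorem deep_unique {α : Type} {L : ℕ} {b b' : Blk α} {l : List α} (hb : b.Deep L)
    (hb' : b'.Deep L) (h : BlkMatch b l) (h' : BlkMatch b' l)
    (e : blkApply b l = blkApply b' l) : b = b' := by
  obtain ⟨v, u, x⟩ := b
  obtain ⟨v', u', x'⟩ := b'
  have hs : v = v' ∧ x = x' := by
    cases x <;> cases x' <;> simp [Blk.Deep, BlkMatch, Decider.Part.Match] at hb hb' h h'
    · exact ⟨(List.prefix_of_prefix_length_le h h' (by omega)).eq_of_length (by omega), rfl⟩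
    · have := h.length_le
      subst h'
      omega
    · have := h'.length_le
      subst h
      omega
    · exact ⟨h.symm.trans h', rfl⟩
  obtain ⟨rfl, rfl⟩ := hs
  obtain rfl : u = u' := List.append_cancel_right e
  rfl

/-- Monomials of one depth that agree at one configuration are equal. -/
theorem uni_unique {L : SI D → ℕ} {m m' : MonD D} (hm : m.Uni L) (hm' : m'.Uni L) {c d : D.Cfg}
    (h : monoC m.dst m.src m.blk c = some d) (h' : monoC m'.dst m'.src m'.blk c = some d) :
    m = m' := by
  obtain ⟨h1, h2, h3, h4⟩ := monoC_eq_some_iff.1 h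
  obtain ⟨h1', h2', h3', h4'⟩ := monoC_eq_some_iff.1 h'
  obtain ⟨q', q, bl⟩ := m
  obtain ⟨p', p, bl'⟩ := m'
  simp only [Mon.mk.injEq]
  exact ⟨h3.symm.trans h3', h1.symm.trans h1', funext fun i =>
    deep_unique (hm i) (hm' i) (h2 i) (h2' i) ((h4 i).symm.trans (h4' i))⟩

/-- A configuration in the domain of a monomial. -/
theorem exists_monoC (m : MonD D) :
    ∃ c d : D.Cfg, monoC m.dst m.src m.blk c = some d := by
  refine ⟨ofStacks m.src fun i => (m.blk i).src,
    ofStacks m.dst fun i => blkApply (m.blk i) (m.blk i).src,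
    monoC_eq_some_iff.2 ⟨rfl, fun i => ?_, rfl, fun i => ?_⟩⟩
  · rw [getS_ofStacks]
    unfold BlkMatch Decider.Part.Match
    split
    · rfl
    · exact List.prefix_refl _
  · rw [getS_ofStacks, getS_ofStacks]

/-- A combination of monomials is a combination of monomials of one depth. -/
theorem exists_uni (b : Bool) {a : MAlg D}
    (ha : a ∈ Submodule.span (ZMod 2) (Set.range (monoD D b))) :
    ∃ L : SI D → ℕ, a ∈ Submodule.span (ZMod 2) (monoD D b '' {m | m.Uni L}) := by
  classical
  obtain ⟨f, rfl⟩ := Finsupp.mem_span_range_iff_exists_finsupp.1 ha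
  let L : SI D → ℕ := fun i => 1 + f.support.sup fun m => (m.blk i).src.length
  refine ⟨L, sum_mem fun m hm => Submodule.smul_mem _ _ ?_⟩
  have hl : ∀ i, (m.blk i).src.length < L i := fun i =>
    Nat.lt_one_add_iff.2 (Finset.le_sup (f := fun m : MonD D => (m.blk i).src.length) hm)
  have := Ops.refine_set (ops_rel (D := D) b)
    (Submodule.span (ZMod 2) (monoD D b '' {m | m.Uni L})) 1 L Finset.univ m (fun i _ => hl i)
    fun z _ hz => by
      rw [one_mul]
      exact Submodule.subset_span
        ⟨⟨m.dst, m.src, z⟩, fun i => (hz i (Finset.mem_univ i)).2, rfl⟩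
  rwa [one_mul] at this

/-- Monomials are faithfully represented. -/
theorem tFaith (s : Setting D G) (b : Bool) {a : MAlg D}
    (ha : a ∈ Submodule.span (ZMod 2) (Set.range (monoD D b))) (h : s.rho a = 0) : a = 0 := by
  classical
  obtain ⟨L, hL⟩ := exists_uni b ha
  obtain ⟨f, hf, rfl⟩ := (Finsupp.mem_span_image_iff_linearCombination _).1 hL
  suffices f = 0 by rw [this, map_zero]
  rw [Finsupp.mem_supported] at hf
  ext m
  by_contra hne
  have hm : m.Uni L := hf (Finsupp.mem_support_iff.2 hne)
  obtain ⟨c, d, hcd⟩ := exists_monoC m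
  have hv := DFunLike.congr_fun (ev_eq_zero s h (bc b c 1)) (bc b d 1)
  rw [Finsupp.linearCombination_apply, Finsupp.sum, ev_sum, Finsupp.finsetSum_apply,
    Finset.sum_eq_single m] at hv
  · rw [ev_smul, ev_mono, hcd] at hv
    exact hne (by simpa using hv)
  · intro m' hm' hne'
    rw [ev_smul, ev_mono]
    rcases he : monoC m'.dst m'.src m'.blk c with _ | d'
    · simp
    · have hdd : bc b d' (1 : G) ≠ bc b d 1 := fun e => by
        have : d' = d := by cases b <;> simpa [bc] using e
        exact hne' (uni_unique (hf hm') hm (this ▸ he) hcd)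
      simp [hdd.symm]
  · intro hm'
    rw [Finsupp.notMem_support_iff.1 hm', zero_smul, ev_zero, Finsupp.zero_apply]

end Vale.Agent.P193.Bh.Alg
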