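import Mathlib
import Vale.Agent.P193.Bh.Alg.Descend
import Vale.Agent.P193.Bh.Alg.Uni

/-!
# P193 algebra half: reachable witnesses

A reachable configuration is determined by its history, and a window of `start` met by free words
is met with every value and arbitrarily long histories.
-/

namespace Vale.Agent.P193.Bh.Alg

open Decider

set_option linter.unusedSectionVars false

variable {Ltr : Type} [Fintype Ltr] [DecidableEq Ltr] {D : Decider Ltr} {G : Type} [Group G]

/-- Reachable configurations with one history are equal. -/
theorem reach_unique {c : D.Cfg} (hc : D.Reach c) : ∀ {c' : D.Cfg}, D.Reach c' →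
    c.hist = c'.hist → c = c' := by
  induction hc with
  | root =>
    intro c' hc' h
    cases hc' with
    | root => rfl
    | app _ _ => exact absurd h.symm (List.cons_ne_nil _ _)
  | @app o c _ _ ih =>
    intro c' hc' h
    cases hc' with
    | root => exact absurd h (List.cons_ne_nil _ _)
    | @app o' c'' hc'' _ =>
      obtain ⟨rfl, h'⟩ : o = o' ∧ c.hist = c''.hist := List.cons.inj h
      rw [ih hc'' h']

/-- The configuration of `start` that has read a word, the last letter first. -/
def wordCfg (D : Decider Ltr) : List Ltr → D.Cfg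
  | [] => D.root
  | a :: w => D.app (.letter a) (wordCfg D w)

theorem wordCfg_spec (w : List Ltr) :
    D.Reach (wordCfg D w) ∧ (wordCfg D w).st = .start ∧ (wordCfg D w).stk none = [] ∧
      (∀ k, k ≠ D.inK → (wordCfg D w).stk (some k) = []) ∧
      (wordCfg D w).stk (some D.inK) = (w.flatMap D.code ++ D.endc).map Sum.inl ∧
      letters (wordCfg D w).hist = w ∧ (wordCfg D w).hist.length = w.length := by
  induction w with
  | nil =>
    refine ⟨.root, rfl, rfl, fun k hk => ?_, ?_, rfl, rfl⟩
    · show ((D.input [] k).map Sum.inl : List D.Sy) = []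
      rw [Decider.input, Function.update_of_ne hk]
      rfl
    · show ((D.input [] D.inK).map Sum.inl : List D.Sy) = _
      rw [Decider.input, Function.update_self]
  | cons a w ih =>
    obtain ⟨hr, hs, hf, hw, hi, hl, hn⟩ := ih
    refine ⟨hr.app ⟨hs, fun i => ?_⟩, rfl, ?_, fun k hk => ?_, ?_, ?_, ?_⟩
    · rcases i with _ | k
      · show Decider.Part.Match (([], true) : Decider.Part D.Sy) _
        simp [Decider.Part.Match, hf]
      · show Decider.Part.Match (([], decide (k ≠ D.inK)) : Decider.Part D.Sy) _
        by_cases hk : k = D.inK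
        · simp [Decider.Part.Match, hk]
        · simp [Decider.Part.Match, hk, hw k hk]
    · simp [wordCfg, Decider.app, Decider.rule, Decider.startPre, Decider.pushAt, hf]
    · simp [wordCfg, Decider.app, Decider.rule, Decider.startPre, Decider.pushAt, hk, hw k hk]
    · simp [wordCfg, Decider.app, Decider.rule, Decider.startPre, Decider.pushAt, hi,
        List.map_append, List.append_assoc]
    · simp [wordCfg, Decider.app, letters, hl]
    · simp [wordCfg, Decider.app, hn]

variable (s : Setting D G)

theorem exists_long_word (n : ℕ) (g : G) :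
    ∃ w : List Ltr, (w.map s.lt).prod = g ∧ n ≤ w.length := by
  induction n with
  | zero => exact ⟨s.word g, s.word_prod g, Nat.zero_le _⟩
  | succ n ih =>
    obtain ⟨w, hw, hn⟩ := ih
    have := s.infinite
    obtain ⟨x, hx⟩ := exists_ne (1 : G)
    obtain ⟨a, -⟩ : ∃ a, a ∈ s.word x := List.exists_mem_of_ne_nil _ fun h0 => hx (by
      rw [← s.word_prod x, h0]; rfl)
    exact ⟨a :: s.inv a :: w, by simp [s.lt_inv, hw], by simp; omega⟩

/-- A target window is met by reachable configurations of the value `g` and long histories. -/
def Meets (m : MonD D) (g : G) : Prop :=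
  ∀ N : ℕ, ∃ d, D.Reach d ∧ d.st = m.dst ∧
    (∀ i, BlkMatch (swapBlk (m.blk (some i))) (d.stk i)) ∧ s.val d = g ∧ N ≤ d.hist.length

theorem start_meets (m : MonD D) (hd : m.dst = .start) (hf : (m.blk (some none)).tgt = [])
    (hw : ∀ k, k ≠ D.inK → (m.blk (some (some k))).tgt = [])
    (hi : InputFree (m.blk (some (some D.inK)))) (g : G) : Meets s m g := by
  intro N
  obtain ⟨he, w₀, hw₀⟩ := hi
  obtain ⟨w', hw', hn'⟩ := exists_long_word s N (((w₀.map s.lt).prod)⁻¹ * g)
  obtain ⟨hr, hs, hfuel, hwork, hin, hl, hlen⟩ := wordCfg_spec (D := D) (w₀ ++ w')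
  refine ⟨_, hr, hs.trans hd.symm, fun i => ?_, ?_, by rw [hlen, List.length_append]; omega⟩
  · unfold BlkMatch Decider.Part.Match swapBlk
    rcases i with _ | k
    · simp only [hf]
      split <;> first | exact hfuel | exact List.nil_prefix
    · by_cases hk : k = D.inK
      · subst hk
        simp only [he, Bool.false_eq_true, if_false]
        refine hw₀.trans ?_
        refine ⟨(w'.flatMap D.code ++ D.endc).map Sum.inl, ?_⟩
        rw [hin, List.flatMap_append, List.append_assoc]
        exact List.map_append.symm
      · simp only [hw k hk]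
        split <;> first | exact hwork k hk | exact List.nil_prefix
  · rw [Setting.val, hl, List.map_append, List.prod_append, hw']
    group

/-- The windows before `pop` that do not see the bit are met with every value. -/
theorem run_meets (m : MonD D) (hns : m.dst ≠ .start) (hnp : ∀ v, m.dst ≠ .pop v)
    (hf : FuelFree (m.blk (some none))) (g : G) : Meets s m g := by
  intro N
  obtain ⟨he, hall⟩ := hf
  obtain ⟨w, hw, -⟩ := exists_long_word s 0 g
  obtain ⟨d, hr, hs, hk, hfu, hl, hn, -⟩ := s.facts.free_run w m.dst
    (max N (m.blk (some none)).tgt.length)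
    (fun k => ((m.blk (some (some k))).tgt, (m.blk (some (some k))).exact)) hns hnp
  refine ⟨d, hr, hs, fun i => ?_, by rw [Setting.val, hl, hw], le_trans (le_max_left _ _) hn⟩
  rcases i with _ | k
  · unfold BlkMatch Decider.Part.Match swapBlk
    simp only [he, Bool.false_eq_true, if_false]
    refine List.IsPrefix.trans ?_ hfu
    have hle := le_max_right N (m.blk (some none)).tgt.length
    generalize max N (m.blk (some none)).tgt.length = M at hle ⊢
    rw [List.eq_replicate_iff.2 ⟨rfl, hall⟩]
    refine ⟨List.replicate (M - (m.blk (some none)).tgt.length) (Sum.inr TSym.fill), ?_⟩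
    exact List.replicate_append_replicate.trans
      (congrArg (fun l => List.replicate l _) (Nat.add_sub_cancel' hle))
  · exact hk k

theorem sand_meets (m : MonD D) (v : Bool) (hd : m.dst = .pop v)
    (hw : ∀ k, (m.blk (some (some k))).tgt = []) {j : ℕ}
    (hj : Decider.Part.Match
      (((m.blk (some none)).tgt, (m.blk (some none)).exact) : Decider.Part D.Sy)
      (List.replicate j (.inr .fill) ++ [.inr .sand])) (g : G) : Meets s m g := by
  intro N
  obtain ⟨d, hr, hs, hk, hfu, hl, hn, -⟩ := s.facts.free_pop (s.word g) v N j
  refine ⟨d, hr, hs.trans hd.symm, fun i => ?_, by rw [Setting.val, hl, s.word_prod], hn⟩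
  rcases i with _ | k
  · show Decider.Part.Match _ d.fuel
    rw [hfu]
    exact hj
  · unfold BlkMatch Decider.Part.Match swapBlk
    simp only [hw k]
    split <;> first | exact hk k | exact List.nil_prefix

theorem real_meets (m : MonD D) (v : Bool) (hd : m.dst = .pop v)
    (hw : ∀ k, (m.blk (some (some k))).tgt = []) {j : ℕ}
    (hj : Decider.Part.Match
      (((m.blk (some none)).tgt, (m.blk (some none)).exact) : Decider.Part D.Sy)
      (List.replicate j (.inr .fill) ++ [.inr .real])) (g : G) (hg : v = true ↔ g = 1) :
    Meets s m g := by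
  intro N
  obtain ⟨d, hr, hs, hk, hfu, hl, hn, -⟩ := s.facts.real_pop (s.word g) v N j
    (by rwa [s.word_prod])
  refine ⟨d, hr, hs.trans hd.symm, fun i => ?_, by rw [Setting.val, hl, s.word_prod], hn⟩
  rcases i with _ | k
  · show Decider.Part.Match _ d.fuel
    rw [hfu]
    exact hj
  · unfold BlkMatch Decider.Part.Match swapBlk
    simp only [hw k]
    split <;> first | exact hk k | exact List.nil_prefix

end Vale.Agent.P193.Bh.Alg
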