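import Mathlib
import Vale.Agent.P193.Bh.Alg.Classify
import Vale.Agent.P193.Bh.Alg.Witness
import Vale.Agent.P193.Bh.Alg.KFaith

/-!
# P193 algebra half: the maps from a copy to the group sort are faithfully represented

After pulling back every term sits on a monomial that is determined by one of its witnesses, so
the two coefficients of each window are read off in the model.
-/

namespace Vale.Agent.P193.Bh.Alg

open Decider

set_option linter.unusedSectionVars false

variable {Ltr : Type} [Fintype Ltr] [DecidableEq Ltr] {D : Decider Ltr} {G : Type} [Group G]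
variable (s : Setting D G)

theorem valSpan_repr {b : Bool} {P : MonD D → Prop} {q : MAlg D} (hq : q ∈ s.valSpan b P) :
    ∃ (F : Finset (MonD D)) (kY kB : MonD D → MAlg D), (∀ m ∈ F, P m) ∧
      (∀ m, kY m ∈ s.toK true) ∧ (∀ m, kB m ∈ s.toK b) ∧
      q = ∑ m ∈ F, (kY m * (gen D (.valY b) * monoD D b m) +
        kB m * (gen D (.valB b) * monoD D b m)) := by
  classical
  induction hq using Submodule.span_induction with
  | zero => exact ⟨∅, 0, 0, by simp, fun _ => zero_mem _, fun _ => zero_mem _, by simp⟩
  | add u v _ _ h1 h2 =>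
    obtain ⟨F, kY, kB, hF, hY, hB, rfl⟩ := h1
    obtain ⟨F', kY', kB', hF', hY', hB', rfl⟩ := h2
    refine ⟨F ∪ F', fun m => (if m ∈ F then kY m else 0) + if m ∈ F' then kY' m else 0,
      fun m => (if m ∈ F then kB m else 0) + if m ∈ F' then kB' m else 0, ?_, ?_, ?_, ?_⟩
    · intro m hm
      rcases Finset.mem_union.1 hm with h | h
      exacts [hF m h, hF' m h]
    · intro m
      exact add_mem (by split <;> first | exact hY m | exact zero_mem _)
        (by split <;> first | exact hY' m | exact zero_mem _)
    · intro m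
      exact add_mem (by split <;> first | exact hB m | exact zero_mem _)
        (by split <;> first | exact hB' m | exact zero_mem _)
    · have e : ∀ (S : Finset (MonD D)) (kY kB : MonD D → MAlg D), S ⊆ F ∪ F' →
          ∑ m ∈ S, (kY m * (gen D (.valY b) * monoD D b m) +
            kB m * (gen D (.valB b) * monoD D b m)) =
          ∑ m ∈ F ∪ F', ((if m ∈ S then kY m else 0) * (gen D (.valY b) * monoD D b m) +
            (if m ∈ S then kB m else 0) * (gen D (.valB b) * monoD D b m)) := fun S f g hS => by
        rw [← Finset.sum_subset hS (fun m _ hm => by simp [hm])]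
        exact Finset.sum_congr rfl fun m hm => by simp [hm]
      rw [e F kY kB Finset.subset_union_left, e F' kY' kB' Finset.subset_union_right,
        ← Finset.sum_add_distrib]
      refine Finset.sum_congr rfl fun m _ => ?_
      simp only [add_mul]
      abel
  | smul t u _ h1 =>
    obtain ⟨F, kY, kB, hF, hY, hB, rfl⟩ := h1
    exact ⟨F, fun m => t • kY m, fun m => t • kB m, hF, fun m => Submodule.smul_mem _ t (hY m),
      fun m => Submodule.smul_mem _ t (hB m), by simp [Finset.smul_sum]⟩
  | mem u hu =>
    obtain ⟨y, κ, m, hκ, hm, rfl⟩ := hu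
    cases y
    · exact ⟨{m}, 0, fun _ => κ, by simpa using hm, fun _ => zero_mem _, fun _ => hκ,
        by simp [valGen]⟩
    · exact ⟨{m}, fun _ => κ, 0, by simpa using hm, fun _ => hκ, fun _ => zero_mem _,
        by simp [valGen]⟩

theorem pts_repr {b : Bool} {p : MAlg D} (hp : p ∈ s.pts b) :
    ∃ (F : Finset D.Cfg) (k : D.Cfg → MAlg D), (∀ c, k c ∈ s.toK b) ∧
      p = ∑ c ∈ F, k c * covec D b c := by
  classical
  induction hp using Submodule.span_induction with
  | zero => exact ⟨∅, 0, fun _ => zero_mem _, by simp⟩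
  | add u v _ _ h1 h2 =>
    obtain ⟨F, k, hk, rfl⟩ := h1
    obtain ⟨F', k', hk', rfl⟩ := h2
    refine ⟨F ∪ F', fun c => (if c ∈ F then k c else 0) + if c ∈ F' then k' c else 0, ?_, ?_⟩
    · intro c
      exact add_mem (by split <;> first | exact hk c | exact zero_mem _)
        (by split <;> first | exact hk' c | exact zero_mem _)
    · have e : ∀ (S : Finset D.Cfg) (f : D.Cfg → MAlg D), S ⊆ F ∪ F' →
          ∑ c ∈ S, f c * covec D b c =
          ∑ c ∈ F ∪ F', (if c ∈ S then f c else 0) * covec D b c := fun S f hS => by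
        rw [← Finset.sum_subset hS (fun c _ hc => by simp [hc])]
        exact Finset.sum_congr rfl fun c hc => by simp [hc]
      rw [e F k Finset.subset_union_left, e F' k' Finset.subset_union_right,
        ← Finset.sum_add_distrib]
      exact Finset.sum_congr rfl fun c _ => (add_mul _ _ _).symm
  | smul t u _ h1 =>
    obtain ⟨F, k, hk, rfl⟩ := h1
    exact ⟨F, fun c => t • k c, fun c => Submodule.smul_mem _ t (hk c), by simp [Finset.smul_sum]⟩
  | mem u hu =>
    obtain ⟨κ, c, hκ, rfl⟩ := hu
    exact ⟨{c}, fun _ => κ, fun _ => hκ, by simp⟩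

/-- Point functionals are faithfully represented. -/
theorem pts_faith (b : Bool) {p : MAlg D} (hp : p ∈ s.pts b) (h : s.rho p = 0) : p = 0 := by
  classical
  obtain ⟨F, k, hk, rfl⟩ := pts_repr s hp
  refine Finset.sum_eq_zero fun c hc => ?_
  suffices k c = 0 by rw [this, zero_mul]
  refine toK_eq_zero s (hk c) fun x => ?_
  have h0 := ev_eq_zero s h (bc b c x)
  rw [ev_sum, Finset.sum_eq_single c, ev_mul_single s ((ev_covec s b c c x).trans (if_pos rfl))]
    at h0
  · exact h0
  · intro c' _ hne
    exact ev_mul_zero s ((ev_covec s b c' c x).trans (if_neg hne)) _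
  · exact fun hcn => absurd hc hcn

/-- The two coefficients of a window at one of its witnesses. -/
theorem witness_eq (b : Bool) (n L : ℕ) (F : Finset (MonD D)) (kY kB : MonD D → MAlg D)
    (hF : ∀ m ∈ F, Aligned n m ∧ ∀ i, (m.blk (some i)).Deep L) (P : Finset D.Cfg)
    (k : D.Cfg → MAlg D)
    (h : s.rho (∑ c ∈ P, k c * covec D b c + ∑ m ∈ F, (kY m * (gen D (.valY b) * monoD D b m) +
      kB m * (gen D (.valB b) * monoD D b m))) = 0)
    {m₀ : MonD D} (hm₀ : m₀ ∈ F) {g : G} (hmeet : Meets s m₀ g) (x : G) :
    s.ev (kY m₀) (.k (g * pay b x)) + s.ev (kB m₀) (b0 b x) = 0 := by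
  classical
  obtain ⟨d, hd, hst, hstk, hval, hlen⟩ := hmeet ((P.sup fun c => c.hist.length) + 1)
  obtain ⟨⟨he, ht, hn⟩, hdeep⟩ := hF m₀ hm₀
  -- the preimage of the witness
  let c : D.Cfg := ofStacks m₀.src fun i => blkApply (swapBlk (m₀.blk i)) (getS d i)
  have hmatch : ∀ i, BlkMatch (swapBlk (m₀.blk i)) (getS d i) := by
    intro i
    rcases i with _ | i
    · unfold BlkMatch Decider.Part.Match swapBlk
      simp only [he, ht, Bool.false_eq_true, if_false]
      exact List.nil_prefix
    · exact hstk i
  have hback : monoC m₀.src m₀.dst (fun i => swapBlk (m₀.blk i)) d = some c :=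
    monoC_eq_some_iff.2 ⟨hst, hmatch, rfl, fun i => getS_ofStacks _ _ i⟩
  have hc : monoC m₀.dst m₀.src m₀.blk c = some d := monoC_swap hback
  have hhist : getS c none = (m₀.blk none).src ++ getS d none := by
    rw [getS_ofStacks]
    simp only [blkApply, swapBlk, ht, List.length_nil, List.drop_zero]
  -- the points vanish at the preimage
  have hP : ∀ c' ∈ P, s.ev (k c' * covec D b c') (bc b c x) = 0 := by
    intro c' hc'
    refine ev_mul_zero s ((ev_covec s b c' c x).trans (if_neg fun e => ?_)) _
    have h1 : c'.hist.length ≤ P.sup fun c => c.hist.length :=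
      Finset.le_sup (f := fun c : D.Cfg => c.hist.length) hc'
    rw [e] at h1
    have h2 : (getS c none).length ≤ P.sup fun c => c.hist.length := h1
    have h3 : (P.sup fun c => c.hist.length) + 1 ≤ (getS d none).length := hlen
    rw [hhist, List.length_append] at h2
    omega
  -- only the window of the witness contributes
  have hother : ∀ m ∈ F, m ≠ m₀ → ∀ y (κ : MAlg D),
      s.ev (κ * (gen D (valGen D b y) * monoD D b m)) (bc b c x) = 0 := by
    intro m hm hne y κ
    refine ev_mul_zero s ?_ _
    rw [ev_mul, ev_mono]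
    rcases hd' : monoC m.dst m.src m.blk c with _ | d'
    · exact map_zero _
    · show s.ev (gen D (valGen D b y)) (bc b d' x) = 0
      have hnr : ¬ D.Reach d' := by
        intro hr
        obtain ⟨⟨he', ht', hn'⟩, hdeep'⟩ := hF m hm
        obtain ⟨-, hmt, -, hget⟩ := monoC_eq_some_iff.1 hd'
        have e1 : getS d' none = (getS c none).drop n := by
          rw [hget none, blkApply, ht', hn', List.nil_append]
        have e2 : getS d' none = getS d none := by
          rw [e1, hhist, ← hn, List.drop_left]
        obtain rfl := reach_unique hr hd e2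
        refine hne (uni_unique (L := fun i => i.elim n fun _ => L) ?_ ?_ hd' hc)
        · intro i
          rcases i with _ | i
          · unfold Blk.Deep
            rw [if_neg (by simp [he'])]
            exact hn'
          · exact hdeep' i
        · intro i
          rcases i with _ | i
          · unfold Blk.Deep
            rw [if_neg (by simp [he])]
            exact hn
          · exact hdeep i
      cases y
      · exact (ev_valB s b d' x).trans (if_neg hnr)
      · exact (ev_valY s b d' x).trans (if_neg hnr)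
  have hev : s.ev (monoD D b m₀) (bc b c x) = Finsupp.single (bc b d x) 1 := by
    rw [ev_mono, hc]
    rfl
  have h0 := ev_eq_zero s h (bc b c x)
  rw [ev_add, ev_sum, ev_sum, Finset.sum_eq_zero hP, zero_add, Finset.sum_eq_single m₀] at h0
  · have hY : s.ev (gen D (.valY b) * monoD D b m₀) (bc b c x) =
        Finsupp.single (.k (g * pay b x)) 1 := by
      rw [ev_mul_single s hev, ev_valY, if_pos hd, hval]
    have hB : s.ev (gen D (.valB b) * monoD D b m₀) (bc b c x) =
        Finsupp.single (b0 b x) 1 := by
      rw [ev_mul_single s hev, ev_valB, if_pos hd]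
    rwa [ev_add, ev_mul_single s hY, ev_mul_single s hB] at h0
  · intro m hm hne
    rw [ev_add]
    exact (congrArg₂ (· + ·) (hother m hm hne true _) (hother m hm hne false _)).trans (add_zero _)
  · exact fun hcn => absurd hm₀ hcn

/-- What can be said about a window. -/
def Settled (b : Bool) (T : Submodule (ZMod 2) (MAlg D)) (m : MonD D) : Prop :=
  (∀ y κ, κ ∈ s.toK (y || b) → κ * (gen D (valGen D b y) * monoD D b m) ∈ T) ∨
    (∀ g, Meets s m g) ∨
    (Meets s m 1 ∧
      gen D (.valY b) * monoD D b m = jot D (gen D) b * (gen D (.valB b) * monoD D b m)) ∨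
    ((∀ g, g ≠ 1 → Meets s m g) ∧
      (b = false → gen D .delta * (gen D (.valY b) * monoD D b m) = 0))

/-- Reading off the coefficients. -/
theorem reduce (b : Bool) (n L : ℕ) (P : MonD D → Prop) (T : Submodule (ZMod 2) (MAlg D))
    (hT : s.pts b ≤ T) (hP : ∀ m, P m → Aligned n m ∧ ∀ i, (m.blk (some i)).Deep L)
    (hset : ∀ m, P m → Settled s b T m) {a : MAlg D} (ha : a ∈ s.pts b ⊔ s.valSpan b P)
    (h : s.rho a = 0) : a ∈ T := by
  classical
  obtain ⟨p, hp, q, hq, rfl⟩ := Submodule.mem_sup.1 ha
  refine add_mem (hT hp) ?_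
  obtain ⟨F, kY, kB, hF, hY, hB, rfl⟩ := valSpan_repr s hq
  obtain ⟨Q, k, -, rfl⟩ := pts_repr s hp
  have key : ∀ m ∈ F, ∀ {g : G}, Meets s m g → ∀ x,
      s.ev (kY m) (.k (g * pay b x)) + s.ev (kB m) (b0 b x) = 0 := fun m hm _ hg x =>
    witness_eq s b n L F kY kB (fun m hm => hP m (hF m hm)) Q k h hm hg x
  refine sum_mem fun m hm => ?_
  rcases hset m (hF m hm) with h1 | h1 | ⟨h1, h2⟩ | ⟨h1, h2⟩
  · exact add_mem (h1 true _ (hY m)) (h1 false _ (by rw [Bool.false_or]; exact hB m))
  · obtain ⟨e1, e2⟩ := pair_free s (hY m) (hB m) fun g x => key m hm (h1 g) x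
    rw [e1, e2, zero_mul, zero_mul, add_zero]
    exact zero_mem _
  · have e := pair_acc s (hY m) (hB m) fun x => by
      have := key m hm h1 x
      rwa [one_mul] at this
    rw [h2, ← mul_assoc (kY m), ← add_mul, e, zero_mul]
    exact zero_mem _
  · obtain ⟨e1, e2, e3⟩ := pair_rej s (hY m) (hB m) fun g hg x => key m hm (h1 g hg) x
    rw [e1, zero_mul, add_zero]
    cases b
    · rw [e3 rfl, mul_assoc, mul_assoc (gen D .iota), h2 rfl, mul_zero, mul_zero]
      exact zero_mem _
    · rw [e2 rfl, zero_mul]
      exact zero_mem _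

theorem settled_all (b : Bool) (n : ℕ) (m : MonD D) (hm : Aligned n m) :
    Settled s b (s.pts b ⊔ s.valSpan b fun m => m.dst = .start) m := by
  by_cases hst : m.dst = .start
  · exact Or.inl fun y κ hκ =>
      Submodule.mem_sup_right (Submodule.subset_span ⟨y, κ, m, hκ, hst, rfl⟩)
  by_cases hp : ∃ v, m.dst = .pop v
  · obtain ⟨v, hv⟩ := hp
    by_cases hw : ∀ k, (m.blk (some (some k))).tgt = []
    · rcases pop_cases b v _ m hv hw rfl with h0 | ⟨j, hj⟩ | ⟨⟨j, hj⟩, hacc, hrej⟩
      · exact Or.inl fun y κ _ => by rw [h0 y, mul_zero]; exact zero_mem _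
      · exact Or.inr (Or.inl fun g => sand_meets s m v hv hw hj g)
      · cases v
        · exact Or.inr (Or.inr (Or.inr ⟨fun g hg =>
            real_meets s m false hv hw hj g (by simp [hg]), hrej rfl⟩))
        · exact Or.inr (Or.inr (Or.inl ⟨real_meets s m true hv hw hj 1 (by simp), hacc rfl⟩))
    · obtain ⟨k, hk⟩ := not_forall.1 hw
      obtain ⟨x, u, hxu⟩ := List.exists_cons_of_ne_nil hk
      exact Or.inl fun y κ _ => by
        rw [pop_work_zero b y v k x m u hv hxu, mul_zero]; exact zero_mem _
  · simp only [not_exists] at hp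
    by_cases hf : FuelFree (m.blk (some none))
    · exact Or.inr (Or.inl fun g => run_meets s m hst hp hf g)
    · exact Or.inl fun y κ hκ => early_mem s b _ n m hm rfl hst hp hf hκ

theorem settled_start (b : Bool) (n : ℕ) (m : MonD D) (hm : Aligned n m) (hst : m.dst = .start) :
    Settled s b (s.pts b) m := by
  by_cases hf : (m.blk (some none)).tgt = []
  · by_cases hw : ∀ k, k ≠ D.inK → (m.blk (some (some k))).tgt = []
    · by_cases hi : InputFree (m.blk (some (some D.inK)))
      · exact Or.inr (Or.inl fun g => start_meets s m hst hf hw hi g)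
      · exact Or.inl fun y κ hκ => start_mem s b _ n m hm rfl hst hi hκ
    · obtain ⟨k, hk⟩ := not_forall.1 hw
      obtain ⟨hk, hk'⟩ := Classical.not_imp.1 hk
      obtain ⟨x, u, hxu⟩ := List.exists_cons_of_ne_nil hk'
      exact Or.inl fun y κ _ => by
        rw [start_work_zero b y k hk x m u hst hxu, mul_zero]; exact zero_mem _
  · obtain ⟨x, u, hxu⟩ := List.exists_cons_of_ne_nil hf
    exact Or.inl fun y κ _ => by
      rw [start_fuel_zero b y x m u hst hxu, mul_zero]; exact zero_mem _

theorem coreSpan_le (b : Bool) :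
    s.coreSpan b ≤ s.pts b ⊔ s.valSpan b fun _ => True := by
  refine Submodule.span_le.2 ?_
  rintro a (⟨y, κ, m, hκ, rfl⟩ | ⟨κ, m, hκ, rfl⟩)
  · exact Submodule.mem_sup_right (Submodule.subset_span ⟨y, κ, m, hκ, trivial, rfl⟩)
  · exact Submodule.mem_sup_left (root'_pts s hκ m)

/-- The maps from a copy to the group sort are faithfully represented. -/
theorem core_faith (b : Bool) (a : MAlg D) (ha : a ∈ s.coreSpan b) (h : s.rho a = 0) : a = 0 := by
  obtain ⟨n, L, h1⟩ := leaf_form s b (fun _ => True) (fun _ _ => trivial) (coreSpan_le s b ha)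
  have h2 := reduce s b n L _ (s.pts b ⊔ s.valSpan b fun m => m.dst = .start) le_sup_left
    (fun m hm => ⟨hm.1, hm.2.2⟩) (fun m hm => settled_all s b n m hm.1) h1 h
  have hcl : ∀ o : D.Op, (D.rule o).dst = .start → (D.rule o).src = .start := fun o ho => by
    obtain ⟨x, rfl⟩ := dst_start ho
    rfl
  obtain ⟨n', L', h3⟩ := leaf_form s b (fun q => q = .start) hcl h2
  exact pts_faith s b (reduce s b n' L' _ (s.pts b) le_rfl
    (fun m hm => ⟨hm.1, hm.2.2⟩) (fun m hm => settled_start s b n' m hm.1 hm.2.1) h3 h) h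

end Vale.Agent.P193.Bh.Alg
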