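import Mathlib
import Vale.Agent.P193.Bh.Alg.KFaith
import Vale.Agent.P193.Bh.Alg.Uni

/-!
# P193 algebra half: the model is faithful once the maps into the group sort are

An element is the sum of its components between sorts.  A component into a copy is, up to
finitely many vectors, a combination of monomials.
-/

namespace Vale.Agent.P193.Bh.Alg

open Decider

set_option linter.unusedSectionVars false

variable {Ltr : Type} [Fintype Ltr] [DecidableEq Ltr] {D : Decider Ltr} {G : Type} [Group G]
variable (s : Setting D G)

/-- Faithfulness on the maps from the copies to the group sort. -/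
def Setting.CoreFaith : Prop := ∀ b a, a ∈ s.coreSpan b → s.rho a = 0 → a = 0

theorem rho_mul_left {a : MAlg D} (h : s.rho a = 0) (x : MAlg D) : s.rho (x * a) = 0 := by
  rw [map_mul, h, mul_zero]

theorem HK_eq_zero (hc : s.CoreFaith) {X : Srt} {z : MAlg D} (hz : z ∈ s.HK X)
    (h : s.rho z = 0) : z = 0 := by
  cases X with
  | O => exact toK_eq_zero s (b := false) hz fun x => ev_eq_zero s h _
  | K => exact toK_eq_zero s (b := true) hz fun x => ev_eq_zero s h _
  | S b => exact hc b z hz h

theorem HB_eq_zero (hc : s.CoreFaith) {b : Bool} {X : Srt} {z : MAlg D} (hz : z ∈ s.HB b X)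
    (h : s.rho z = 0) : z = 0 := by
  cases b
  · obtain ⟨y, hy, rfl⟩ := hz
    simp only [LinearMap.mulLeft_apply] at h ⊢
    have h1 : gen D .iota * (gen D .delta * y) = 0 := by
      refine HK_eq_zero s hc (X := X) ?_ (rho_mul_left s h _)
      rw [← mul_assoc]
      exact HK_mul s (iota_delta_mem s) hy
    calc gen D .delta * y = gen D .delta * gen D .iota * (gen D .delta * y) := by
          rw [← mul_assoc, show gen D .delta * gen D .iota = gen D (.one .O) from
            sub_eq_zero.1 (gen_rel D .deltaIota)]
          exact congrArg (· * y) (one_gen (D := D) .delta).symm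
      _ = 0 := by rw [mul_assoc, h1, mul_zero]
  · exact HK_eq_zero s hc hz h

/-- The monomials of one copy span a subset closed under products. -/
theorem monoSpan_mul (b : Bool) {x y : MAlg D}
    (hx : x ∈ Submodule.span (ZMod 2) (Set.range (monoD D b)))
    (hy : y ∈ Submodule.span (ZMod 2) (Set.range (monoD D b))) :
    x * y ∈ Submodule.span (ZMod 2) (Set.range (monoD D b)) := by
  induction hx using Submodule.span_induction with
  | zero => rw [zero_mul]; exact zero_mem _
  | add _ _ _ _ h1 h2 => rw [add_mul]; exact add_mem h1 h2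
  | smul t _ _ h1 => rw [smul_mul_assoc]; exact Submodule.smul_mem _ t h1
  | mem x hx =>
    induction hy using Submodule.span_induction with
    | zero => rw [mul_zero]; exact zero_mem _
    | add _ _ _ _ h1 h2 => rw [mul_add]; exact add_mem h1 h2
    | smul t _ _ h1 => rw [mul_smul_comm]; exact Submodule.smul_mem _ t h1
    | mem y hy =>
      obtain ⟨m, rfl⟩ := hx
      obtain ⟨n, rfl⟩ := hy
      rcases Ops.monoM_mul (ops_rel (D := D) b) m n with h0 | ⟨-, z, -, h0⟩ <;>
        rw [monoD, monoD, h0]
      · exact zero_mem _
      · exact Submodule.subset_span ⟨_, rfl⟩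

theorem vec_covec_mem (b : Bool) (c : D.Cfg) :
    vec D b c * covec D b c ∈ Submodule.span (ZMod 2) (Set.range (monoD D b)) := by
  have e : vec D b c * covec D b c =
      monoD D b ⟨c.st, .start, cfgBlk c⟩ *
        (monoD D b ⟨.start, .start, rootBlk D⟩ * monoD D b (coMon c)) := by
    rw [vec, covec, monoD, monoD, monoD, Ops.monoM, Ops.monoM, Ops.monoM,
      ← sub_eq_zero.1 (gen_rel D (.rootR b))]
    simp only [mul_assoc]
  rw [e]
  exact monoSpan_mul b (Submodule.subset_span ⟨_, rfl⟩)
    (monoSpan_mul b (Submodule.subset_span ⟨_, rfl⟩) (Submodule.subset_span ⟨_, rfl⟩))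

/-- Removing finitely many configurations from a map into a copy leaves monomials. -/
theorem exists_finset_HS (b : Bool) {X : Srt} {z : MAlg D} (hz : z ∈ s.HS b X) :
    ∃ F : Finset D.Cfg, ∀ F' : Finset D.Cfg, F ⊆ F' →
      z - (∑ c ∈ F', vec D b c * covec D b c) * z ∈
        Submodule.span (ZMod 2) (Set.range (monoD D b)) := by
  classical
  induction hz using Submodule.span_induction with
  | zero => exact ⟨∅, fun F' _ => by rw [mul_zero, sub_zero]; exact zero_mem _⟩
  | add x y _ _ hx hy =>
    obtain ⟨F, hF⟩ := hx
    obtain ⟨F₁, hF₁⟩ := hy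
    refine ⟨F ∪ F₁, fun F' h => ?_⟩
    rw [mul_add, add_sub_add_comm]
    exact add_mem (hF F' (Finset.union_subset_left h)) (hF₁ F' (Finset.union_subset_right h))
  | smul t x _ hx =>
    obtain ⟨F, hF⟩ := hx
    refine ⟨F, fun F' h => ?_⟩
    rw [mul_smul_comm, ← smul_sub]
    exact Submodule.smul_mem _ t (hF F' h)
  | mem z hz =>
    rcases hz with ⟨rfl, m, rfl⟩ | ⟨c, x, hx, rfl⟩
    · exact ⟨∅, fun F' _ => sub_mem (Submodule.subset_span ⟨m, rfl⟩)
        (monoSpan_mul b (sum_mem fun c _ => vec_covec_mem b c) (Submodule.subset_span ⟨m, rfl⟩))⟩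
    · refine ⟨{c}, fun F' h => ?_⟩
      have hv : gen D (.root b) * gen D (.one (baseSrt b)) = gen D (.root b) :=
        gen_oneS (D := D) (.root b)
      rw [Finset.sum_mul, Finset.sum_eq_single c]
      · rw [mul_assoc (vec D b c), ← mul_assoc (covec D b c), covec_vec, if_pos rfl,
          ← mul_assoc, vec, mul_assoc _ (gen D (.root b)) (gen D (.one _)), hv, sub_self]
        exact zero_mem _
      · intro c' _ hne
        rw [mul_assoc (vec D b c'), ← mul_assoc (covec D b c'), covec_vec, if_neg hne, zero_mul,
          mul_zero]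
      · intro hn
        exact absurd (h (Finset.mem_singleton_self c)) hn

/-- The model is faithful. -/
theorem faith_of_core (hc : s.CoreFaith) (a : MAlg D) (ha : s.rho a = 0) : a = 0 := by
  have hcomp : ∀ Y X, gen D (.one Y) * a * gen D (.one X) = 0 := by
    intro Y X
    have h0 : s.rho (gen D (.one Y) * a * gen D (.one X)) = 0 := by
      rw [map_mul, rho_mul_left s ha, zero_mul]
    have hH := span_H s a Y X
    cases Y with
    | O => exact HB_eq_zero s hc (b := false) hH h0
    | K => exact HB_eq_zero s hc (b := true) hH h0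
    | S b =>
      obtain ⟨F, hF⟩ := exists_finset_HS s b hH
      refine tFaith s b ?_ h0
      have := hF F subset_rfl
      rwa [Finset.sum_mul, Finset.sum_eq_zero fun c _ => ?_, sub_zero] at this
      rw [mul_assoc (vec D b c)]
      have hcv : gen D (.one (baseSrt b)) * covec D b c = covec D b c := by
        rw [covec, ← mul_assoc]
        exact congrArg (· * _) (one_gen (D := D) (.root' b))
      have hz : covec D b c * (gen D (.one (.S b)) * a * gen D (.one X)) = 0 := by
        have e : covec D b c * (gen D (.one (.S b)) * a * gen D (.one X)) =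
            gen D (.one (baseSrt b)) * (covec D b c * gen D (.one (.S b)) * a) *
              gen D (.one X) := by
          simp only [← mul_assoc, hcv]
        have hm := span_H s (covec D b c * gen D (.one (.S b)) * a) (baseSrt b) X
        rw [← e] at hm
        cases b
        · exact HB_eq_zero s hc (b := false) hm (rho_mul_left s h0 _)
        · exact HB_eq_zero s hc (b := true) hm (rho_mul_left s h0 _)
      rw [hz, mul_zero]
  calc a = (gen D (.one .O) + gen D (.one .K) + gen D (.one (.S false)) + gen D (.one (.S true))) *
        a * (gen D (.one .O) + gen D (.one .K) + gen D (.one (.S false)) + gen D (.one (.S true))) := by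
          rw [gen_sum, one_mul, mul_one]
    _ = 0 := by simp only [add_mul, mul_add, hcomp, add_zero]

end Vale.Agent.P193.Bh.Alg
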