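import Vale.Agent.P193.Bh.Alg.Sys

/-!
# P193 algebra half: the facts about the recorded machine

The invariant of reachable configurations, soundness of the final windows, and realisation of all
windows of the phase before `pop`, of the `sand` windows of `pop` and of its `real` windows.
-/

namespace Vale.Agent.P193.Bh.Alg

open Machine

namespace Decider

variable {Ltr : Type} (D : Decider Ltr)

lemma part_match_free {α : Type} (l : List α) : Part.Match (([], false) : Part α) l := by
  simp [Part.Match]

lemma part_match_exact {α : Type} (l : List α) : Part.Match ((l, true) : Part α) l := by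
  simp [Part.Match]

lemma part_match_self {α : Type} (p : Part α) : p.Match p.1 := by
  unfold Part.Match; split <;> simp

lemma part_match_top {α : Type} {x : α} {l : List α} :
    Part.Match (([x], false) : Part α) l ↔ ∃ l', l = x :: l' := by
  constructor
  · intro h
    obtain ⟨t, rfl⟩ : [x] <+: l := h
    exact ⟨t, rfl⟩
  · rintro ⟨l', rfl⟩
    exact ⟨l', rfl⟩

lemma part_exact_eq {α : Type} {p l : List α} (h : Part.Match ((p, true) : Part α) l) : l = p := by
  simpa [Part.Match] using h

/-- A reachable configuration of the word `w` in state `s` with work stacks `S` and bit `b`. -/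
def At (w : List Ltr) (b : TSym) (s : D.St) (S : D.K → List D.Sy) (c : D.Cfg) : Prop :=
  D.Reach c ∧ c.st = s ∧ (∀ k, c.stk (some k) = S k) ∧ letters c.hist = w ∧
    ∃ m, c.fuel = List.replicate m (.inr .fill) ++ [.inr b]

variable {D}

lemma At.congr {w : List Ltr} {b : TSym} {s : D.St} {S S' : D.K → List D.Sy} {c : D.Cfg}
    (h : D.At w b s S c) (e : ∀ k, S k = S' k) : D.At w b s S' c :=
  ⟨h.1, h.2.1, fun k => (h.2.2.1 k).trans (e k), h.2.2.2⟩

/-- A step that adds one filler. -/
lemma At.step {w : List Ltr} {b : TSym} {s s' : D.St} {S S' : D.K → List D.Sy} {c : D.Cfg}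
    (h : D.At w b s S c) (o : D.Op) (hsrc : (D.rule o).src = s) (hdst : (D.rule o).dst = s')
    (hpre : (D.rule o).pre none = ([], false)) (hpost : (D.rule o).post none = [.inr .fill])
    (hlet : ∀ l, letters (o :: l) = letters l)
    (hm : ∀ k, ((D.rule o).pre (some k)).Match (S k))
    (hS : ∀ k, (D.rule o).post (some k) ++ (S k).drop ((D.rule o).pre (some k)).1.length = S' k) :
    D.At w b s' S' (D.app o c) := by
  obtain ⟨hr, hs, hst, hw, m, hf⟩ := h
  refine ⟨hr.app ⟨hs.trans hsrc.symm, fun i => ?_⟩, hdst, fun k => ?_, ?_, m + 1, ?_⟩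
  · cases i with
    | none => rw [hpre]; exact part_match_free _
    | some k => rw [hst k]; exact hm k
  · simp only [app, hst k, hS k]
  · simpa [app, hlet] using hw
  · have hf' : c.stk none = List.replicate m (.inr .fill) ++ [.inr b] := hf
    simp [Cfg.fuel, app, hpre, hpost, hf', List.replicate_succ]

lemma At.wait {w : List Ltr} {b : TSym} {s : D.St} {S : D.K → List D.Sy} {c : D.Cfg}
    (h : D.At w b s S c) (h1 : s ≠ .start) (h2 : ∀ v, s ≠ .pop v) :
    D.At w b s S (D.app (.wait ⟨s, h1, h2 true, h2 false⟩) c) :=
  h.step _ rfl rfl rfl rfl (fun _ => rfl) (fun _ => part_match_free _)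
    (fun k => by simp [rule, free, fillT])

/-- Waiting `n` times puts `n` fillers and `n` waits on top. -/
lemma At.waits {w : List Ltr} {b : TSym} {s : D.St} {S : D.K → List D.Sy} {c : D.Cfg}
    (h : D.At w b s S c) (h1 : s ≠ .start) (h2 : ∀ v, s ≠ .pop v) :
    ∀ n, ∃ d, D.At w b s S d ∧ List.replicate n (.inr .fill) <+: d.fuel ∧ n ≤ d.hist.length ∧
      ∀ o ∈ d.hist.take n, (D.rule o).src ≠ .start
  | 0 => ⟨c, h, List.nil_prefix, Nat.zero_le _, by simp⟩
  | n + 1 => by
    obtain ⟨d, hd, hf, hl, ho⟩ := h.waits h1 h2 n
    refine ⟨_, hd.wait h1 h2, ?_, by simp only [app, List.length_cons]; omega, ?_⟩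
    · simp only [Cfg.fuel, app, rule, free, fillT, List.length_nil, List.drop_zero,
        List.singleton_append, List.replicate_succ]
      exact List.cons_prefix_cons.2 ⟨rfl, hf⟩
    · intro o hoo
      simp only [app, List.take_succ_cons, List.mem_cons] at hoo
      rcases hoo with rfl | hoo
      · exact h1
      · exact ho o hoo

/-- A family of rules that pop any symbol empties the stacks. -/
lemma At.emptyStacks {w : List Ltr} {b : TSym} {s : D.St} (f : D.K → D.Sy → D.Op)
    (hf : ∀ k x, D.rule (f k x) = ⟨s, s, D.topAt k x, D.fillT⟩)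
    (hlet : ∀ k x l, letters (f k x :: l) = letters l)
    {S : D.K → List D.Sy} {c : D.Cfg} (h : D.At w b s S c) (T : Finset D.K) :
    ∃ d, D.At w b s (fun k => if k ∈ T then [] else S k) d := by
  induction T using Finset.induction_on with
  | empty => exact ⟨c, h.congr fun k => by simp⟩
  | @insert a T ha ih =>
    obtain ⟨d, hd⟩ := ih
    have key : ∀ (l : List D.Sy) (S' : D.K → List D.Sy) (e : D.Cfg), D.At w b s S' e →
        S' a = l → ∃ e', D.At w b s (Function.update S' a []) e' := by
      intro l
      induction l with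
      | nil => exact fun S' e he hl => ⟨e, he.congr fun k => by rw [← hl, Function.update_eq_self]⟩
      | cons x l ihl =>
        intro S' e he hl
        have h1 : D.At w b s (Function.update S' a l) (D.app (f a x) e) := by
          refine he.step (f a x) (by rw [hf]) (by rw [hf]) (by rw [hf]; rfl) (by rw [hf]; rfl)
            (hlet a x) (fun k => ?_) (fun k => ?_) <;> rw [hf]
          · by_cases hk : k = a
            · subst hk; simpa [topAt, hl] using part_match_top.2 ⟨l, rfl⟩
            · simpa [topAt, hk] using part_match_free (S' k)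
          · by_cases hk : k = a
            · subst hk; simp [topAt, fillT, hl]
            · simp [topAt, fillT, hk]
        obtain ⟨e', he'⟩ := ihl _ _ h1 (by simp)
        exact ⟨e', he'.congr fun k => by simp⟩
    obtain ⟨e, he⟩ := key _ _ d hd rfl
    refine ⟨e, he.congr fun k => ?_⟩
    by_cases hk : k = a
    · subst hk; simp
    · simp [hk]

/-- Loading prescribed work stacks. -/
lemma At.loadStacks {w : List Ltr} {b : TSym} {c : D.Cfg} (h : D.At w b .load (fun _ => []) c)
    (S : D.K → List D.Sy) (T : Finset D.K) :
    ∃ d, D.At w b .load (fun k => if k ∈ T then S k else []) d := by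
  induction T using Finset.induction_on with
  | empty => exact ⟨c, h.congr fun k => by simp⟩
  | @insert a T ha ih =>
    obtain ⟨d, hd⟩ := ih
    have key : ∀ (l : List D.Sy), ∃ e, D.At w b .load
        (Function.update (fun k => if k ∈ T then S k else []) a l) e := by
      intro l
      induction l with
      | nil => exact ⟨d, hd.congr fun k => by
          by_cases hk : k = a
          · subst hk; simp [ha]
          · simp [hk]⟩
      | cons x l ihl =>
        obtain ⟨e, he⟩ := ihl
        refine ⟨_, he.step (.loadPush a x) rfl rfl rfl rfl (fun _ => rfl)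
          (fun k => part_match_free _) (fun k => ?_)⟩
        by_cases hk : k = a
        · subst hk; simp [rule, free, fillT, pushAt]
        · simp [rule, free, fillT, pushAt, hk]
    obtain ⟨e, he⟩ := key (S a)
    refine ⟨e, he.congr fun k => ?_⟩
    by_cases hk : k = a
    · subst hk; simp
    · simp [hk]

variable (D)

/-- The input stacks as stacks of the machine. -/
def inStk (w : List Ltr) : D.K → List D.Sy := fun k => (D.input w k).map .inl

lemma exists_start : ∀ w : List Ltr, ∃ c, D.Reach c ∧ c.st = .start ∧ c.fuel = [] ∧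
    (∀ k, c.stk (some k) = D.inStk w k) ∧ letters c.hist = w
  | [] => ⟨D.root, .root, rfl, rfl, fun _ => rfl, rfl⟩
  | a :: w => by
    obtain ⟨c, hr, hs, hf, hst, hw⟩ := exists_start w
    have hf' : c.stk none = [] := hf
    refine ⟨D.app (.letter a) c, hr.app ⟨hs, fun i => ?_⟩, rfl, ?_, fun k => ?_, ?_⟩
    · cases i with
      | none => simp [rule, startPre, Part.Match, hf']
      | some k =>
        by_cases hk : k = D.inK
        · simp [rule, startPre, Part.Match, hk]
        · simp [rule, startPre, Part.Match, hk, hst k, inStk, input]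
    · simp [Cfg.fuel, app, rule, startPre, pushAt, hf']
    · by_cases hk : k = D.inK
      · subst hk
        simp [app, rule, startPre, pushAt, hst, inStk, input, List.append_assoc]
      · simp [app, rule, startPre, pushAt, hk, hst k, inStk, input]
    · simp [app, letters, hw]

lemma exists_bit (w : List Ltr) (r : Bool) : ∃ c, D.At w (if r then .real else .sand)
    (if r then .run D.q₀ else .load) (D.inStk w) c := by
  obtain ⟨c, hr, hs, hf, hst, hw⟩ := D.exists_start w
  have hf' : c.stk none = [] := hf
  refine ⟨D.app (.bit r) c, hr.app ⟨hs, fun i => ?_⟩, rfl, fun k => ?_, by simp [app, letters, hw],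
    0, ?_⟩
  · cases i with
    | none => simp [rule, startPre, Part.Match, hf']
    | some k =>
      by_cases hk : k = D.inK
      · simp [rule, startPre, Part.Match, hk]
      · simp [rule, startPre, Part.Match, hk, hst k, inStk, input]
  · simp [app, rule, startPre, hst k]
  · cases r <;> simp [Cfg.fuel, app, rule, startPre, hf']

/-- Every contents in every state is reached by a `sand` branch. -/
lemma exists_sand (w : List Ltr) (s : D.St) (h1 : s ≠ .start) (h2 : ∀ v, s ≠ .pop v)
    (S : D.K → List D.Sy) : ∃ c, D.At w .sand s S c := by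
  obtain ⟨c, hc⟩ := D.exists_bit w false
  simp only [Bool.false_eq_true, if_false] at hc
  obtain ⟨d, hd⟩ := hc.emptyStacks (fun k x => Op.loadPop k x) (fun _ _ => rfl)
    (fun _ _ _ => rfl) Finset.univ
  obtain ⟨e, he⟩ := (hd.congr (S' := fun _ => []) fun k => by simp).loadStacks S Finset.univ
  have he' : D.At w .sand .load S e := he.congr fun k => by simp
  cases s with
  | start => exact absurd rfl h1
  | pop v => exact absurd rfl (h2 v)
  | load => exact ⟨e, he'⟩
  | run q => exact ⟨_, he'.step (.loadRun q) rfl rfl rfl rfl (fun _ => rfl)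
      (fun _ => part_match_free _) (fun k => by simp [rule, free, fillT])⟩
  | clr v => exact ⟨_, he'.step (.loadClr v) rfl rfl rfl rfl (fun _ => rfl)
      (fun _ => part_match_free _) (fun k => by simp [rule, free, fillT])⟩

variable {D}

lemma At.execStep {w : List Ltr} {b : TSym} {q q' : D.Qd} {S S' : D.K → List D.Sym} {c : D.Cfg}
    (hs : Machine.step D.P (q, S) = some (q', S'))
    (h : D.At w b (.run q) (fun k => (S k).map .inl) c) :
    ∃ d, D.At w b (.run q') (fun k => (S' k).map .inl) d := by
  cases hq : D.P q with
  | stop => simp [Machine.step, hq] at hs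
  | push k a q1 =>
    simp only [Machine.step, hq, Option.some.injEq, Prod.mk.injEq] at hs
    obtain ⟨rfl, rfl⟩ := hs
    refine ⟨_, h.step (.step ⟨q, by simp [hq]⟩ none) (by simp [rule, hq]) (by simp [rule, hq])
      (by simp [rule, hq, free]) (by simp [rule, hq, fillT, pushAt]) (fun _ => rfl)
      (fun j => by simp [rule, hq, free, Part.Match]) (fun j => ?_)⟩
    by_cases hj : j = k
    · subst hj; simp [rule, hq, free, fillT, pushAt]
    · simp [rule, hq, free, fillT, pushAt, hj]
  | jump q1 =>
    simp only [Machine.step, hq, Option.some.injEq, Prod.mk.injEq] at hs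
    obtain ⟨rfl, rfl⟩ := hs
    exact ⟨_, h.step (.step ⟨q, by simp [hq]⟩ none) (by simp [rule, hq]) (by simp [rule, hq])
      (by simp [rule, hq, free]) (by simp [rule, hq, fillT]) (fun _ => rfl)
      (fun j => by simp [rule, hq, free, Part.Match]) (fun j => by simp [rule, hq, free, fillT])⟩
  | read k next =>
    simp only [Machine.step, hq, Option.some.injEq, Prod.mk.injEq] at hs
    obtain ⟨rfl, rfl⟩ := hs
    rcases hk : S k with _ | ⟨a, l⟩
    · refine ⟨_, h.step (.step ⟨q, by simp [hq]⟩ none) (by simp [rule, hq]) (by simp [rule, hq])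
        (by simp [rule, hq]) (by simp [rule, hq, fillT]) (fun _ => rfl) (fun j => ?_)
        (fun j => ?_)⟩
      · by_cases hj : j = k
        · subst hj; simp [rule, hq, Part.Match, hk]
        · simp [rule, hq, Part.Match, hj]
      · by_cases hj : j = k <;> simp [rule, hq, fillT, hj]
    · refine ⟨_, h.step (.step ⟨q, by simp [hq]⟩ (some a)) (by simp [rule, hq]) (by simp [rule, hq])
        (by simp [rule, hq, topAt]) (by simp [rule, hq, fillT, pushAt]) (fun _ => rfl)
        (fun j => ?_) (fun j => ?_)⟩
      · by_cases hj : j = k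
        · subst hj; simp [rule, hq, Part.Match, topAt, hk]
        · simp [rule, hq, Part.Match, topAt, hj]
      · by_cases hj : j = k
        · subst hj; simp [rule, hq, topAt, fillT, pushAt, hk]
        · simp [rule, hq, topAt, fillT, pushAt, hj]
  | pop k next =>
    simp only [Machine.step, hq, Option.some.injEq, Prod.mk.injEq] at hs
    obtain ⟨rfl, rfl⟩ := hs
    rcases hk : S k with _ | ⟨a, l⟩
    · refine ⟨_, h.step (.step ⟨q, by simp [hq]⟩ none) (by simp [rule, hq]) (by simp [rule, hq])
        (by simp [rule, hq]) (by simp [rule, hq, fillT]) (fun _ => rfl) (fun j => ?_)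
        (fun j => ?_)⟩
      · by_cases hj : j = k
        · subst hj; simp [rule, hq, Part.Match, hk]
        · simp [rule, hq, Part.Match, hj]
      · by_cases hj : j = k
        · subst hj; simp [rule, hq, fillT, hk]
        · simp [rule, hq, fillT, hj]
    · refine ⟨_, h.step (.step ⟨q, by simp [hq]⟩ (some a)) (by simp [rule, hq]) (by simp [rule, hq])
        (by simp [rule, hq, topAt]) (by simp [rule, hq, fillT]) (fun _ => rfl)
        (fun j => ?_) (fun j => ?_)⟩
      · by_cases hj : j = k
        · subst hj; simp [rule, hq, Part.Match, topAt, hk]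
        · simp [rule, hq, Part.Match, topAt, hj]
      · by_cases hj : j = k
        · subst hj; simp [rule, hq, topAt, fillT, hk]
        · simp [rule, hq, topAt, fillT, hj]

lemma At.execRun {w : List Ltr} {b : TSym} {a a' : Machine.Conf D.K D.Sym D.Qd}
    (hrun : Machine.Run D.P a a') {c : D.Cfg}
    (h : D.At w b (.run a.1) (fun k => (a.2 k).map .inl) c) :
    ∃ d, D.At w b (.run a'.1) (fun k => (a'.2 k).map .inl) d := by
  induction hrun with
  | refl => exact ⟨c, h⟩
  | tail _ hbc ih =>
    obtain ⟨d, hd⟩ := ih
    exact hd.execStep hbc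

/-- Windows of `pop` on a branch that can reach `clr` with empty work stacks. -/
lemma pop_window {w : List Ltr} {b : TSym} {v : Bool} {c : D.Cfg}
    (h : D.At w b (.clr v) (fun _ => []) c) (n j : ℕ) :
    ∃ d, D.Reach d ∧ d.st = .pop v ∧ (∀ k, d.stk (some k) = []) ∧
      d.fuel = List.replicate j (.inr .fill) ++ [.inr b] ∧
      letters d.hist = w ∧ n ≤ d.hist.length ∧ ∀ o ∈ d.hist.take n, (D.rule o).src ≠ .start := by
  obtain ⟨c', hc', hpre, -, -⟩ := h.waits (by simp) (by simp) (n + j + 1)
  have hp : D.At w b (.pop v) (fun _ => []) (D.app (.clrDone v) c') :=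
    hc'.step _ rfl rfl rfl rfl (fun _ => rfl) (fun _ => part_match_exact []) (fun _ => by
      simp [rule, fillT])
  obtain ⟨hr, hs, hst, hw, m, hf⟩ := hp
  have hm : n + j ≤ m := by
    have h1 := hpre.length_le
    have h2 := congrArg List.length hf
    simp only [Cfg.fuel, app, rule, fillT, List.length_append, List.length_replicate,
      List.length_cons, List.length_nil, List.drop_zero] at h1 h2
    omega
  have key : ∀ i, i ≤ m → ∃ d, D.Reach d ∧ d.st = .pop v ∧ (∀ k, d.stk (some k) = []) ∧
      d.fuel = List.replicate (m - i) (.inr .fill) ++ [.inr b] ∧ letters d.hist = w ∧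
      i ≤ d.hist.length ∧ ∀ o ∈ d.hist.take i, (D.rule o).src ≠ .start := by
    intro i
    induction i with
    | zero => exact fun _ => ⟨_, hr, hs, hst, hf, hw, Nat.zero_le _, by simp⟩
    | succ i ih =>
      intro hi
      obtain ⟨d, dr, ds, dst, df, dw, dl, dt⟩ := ih (by omega)
      have e : m - i = (m - (i + 1)) + 1 := by omega
      rw [e, List.replicate_succ, List.cons_append] at df
      have df' : d.stk none = .inr .fill :: (List.replicate (m - (i + 1)) (.inr .fill) ++
        [.inr b]) := df
      refine ⟨D.app (.popT v) d, dr.app ⟨ds, fun x => ?_⟩, rfl, fun k => ?_, ?_, ?_,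
        by simp only [app, List.length_cons]; omega, ?_⟩
      · cases x with
        | none => exact part_match_top.2 ⟨_, df'⟩
        | some k => exact part_match_free _
      · simp [app, rule, dst k]
      · simp [Cfg.fuel, app, rule, df']
      · simpa [app, letters] using dw
      · intro o ho
        simp only [app, List.take_succ_cons, List.mem_cons] at ho
        rcases ho with rfl | ho
        · simp [rule]
        · exact dt o ho
  obtain ⟨d, dr, ds, dst, df, dw, dl, dt⟩ := key (m - j) (by omega)
  rw [show m - (m - j) = j by omega] at df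
  refine ⟨d, dr, ds, dst, df, dw, by omega, fun o ho => dt o ?_⟩
  exact List.take_subset_take_left _ (by omega) ho

variable (D)

/-- The invariant of reachable configurations. -/
def Inv (c : D.Cfg) : Prop :=
  match c.st with
  | .start => c.fuel = [] ∧ ∀ k, c.stk (some k) = D.inStk (letters c.hist) k
  | .load => ∃ m, c.fuel = List.replicate m (.inr .fill) ++ [.inr .sand]
  | .run q => ∃ m b, (b = .real ∨ b = .sand) ∧
      c.fuel = List.replicate m (.inr .fill) ++ [.inr b] ∧
      (b = .real → ∃ S, (∀ k, c.stk (some k) = (S k).map .inl) ∧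
        Machine.Run D.P (D.q₀, D.input (letters c.hist)) (q, S))
  | .clr v => ∃ m b, (b = .real ∨ b = .sand) ∧
      c.fuel = List.replicate m (.inr .fill) ++ [.inr b] ∧
      (b = .real → ∃ S, Machine.Run D.P (D.q₀, D.input (letters c.hist)) (D.halts v, S))
  | .pop v => (∀ k, c.stk (some k) = []) ∧ ∃ m b, (b = .real ∨ b = .sand) ∧
      c.fuel = List.replicate m (.inr .fill) ++ [.inr b] ∧
      (b = .real → ∃ S, Machine.Run D.P (D.q₀, D.input (letters c.hist)) (D.halts v, S))

lemma inv_app {o : D.Op} {c : D.Cfg} (hc : D.Inv c) (hcan : D.Can o c) :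
    D.Inv (D.app o c) := by
  obtain ⟨cs, cstk, ch⟩ := c
  obtain ⟨hsrc, hm⟩ := hcan
  dsimp only at hsrc hm
  subst hsrc
  have hlow : ∀ (m : ℕ) (b : TSym), cstk none = List.replicate m (.inr .fill) ++ [.inr b] →
      (.inr .fill :: cstk none : List D.Sy) =
        List.replicate (m + 1) (.inr .fill) ++ [.inr b] := by
    intro m b e
    rw [e, List.replicate_succ]; rfl
  cases o with
  | letter a =>
    obtain ⟨hf, hst⟩ : cstk none = [] ∧ ∀ k, cstk (some k) = D.inStk (letters ch) k := hc
    refine ⟨?_, fun k => ?_⟩
    · simp [Cfg.fuel, app, rule, startPre, pushAt, hf]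
    · by_cases hk : k = D.inK
      · subst hk
        simp [app, rule, startPre, pushAt, hst, inStk, input, letters, List.append_assoc]
      · simp [app, rule, startPre, pushAt, hk, hst k, inStk, input, letters]
  | bit r =>
    obtain ⟨hf, hst⟩ : cstk none = [] ∧ ∀ k, cstk (some k) = D.inStk (letters ch) k := hc
    cases r
    · exact ⟨0, by simp [Cfg.fuel, app, rule, startPre, hf]⟩
    · exact ⟨0, .real, .inl rfl, by simp [Cfg.fuel, app, rule, startPre, hf], fun _ =>
        ⟨D.input (letters ch), fun k => by simp [app, rule, startPre, hst k, inStk],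
          .refl⟩⟩
  | wait s =>
    obtain ⟨s, h1, h2, h3⟩ := s
    cases s with
    | start => exact absurd rfl h1
    | pop v => cases v <;> simp at h2 h3
    | load =>
      obtain ⟨m, hf⟩ := hc
      exact ⟨m + 1, hlow m _ hf⟩
    | run q =>
      obtain ⟨m, b, hb, hf, hr⟩ := hc
      refine ⟨m + 1, b, hb, hlow m b hf, fun h => ?_⟩
      obtain ⟨S, hS, hrun⟩ := hr h
      exact ⟨S, fun k => by simpa [app, rule, free, fillT] using hS k, hrun⟩
    | clr v =>
      obtain ⟨m, b, hb, hf, hr⟩ := hc
      exact ⟨m + 1, b, hb, hlow m b hf, hr⟩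
  | loadPush k x =>
    obtain ⟨m, hf⟩ := hc
    exact ⟨m + 1, hlow m _ hf⟩
  | loadPop k x =>
    obtain ⟨m, hf⟩ := hc
    exact ⟨m + 1, hlow m _ hf⟩
  | loadRun q =>
    obtain ⟨m, hf⟩ := hc
    exact ⟨m + 1, .sand, .inr rfl, hlow m _ hf, fun h => by simp at h⟩
  | loadClr v =>
    obtain ⟨m, hf⟩ := hc
    exact ⟨m + 1, .sand, .inr rfl, hlow m _ hf, fun h => by simp at h⟩
  | halt v =>
    obtain ⟨m, b, hb, hf, hr⟩ := hc
    exact ⟨m + 1, b, hb, hlow m b hf, fun h => (hr h).imp fun S h' => h'.2⟩
  | clrPop v k x =>
    obtain ⟨m, b, hb, hf, hr⟩ := hc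
    exact ⟨m + 1, b, hb, hlow m b hf, hr⟩
  | clrDone v =>
    obtain ⟨m, b, hb, hf, hr⟩ := hc
    refine ⟨fun k => ?_, m + 1, b, hb, hlow m b hf, hr⟩
    have := part_exact_eq (hm (some k))
    simp [app, rule, fillT, this]
  | popT v =>
    obtain ⟨hst, m, b, hb, hf, hr⟩ := hc
    obtain ⟨l, hl⟩ := part_match_top.1 (hm none)
    have hl' : cstk none = .inr .fill :: l := hl
    have hf' : cstk none = List.replicate m (.inr .fill) ++ [.inr b] := hf
    cases m with
    | zero => rcases hb with rfl | rfl <;> simp [hl'] at hf'
    | succ m =>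
      refine ⟨fun k => by simp [app, rule, show cstk (some k) = [] from hst k], m, b, hb, ?_, hr⟩
      simp [Cfg.fuel, app, rule, hf', List.replicate_succ]
  | step q seen =>
    obtain ⟨q, hq0⟩ := q
    cases hq : D.P q with
    | stop => exact absurd hq hq0
    | push k a q1 =>
      simp only [rule, hq] at hc hm
      obtain ⟨m, b, hb, hf, hr⟩ := hc
      simp only [Inv, app, rule, hq]
      refine ⟨m + 1, b, hb, by simpa [Cfg.fuel, free, fillT, pushAt] using hlow m b hf,
        fun h => ?_⟩
      obtain ⟨S, hS, hrun⟩ := hr h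
      dsimp only at hS
      refine ⟨Function.update S k (a :: S k), fun j => ?_,
        hrun.tail (by simp [Machine.step, hq])⟩
      by_cases hj : j = k
      · subst hj; simp [free, fillT, pushAt, hS]
      · simp [free, fillT, pushAt, hj, hS j]
    | jump q1 =>
      simp only [rule, hq] at hc hm
      obtain ⟨m, b, hb, hf, hr⟩ := hc
      simp only [Inv, app, rule, hq]
      refine ⟨m + 1, b, hb, by simpa [Cfg.fuel, free, fillT] using hlow m b hf, fun h => ?_⟩
      obtain ⟨S, hS, hrun⟩ := hr h
      dsimp only at hS
      exact ⟨S, fun j => by simp [free, fillT, hS j], hrun.tail (by simp [Machine.step, hq])⟩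
    | read k next =>
      cases seen with
      | none =>
        simp only [rule, hq] at hc hm
        obtain ⟨m, b, hb, hf, hr⟩ := hc
        simp only [Inv, app, rule, hq]
        refine ⟨m + 1, b, hb, by simpa [Cfg.fuel, fillT] using hlow m b hf, fun h => ?_⟩
        obtain ⟨S, hS, hrun⟩ := hr h
        dsimp only at hS
        have h0 : S k = [] := by
          have := hm (some k); simpa [Part.Match, hS] using this
        refine ⟨S, fun j => ?_, hrun.tail (by simp [Machine.step, hq, h0])⟩
        by_cases hj : j = k <;> simp [fillT, hj, hS]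
      | some a =>
        simp only [rule, hq] at hc hm
        obtain ⟨m, b, hb, hf, hr⟩ := hc
        simp only [Inv, app, rule, hq]
        refine ⟨m + 1, b, hb, by simpa [Cfg.fuel, fillT, topAt, pushAt] using hlow m b hf,
          fun h => ?_⟩
        obtain ⟨S, hS, hrun⟩ := hr h
        dsimp only at hS
        obtain ⟨l, h0⟩ : ∃ l, S k = a :: l := by
          have := hm (some k)
          simp [topAt, hS] at this
          obtain ⟨l, hl⟩ := part_match_top.1 this
          rcases hk : S k with _ | ⟨a', l'⟩ <;> rw [hk] at hl <;> simp at hl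
          exact ⟨l', by rw [hl.1]⟩
        refine ⟨S, fun j => ?_, hrun.tail (by simp [Machine.step, hq, h0])⟩
        by_cases hj : j = k
        · subst hj; simp [topAt, fillT, pushAt, hS, h0]
        · simp [topAt, fillT, pushAt, hj, hS]
    | pop k next =>
      cases seen with
      | none =>
        simp only [rule, hq] at hc hm
        obtain ⟨m, b, hb, hf, hr⟩ := hc
        simp only [Inv, app, rule, hq]
        refine ⟨m + 1, b, hb, by simpa [Cfg.fuel, fillT] using hlow m b hf, fun h => ?_⟩
        obtain ⟨S, hS, hrun⟩ := hr h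
        dsimp only at hS
        have h0 : S k = [] := by
          have := hm (some k); simpa [Part.Match, hS] using this
        refine ⟨Function.update S k (S k).tail, fun j => ?_,
          hrun.tail (by simp [Machine.step, hq, h0])⟩
        by_cases hj : j = k
        · subst hj; simp [fillT, hS, h0]
        · simp [fillT, hj, hS]
      | some a =>
        simp only [rule, hq] at hc hm
        obtain ⟨m, b, hb, hf, hr⟩ := hc
        simp only [Inv, app, rule, hq]
        refine ⟨m + 1, b, hb, by simpa [Cfg.fuel, fillT, topAt] using hlow m b hf, fun h => ?_⟩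
        obtain ⟨S, hS, hrun⟩ := hr h
        dsimp only at hS
        obtain ⟨l, h0⟩ : ∃ l, S k = a :: l := by
          have := hm (some k)
          simp [topAt, hS] at this
          obtain ⟨l, hl⟩ := part_match_top.1 this
          rcases hk : S k with _ | ⟨a', l'⟩ <;> rw [hk] at hl <;> simp at hl
          exact ⟨l', by rw [hl.1]⟩
        refine ⟨Function.update S k (S k).tail, fun j => ?_,
          hrun.tail (by simp [Machine.step, hq, h0])⟩
        by_cases hj : j = k
        · subst hj; simp [topAt, fillT, hS, h0]
        · simp [topAt, fillT, hj, hS]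

lemma inv_reach {c : D.Cfg} (h : D.Reach c) : D.Inv c := by
  induction h with
  | root => exact ⟨rfl, fun _ => rfl⟩
  | app _ hcan ih => exact D.inv_app ih hcan

lemma halt_unique {a b b' : Machine.Conf D.K D.Sym D.Qd} (h : Machine.Run D.P a b)
    (h' : Machine.Run D.P a b') (hb : Machine.step D.P b = none)
    (hb' : Machine.step D.P b' = none) : b = b' := by
  induction h using Relation.ReflTransGen.head_induction_on with
  | refl =>
    rcases Relation.ReflTransGen.cases_head h' with rfl | ⟨c, hc, -⟩
    · rfl
    · rw [hb] at hc; cases hc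
  | @head a c hac _ ih =>
    rcases Relation.ReflTransGen.cases_head h' with rfl | ⟨d, hd, hd'⟩
    · rw [hb'] at hac; cases hac
    · rw [hac] at hd
      cases hd
      exact ih hd'

/-- The machine module's goal. -/
theorem machineGoal : MachineGoal := by
  intro Ltr D p hp
  refine ⟨fun c hc hbad => ?_, fun v c hc hfin => ?_, fun w s n W h1 h2 => ?_,
    fun w v n j => ?_, fun w v n j hv => ?_⟩
  · have hi := D.inv_reach hc
    rcases hbad with ⟨v, hs, hb⟩ | ⟨hs, hb⟩ <;> simp only [Inv, hs] at hi
    · obtain ⟨hst, m, b, hbb, hf, -⟩ := hi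
      rcases hb with ⟨k, hk⟩ | h0 | ⟨x, l, hxl, hx, hl⟩
      · exact hk (hst k)
      · simp [hf] at h0
      · rw [hf] at hxl
        cases m with
        | zero =>
          simp at hxl
          obtain ⟨rfl, rfl⟩ := hxl
          rcases hl with hl | ⟨hl1, hl2⟩
          · exact hl rfl
          · rcases hbb with rfl | rfl
            · exact hl1 rfl
            · exact hl2 rfl
        | succ m =>
          simp [List.replicate_succ] at hxl
          exact hx hxl.1.symm
    · obtain ⟨hf, hst⟩ := hi
      rcases hb with hb | ⟨k, hk, hne⟩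
      · exact hb hf
      · simp [hst k, inStk, input, hk] at hne
  · obtain ⟨hs, -, hf⟩ := hfin
    have hi := D.inv_reach hc
    simp only [Inv, hs] at hi
    obtain ⟨-, m, b, -, hf', hr⟩ := hi
    rw [hf] at hf'
    have hb : b = .real := by
      cases m with
      | zero => simp at hf'; exact hf'.symm
      | succ m => simp [List.replicate_succ] at hf'
    obtain ⟨S, hS⟩ := hr hb
    have hstop : ∀ v S, Machine.step D.P (D.halts v, S) = none := fun v S => by
      simp [Machine.step, D.halts_stop v]
    by_cases hw : p (letters c.hist)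
    · obtain ⟨S', hS'⟩ := (hp _).1 hw
      have := D.halts_inj (congrArg Prod.fst (D.halt_unique hS hS' (hstop _ _) (hstop _ _)))
      simp [this, hw]
    · obtain ⟨S', hS'⟩ := (hp _).2 hw
      have := D.halts_inj (congrArg Prod.fst (D.halt_unique hS hS' (hstop _ _) (hstop _ _)))
      simp [this, hw]
  · obtain ⟨c, hc⟩ := D.exists_sand w s h1 h2 (fun k => (W k).1)
    obtain ⟨d, ⟨hr, hs, hst, hw, -⟩, hf, hl, ho⟩ := hc.waits h1 h2 n
    exact ⟨d, hr, hs, fun k => by rw [hst k]; exact part_match_self _, hf, hw, hl, ho⟩
  · obtain ⟨c, hc⟩ := D.exists_sand w (.clr v) (by simp) (by simp) (fun _ => [])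
    exact pop_window hc n j
  · obtain ⟨S, hS⟩ : ∃ S, Machine.Run D.P (D.q₀, D.input w) (D.halts v, S) := by
      cases v
      · exact (hp w).2 fun h => by simp [h] at hv
      · exact (hp w).1 (hv.1 rfl)
    obtain ⟨c, hc⟩ := D.exists_bit w true
    simp only [if_true] at hc
    obtain ⟨d, hd⟩ := At.execRun hS hc
    have h1 : D.At w .real (.clr v) (fun k => (S k).map .inl) (D.app (.halt v) d) :=
      hd.step _ rfl rfl rfl rfl (fun _ => rfl) (fun _ => part_match_free _)
        (fun k => by simp [rule, free, fillT])
    obtain ⟨e, he⟩ := h1.emptyStacks (fun k x => Op.clrPop v k x) (fun _ _ => rfl)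
      (fun _ _ _ => rfl) Finset.univ
    exact pop_window (he.congr fun k => by simp) n j

end Decider

end Vale.Agent.P193.Bh.Alg
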