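import Vale.Agent.P193.Bh.Alg.Sys
import Vale.Agent.P193.Machine.Numbering

/-!
# P193 algebra half: deciders exist for computable sets of words

The stack machine of `Machine.exists_word_machine`, reading letters in unary blocks.
-/

namespace Vale.Agent.P193.Bh.Alg

open Turing Turing.PartrecToTM2

instance fintypeDeciderStack : Fintype K' :=
  ⟨{K'.main, K'.rev, K'.aux, K'.stack}, fun k => by cases k <;> simp⟩

/-- A decidable set of words in finitely many letters has a decider. -/
theorem exists_decider {Ltr : Type} [Primcodable Ltr] {m : ℕ} (e : Ltr ≃ Fin m)
    {p : List Ltr → Prop} (hp : ComputablePred p) : ∃ D : Decider Ltr, D.Decides p := by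
  classical
  have hmap : Computable fun w : List (Fin m) => w.map e.symm :=
    (Primrec.list_map (f := fun w : List (Fin m) => w) (g := fun _ i => e.symm i) Primrec.id
      ((Primrec.dom_finite _).comp Primrec.snd).to₂).to_comp
  obtain ⟨f, hf, hpf⟩ := ComputablePred.computable_iff.1 hp
  have hp' : ComputablePred fun w : List (Fin m) => p (w.map e.symm) :=
    ComputablePred.computable_iff.2 ⟨fun w => f (w.map e.symm), hf.comp hmap, by
      funext w; simp [hpf]⟩
  obtain ⟨Q, _, _, P, q₀, acc, rej, hne, hacc, hrej, hrun⟩ :=
    Machine.exists_word_machine hp'
  let D : Decider Ltr :=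
    { K := K'
      Sym := Γ'
      Qd := Q
      P := P
      q₀ := q₀
      halts := fun v => if v then acc else rej
      halts_inj := by intro a b; cases a <;> cases b <;> simp [hne, hne.symm]
      halts_stop := by intro v; cases v <;> simp [hacc, hrej]
      inK := K'.main
      code := fun a => Machine.block (e a)
      code_ne := fun a => by simp [Machine.block]
      endc := [Γ'.cons] }
  have hin : ∀ w : List Ltr, D.input w = Machine.wordInput ((w.map e).map Fin.val) := by
    intro w
    funext k
    cases k <;> simp [D, Decider.input, Machine.wordInput, K'.elim, List.flatMap_map]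
  refine ⟨D, fun w => ?_⟩
  have hw : (w.map e).map e.symm = w := by simp [List.map_map, Function.comp_def]
  have h := hrun (w.map e)
  rw [hw] at h
  rw [hin]
  exact h

end Vale.Agent.P193.Bh.Alg
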