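import Vale.Agent.P193.Bh.Interface

/-!
# P193 algebra half: adding an infinite cyclic factor

`G × ℤ` is generated by one more letter, its word problem is decidable with that of `G`, and it
is infinite.
-/

namespace Vale.Agent.P193.Bh.Alg

variable {G : Type} [Group G] {n : ℕ}

/-- The generators of `G × ℤ`. -/
def prodGen (s : Fin n → G) : Fin (n + 1) → G × Multiplicative ℤ :=
  Fin.lastCases (1, Multiplicative.ofAdd 1) fun i => (s i, 1)

/-- The letter of `G` behind a letter of `G × ℤ`. -/
def oldLetter : Fin (n + 1) × Bool → Option (Fin n × Bool)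
  | (i, b) => if h : (i : ℕ) < n then some (⟨i, h⟩, b) else none

/-- One for the new generator with the given exponent sign. -/
def newCount (b : Bool) : List (Fin (n + 1) × Bool) → ℕ :=
  List.foldr (fun x r => (if x = (Fin.last n, b) then 1 else 0) + r) 0

lemma wordVal_eq {H : Type} [Group H] {k : ℕ} (t : Fin k → H) (l : List (Fin k × Bool)) :
    wordVal t l = (l.map fun x => cond x.2 (t x.1) (t x.1)⁻¹).prod :=
  FreeGroup.lift_mk

lemma wordVal_prodGen (s : Fin n → G) (l : List (Fin (n + 1) × Bool)) :
    wordVal (prodGen s) l = (wordVal s (l.filterMap oldLetter),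
      Multiplicative.ofAdd ((newCount true l : ℤ) - newCount false l)) := by
  induction l with
  | nil => simp [wordVal_eq, newCount, Prod.mk_one_one]
  | cons x l ih =>
    rw [wordVal_eq, List.map_cons, List.prod_cons, ← wordVal_eq, ih]
    obtain ⟨i, b⟩ := x
    refine Fin.lastCases ?_ (fun j => ?_) i
    · cases b <;> refine Prod.ext (by simp [prodGen, oldLetter])
        (Multiplicative.toAdd.injective ?_) <;> simp [prodGen, newCount] <;> omega
    · cases b <;>
        simp [prodGen, oldLetter, List.filterMap_cons, newCount, wordVal_eq, Prod.ext_iff,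
          (Fin.castSucc_lt_last j).ne]

/-- The generators generate. -/
theorem prodGen_closure (s : Fin n → G) (hs : Subgroup.closure (Set.range s) = ⊤) :
    Subgroup.closure (Set.range (prodGen s)) = ⊤ := by
  rw [eq_top_iff]
  rintro ⟨g, z⟩ -
  have h1 : ((g, 1) : G × Multiplicative ℤ) ∈ Subgroup.closure (Set.range (prodGen s)) := by
    have hg : g ∈ (Subgroup.closure (Set.range s)) := hs ▸ Subgroup.mem_top g
    induction hg using Subgroup.closure_induction with
    | mem x hx =>
      obtain ⟨i, rfl⟩ := hx
      exact Subgroup.subset_closure ⟨i.castSucc, by simp [prodGen]⟩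
    | one => exact Subgroup.one_mem _
    | mul x y _ _ hx hy => simpa using Subgroup.mul_mem _ hx hy
    | inv x _ hx => simpa using Subgroup.inv_mem _ hx
  have h2 : ((1, z) : G × Multiplicative ℤ) ∈ Subgroup.closure (Set.range (prodGen s)) := by
    have hl : ((1, Multiplicative.ofAdd 1) : G × Multiplicative ℤ) ∈
        Subgroup.closure (Set.range (prodGen s)) :=
      Subgroup.subset_closure ⟨Fin.last n, by simp [prodGen]⟩
    have := Subgroup.zpow_mem _ hl z.toAdd
    rwa [show (((1 : G), Multiplicative.ofAdd (1 : ℤ)) ^ z.toAdd) = ((1 : G), z) from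
      Prod.ext (by simp) (by simp [← ofAdd_zsmul])] at this
  simpa using Subgroup.mul_mem _ h1 h2

/-- Decidability passes to `G × ℤ`. -/
theorem prodGen_computable (s : Fin n → G)
    (hd : ComputablePred fun l : List (Fin n × Bool) => wordVal s l = 1) :
    ComputablePred fun l : List (Fin (n + 1) × Bool) => wordVal (prodGen s) l = 1 := by
  classical
  obtain ⟨f, hf, hpf⟩ := ComputablePred.computable_iff.1 hd
  have h1 : Computable fun l : List (Fin (n + 1) × Bool) => l.filterMap oldLetter :=
    (Primrec.listFilterMap Primrec.id ((Primrec.dom_finite _).comp Primrec.snd).to₂).to_comp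
  have h2 : ∀ b, Computable fun l : List (Fin (n + 1) × Bool) => newCount b l := fun b =>
    (Primrec.list_foldr Primrec.id (Primrec.const 0)
      (Primrec.nat_add.comp
        ((Primrec.dom_finite fun x : Fin (n + 1) × Bool =>
            (if x = (Fin.last n, b) then 1 else 0)).comp (Primrec.fst.comp Primrec.snd))
        (Primrec.snd.comp Primrec.snd)).to₂).to_comp
  refine ComputablePred.computable_iff.2
    ⟨fun l => f (l.filterMap oldLetter) && decide (newCount true l = newCount false l),
      (Primrec.and.to_comp).comp (hf.comp h1)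
        ((Primrec.eq.decide.to_comp).comp (h2 true) (h2 false)), ?_⟩
  funext l
  have h3 : (wordVal s (l.filterMap oldLetter) = 1) = (f (l.filterMap oldLetter) = true) :=
    congrFun hpf _
  rw [wordVal_prodGen, Prod.mk_eq_one, h3, ofAdd_eq_one, sub_eq_zero]
  simp

/-- `G × ℤ` is infinite. -/
theorem prod_infinite : Infinite (G × Multiplicative ℤ) :=
  Infinite.of_injective (fun z : Multiplicative ℤ => ((1 : G), z)) fun _ _ h => (Prod.ext_iff.1 h).2

end Vale.Agent.P193.Bh.Alg
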