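import Mathlib
import Vale.Agent.P193.Bh.Alg.Core
import Vale.Agent.P193.Bh.Alg.Faith
import Vale.Agent.P193.Bh.Alg.Machine
import Vale.Agent.P193.Bh.Alg.MachineDecider
import Vale.Agent.P193.Bh.Alg.MachineProd

/-!
# P193 algebra half: the core

The machine algebra of a decider for the word problem of an infinite group containing the given one
is a core, once the maps into the group sort are faithfully represented.
-/

namespace Vale.Agent.P193.Bh.Alg

open Decider

set_option linter.unusedSectionVars false

variable {Ltr : Type} [Fintype Ltr] [DecidableEq Ltr] {D : Decider Ltr} {G : Type} [Group G]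
variable (s : Setting D G)

/-- A map into `O` sends only basis vectors of its sort. -/
theorem ev_off {r : MAlg D} {X : Srt} (hr : r * gen D (.one X) = r) {v : Bas D G}
    (hv : v.srt ≠ X) : s.ev r v = 0 := by
  rw [← hr]
  refine ev_mul_zero s ?_ r
  rw [ev_gen, act_one, if_neg hv]
  rfl

theorem exists_make (v : Bas D G) : ∃ r : MAlg D,
    s.ev r .o = Finsupp.single v 1 := by
  cases v with
  | o => exact ⟨_, ev_oneO s⟩
  | k g => exact ⟨s.trans g * gen D .iota, by
      rw [ev_mul_single s (ev_iota s), ev_trans, mul_one]⟩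
  | c c => exact ⟨vec D false c, ev_vec s false c 1⟩
  | p c g => exact ⟨vec D true c * (s.trans g * gen D .iota), by
      have e : s.ev (s.trans g * gen D .iota) .o = Finsupp.single (.k g) 1 := by
        rw [ev_mul_single s (ev_iota s), ev_trans, mul_one]
      rw [ev_mul_single s e]
      exact ev_vec s true c g⟩

theorem covec_one (b : Bool) (c : D.Cfg) :
    covec D b c * gen D (.one (.S b)) = covec D b c := by
  rw [covec, mul_assoc]
  congr 1
  rw [monoD, Ops.monoM, Ops.mono, mul_assoc]
  congr 1
  have h := ops_rel (D := D) b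
  induction (Finset.univ : Finset (SI D)).toList with
  | nil => exact h.one_idem
  | cons i l ih =>
    simp only [Ops.blkProd, List.foldr_cons] at ih ⊢
    rw [mul_assoc, ih]

open Classical in
theorem exists_read (w : Bas D G) : ∃ r : MAlg D,
    ∀ v, s.ev r v = if v = w then Finsupp.single .o 1 else 0 := by
  cases w with
  | o =>
    refine ⟨gen D (.one .O), fun v => ?_⟩
    rw [ev_gen, act_one]
    cases v <;> simp [Bas.srt]
  | k g =>
    refine ⟨gen D .delta * s.trans g⁻¹, fun v => ?_⟩
    have hr : gen D .delta * s.trans g⁻¹ * gen D (.one .K) = gen D .delta * s.trans g⁻¹ := by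
      rw [mul_assoc, (trans_corner s _).2]
    rcases v with _ | x | c | ⟨c, x⟩
    case k =>
      rw [ev_mul_single s (ev_trans s g⁻¹ x), ev_delta]
      simp [inv_mul_eq_one, eq_comm]
    all_goals
      rw [ev_off s hr (by simp [Bas.srt]), if_neg (by simp)]
  | c c' =>
    refine ⟨covec D false c', fun v => ?_⟩
    rcases v with _ | x | c | ⟨c, x⟩
    case c =>
      refine (ev_covec s false c' c 1).trans ?_
      simp [b0, eq_comm]
    all_goals
      rw [ev_off s (covec_one false c') (by simp [Bas.srt]), if_neg (by simp)]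
  | p c' g =>
    refine ⟨gen D .delta * s.trans g⁻¹ * covec D true c', fun v => ?_⟩
    rcases v with _ | x | c | ⟨c, x⟩
    case p =>
      rw [ev_mul, show s.ev (covec D true c') (.p c x) = _ from ev_covec s true c' c x]
      by_cases hc : c' = c
      · subst hc
        rw [if_pos rfl]
        show s.ev (gen D .delta * s.trans g⁻¹) (.k x) = _
        rw [ev_mul_single s (ev_trans s g⁻¹ x), ev_delta]
        simp [inv_mul_eq_one, eq_comm]
      · rw [if_neg hc, map_zero, if_neg]
        exact fun e => hc (Bas.p.inj e).1.symm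
    all_goals
      rw [ev_mul_zero s (ev_off s (covec_one true c') (by simp [Bas.srt])), if_neg (by simp)]

theorem unit_injective : Function.Injective s.unitHom := by
  intro g h e
  have he : s.ev ((s.unitHom g : (MAlg D)ˣ) : MAlg D) (.k 1) =
      s.ev ((s.unitHom h : (MAlg D)ˣ) : MAlg D) (.k 1) := by rw [e]
  have hev : ∀ g : G, s.ev ((s.unitHom g : (MAlg D)ˣ) : MAlg D) (.k 1) =
      Finsupp.single (.k g) 1 := by
    intro g
    have h1 : s.ev (gen D (.one .K)) (.k 1) = Finsupp.single (.k 1) 1 := by
      rw [ev_gen, act_one, if_pos (show (Bas.k 1 : Bas D G).srt = Srt.K from rfl)]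
      rfl
    have h2 : s.ev (1 : MAlg D) (.k 1) = Finsupp.single (.k 1) 1 := by
      simp [Setting.ev]
    show s.ev (s.trans g + (1 - gen D (.one .K))) (.k 1) = _
    rw [ev_add, ev_sub, h1, h2, sub_self, add_zero, ev_trans, mul_one]
  rw [hev, hev] at he
  rcases Finsupp.single_eq_single_iff _ _ _ _ |>.1 he with ⟨h1, -⟩ | ⟨h1, -⟩
  · exact Bas.k.inj h1
  · exact absurd h1 one_ne_zero

theorem corner_O (s : Setting D G) (a : MAlg D) :
    gen D (.one .O) * a * gen D (.one .O) = 0 ∨
      gen D (.one .O) * a * gen D (.one .O) = gen D (.one .O) := by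
  classical
  obtain ⟨y, hy, e⟩ : gen D (.one .O) * a * gen D (.one .O) ∈ s.HB false .O := span_H s a .O .O
  rw [← e, LinearMap.mulLeft_apply]
  clear e
  induction hy using Submodule.span_induction with
  | zero => exact Or.inl (mul_zero _)
  | add x z _ _ hx hz =>
    rw [mul_add]
    rcases hx with h1 | h1 <;> rcases hz with h2 | h2 <;> rw [h1, h2]
    · exact Or.inl (add_zero _)
    · exact Or.inr (zero_add _)
    · exact Or.inr (add_zero _)
    · refine Or.inl ?_
      rw [← two_smul (ZMod 2), show (2 : ZMod 2) = 0 from rfl, zero_smul]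
  | smul t x _ hx =>
    rw [mul_smul_comm]
    have ht : t = 0 ∨ t = 1 := by revert t; decide
    rcases ht with rfl | rfl
    · exact Or.inl (zero_smul _ _)
    · rw [one_smul]; exact hx
  | mem x hx =>
    obtain ⟨g, rfl⟩ := hx
    rw [delta_trans_iota]
    split
    · exact Or.inr rfl
    · exact Or.inl rfl

theorem sep_O (hc : s.CoreFaith) (a : MAlg D) (ha : a ≠ 0) :
    ∃ r t, gen D (.one .O) * r * a * t * gen D (.one .O) ≠ 0 := by
  classical
  obtain ⟨v, hv⟩ : ∃ v, s.ev a v ≠ 0 := by
    by_contra h
    push Not at h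
    exact ha (faith_of_core s hc a (End.ext_single fun v => by
      rw [LinearMap.zero_apply]; exact h v))
  obtain ⟨w, hw⟩ := Finsupp.ne_iff.1 hv
  obtain ⟨t, ht⟩ := exists_make s v
  obtain ⟨r, hr⟩ := exists_read s w
  refine ⟨r, t, fun h0 => hw ?_⟩
  have hlin : s.rho r = Finsupp.lsingle Bas.o ∘ₗ Finsupp.lapply w := by
    refine End.ext_single fun u => ?_
    show s.ev r u = _
    rw [hr]
    by_cases hu : u = w <;> simp [hu, Finsupp.single_eq_of_ne, Ne.symm]
  have h1 : s.ev (gen D (.one .O) * r * a * t * gen D (.one .O)) .o =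
      Finsupp.single .o (s.ev a v w) := by
    rw [ev_mul_single s (ev_oneO s), ev_mul_single s ht, mul_assoc, ev_mul, ev_mul, hlin,
      LinearMap.comp_apply, Finsupp.lsingle_apply, Finsupp.lapply_apply,
      ← Finsupp.smul_single_one, map_smul, show s.rho (gen D (.one .O)) (Finsupp.single Bas.o 1) =
        _ from ev_oneO s]
  rw [h0, ev_zero] at h1
  exact Finsupp.single_eq_zero.1 h1.symm

/-- The core, given faithfulness on the maps into the group sort. -/
theorem coreGoal_of_coreFaith
    (hcore : ∀ (Ltr : Type) [Fintype Ltr] [DecidableEq Ltr] (D : Decider Ltr) (G : Type)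
      [Group G] (s : Setting D G), s.CoreFaith) : CoreGoal := by
  intro G _ n t ht hd
  let lt : Fin (n + 1) × Bool → G × Multiplicative ℤ :=
    fun x => cond x.2 (prodGen t x.1) (prodGen t x.1)⁻¹
  have hp : ComputablePred fun w : List (Fin (n + 1) × Bool) => (w.map lt).prod = 1 := by
    have := prodGen_computable t hd
    simpa only [wordVal_eq] using this
  obtain ⟨D, hD⟩ := exists_decider (Fintype.equivFin (Fin (n + 1) × Bool)) hp
  let s : Setting D (G × Multiplicative ℤ) :=
    { lt := lt
      inv := fun x => (x.1, !x.2)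
      lt_inv := fun x => by obtain ⟨i, _ | _⟩ := x <;> simp [lt]
      gens := by
        rw [eq_top_iff, ← prodGen_closure t ht]
        exact Subgroup.closure_mono fun g ⟨i, hi⟩ => ⟨(i, true), hi⟩
      infinite := prod_infinite
      facts := Decider.machineGoal _ D _ hD }
  have hne : gen D (.one .O) ≠ 0 := fun h => by
    have h1 := ev_oneO s
    rw [h, ev_zero] at h1
    exact one_ne_zero (Finsupp.single_eq_zero.1 h1.symm)
  refine ⟨⟨MAlg D, isFPAlgebra_alg D, gen D (.one .O), (gen_one_mul (D := D) .O .O).trans
    (if_pos rfl), hne, corner_O s, sep_O s (hcore _ D _ s)⟩,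
    s.unitHom.comp (MonoidHom.inl G (Multiplicative ℤ)),
    (unit_injective s).comp fun g h e => (Prod.ext_iff.1 e).1⟩

end Vale.Agent.P193.Bh.Alg
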