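import Vale.Agent.P193.Bh.Alg.Core
import Vale.Agent.P193.Bh.Alg.B.Sep

/-!
# P193: a core tensored with the swindle algebra is a seed
-/

namespace Vale.Agent.P193.Bh.Alg

open TensorProduct Algebra.TensorProduct

variable {A : Type} [Ring A] [Algebra (ZMod 2) A]

lemma exists_factor {n : ℕ} {Q : Type} [Ring Q] [Algebra (ZMod 2) Q]
    (π : FreeAlgebra (ZMod 2) (Fin n) →ₐ[ZMod 2] A) (hπ : Function.Surjective π)
    {R : Set (FreeAlgebra (ZMod 2) (Fin n))} (hR : ∀ x, π x = 0 → x ∈ TwoSidedIdeal.span R)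
    (ψ : FreeAlgebra (ZMod 2) (Fin n) →ₐ[ZMod 2] Q) (hψ : ∀ r ∈ R, ψ r = 0) :
    ∃ g : A →ₐ[ZMod 2] Q, ∀ x, g (π x) = ψ x := by
  have hle : TwoSidedIdeal.span R ≤ TwoSidedIdeal.ker ψ := by
    refine TwoSidedIdeal.span_le.2 fun x hx => ?_
    rw [SetLike.mem_coe, TwoSidedIdeal.mem_ker]
    exact hψ x hx
  have key : ∀ x y, π x = π y → ψ x = ψ y := fun x y h => by
    have h0 := (TwoSidedIdeal.mem_ker ψ).1 (hle (hR (x - y) (by rw [map_sub, h, sub_self])))
    rwa [map_sub, sub_eq_zero] at h0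
  refine ⟨AlgHom.ofLinearMap
    ⟨⟨fun a => ψ (Function.surjInv hπ a), fun a b => ?_⟩, fun c a => ?_⟩ ?_ fun a b => ?_,
    fun x => key _ _ (Function.surjInv_eq hπ _)⟩
  · rw [← map_add]
    exact key _ _ (by simp [Function.surjInv_eq hπ])
  · rw [RingHom.id_apply, ← map_smul]
    exact key _ _ (by simp [Function.surjInv_eq hπ])
  · exact (key _ 1 (by simp [Function.surjInv_eq hπ])).trans (map_one ψ)
  · exact (key _ (Function.surjInv hπ a * Function.surjInv hπ b)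
      (by simp [Function.surjInv_eq hπ])).trans (map_mul ψ _ _)

lemma commute_of_gens {n m : ℕ} {Q : Type} [Ring Q] [Algebra (ZMod 2) Q]
    (f : FreeAlgebra (ZMod 2) (Fin n) →ₐ[ZMod 2] Q)
    (g : FreeAlgebra (ZMod 2) (Fin m) →ₐ[ZMod 2] Q)
    (h : ∀ i j, Commute (f (FreeAlgebra.ι _ i)) (g (FreeAlgebra.ι _ j))) :
    ∀ x y, Commute (f x) (g y) := by
  intro x
  induction x using FreeAlgebra.induction with
  | grade0 k => intro y; rw [AlgHom.commutes]; exact Algebra.commutes k (g y)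
  | grade1 i =>
    intro y
    induction y using FreeAlgebra.induction with
    | grade0 k => rw [AlgHom.commutes]; exact (Algebra.commutes k _).symm
    | grade1 j => exact h i j
    | mul a b ha hb => rw [map_mul]; exact ha.mul_right hb
    | add a b ha hb => rw [map_add]; exact ha.add_right hb
  | mul a b ha hb => intro y; rw [map_mul]; exact (ha y).mul_left (hb y)
  | add a b ha hb => intro y; rw [map_add]; exact (ha y).add_left (hb y)

theorem isFP_tensor {A B : Type} [Ring A] [Algebra (ZMod 2) A] [Ring B] [Algebra (ZMod 2) B]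
    (hA : IsFPAlgebra A) (hB : IsFPAlgebra B) : IsFPAlgebra (A ⊗[ZMod 2] B) := by
  classical
  obtain ⟨n, π₁, hs₁, R₁, hR₁, hk₁⟩ := hA
  obtain ⟨m, π₂, hs₂, R₂, hR₂, hk₂⟩ := hB
  let j₁ : FreeAlgebra (ZMod 2) (Fin n) →ₐ[ZMod 2] FreeAlgebra (ZMod 2) (Fin (n + m)) :=
    FreeAlgebra.lift _ fun i => FreeAlgebra.ι _ (Fin.castAdd m i)
  let j₂ : FreeAlgebra (ZMod 2) (Fin m) →ₐ[ZMod 2] FreeAlgebra (ZMod 2) (Fin (n + m)) :=
    FreeAlgebra.lift _ fun i => FreeAlgebra.ι _ (Fin.natAdd n i)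
  let π : FreeAlgebra (ZMod 2) (Fin (n + m)) →ₐ[ZMod 2] A ⊗[ZMod 2] B :=
    FreeAlgebra.lift _ (Fin.addCases (motive := fun _ => A ⊗[ZMod 2] B)
      (fun i => π₁ (FreeAlgebra.ι _ i) ⊗ₜ 1) fun i => 1 ⊗ₜ π₂ (FreeAlgebra.ι _ i))
  have h₁ : ∀ x, π (j₁ x) = π₁ x ⊗ₜ 1 := fun x => by
    have h : π.comp j₁ = (includeLeft : A →ₐ[ZMod 2] A ⊗[ZMod 2] B).comp π₁ :=
      FreeAlgebra.hom_ext (funext fun i => by simp [π, j₁])
    exact AlgHom.congr_fun h x
  have h₂ : ∀ x, π (j₂ x) = 1 ⊗ₜ π₂ x := fun x => by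
    have h : π.comp j₂ = (includeRight : B →ₐ[ZMod 2] A ⊗[ZMod 2] B).comp π₂ :=
      FreeAlgebra.hom_ext (funext fun i => by simp [π, j₂, -Fin.natAdd_eq_addNat])
    exact AlgHom.congr_fun h x
  let comms : Finset (FreeAlgebra (ZMod 2) (Fin (n + m))) :=
    Finset.univ.image fun p : Fin n × Fin m =>
      j₁ (FreeAlgebra.ι _ p.1) * j₂ (FreeAlgebra.ι _ p.2) -
        j₂ (FreeAlgebra.ι _ p.2) * j₁ (FreeAlgebra.ι _ p.1)
  refine ⟨n + m, π, fun z => ?_, R₁.image j₁ ∪ R₂.image j₂ ∪ comms, fun r hr => ?_, fun z hz => ?_⟩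
  · induction z with
    | zero => exact ⟨0, map_zero π⟩
    | tmul a b =>
      obtain ⟨x, rfl⟩ := hs₁ a
      obtain ⟨y, rfl⟩ := hs₂ b
      exact ⟨j₁ x * j₂ y, by rw [map_mul, h₁, h₂, tmul_mul_tmul, mul_one, one_mul]⟩
    | add u v hu hv =>
      obtain ⟨x, rfl⟩ := hu
      obtain ⟨y, rfl⟩ := hv
      exact ⟨x + y, map_add π x y⟩
  · simp only [Finset.mem_union, Finset.mem_image, comms] at hr
    rcases hr with (⟨x, hx, rfl⟩ | ⟨x, hx, rfl⟩) | ⟨p, -, rfl⟩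
    · rw [h₁, hR₁ x hx, zero_tmul]
    · rw [h₂, hR₂ x hx, tmul_zero]
    · rw [map_sub, map_mul, map_mul, h₁, h₂, tmul_mul_tmul, tmul_mul_tmul, mul_one, one_mul,
        mul_one, one_mul, sub_self]
  · set I := (TwoSidedIdeal.span ((R₁.image j₁ ∪ R₂.image j₂ ∪ comms : Finset _) :
      Set (FreeAlgebra (ZMod 2) (Fin (n + m))))).asIdeal with hI
    let q : FreeAlgebra (ZMod 2) (Fin (n + m)) →ₐ[ZMod 2] _ ⧸ I := Ideal.Quotient.mkₐ (ZMod 2) I
    have hq : ∀ x, q x = 0 ↔ x ∈ TwoSidedIdeal.span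
        ((R₁.image j₁ ∪ R₂.image j₂ ∪ comms : Finset _) : Set _) := fun x => by
      simp only [q, Ideal.Quotient.mkₐ_eq_mk, Ideal.Quotient.eq_zero_iff_mem, hI,
        TwoSidedIdeal.mem_asIdeal]
    obtain ⟨g₁, hg₁⟩ := exists_factor π₁ hs₁ hk₁ (q.comp j₁) fun r hr =>
      (hq _).2 (TwoSidedIdeal.subset_span (by simp [Finset.mem_coe.1 hr]; exact .inl ⟨r, hr, rfl⟩))
    obtain ⟨g₂, hg₂⟩ := exists_factor π₂ hs₂ hk₂ (q.comp j₂) fun r hr =>
      (hq _).2 (TwoSidedIdeal.subset_span (Finset.mem_coe.2 (Finset.mem_union_left _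
        (Finset.mem_union_right _ (Finset.mem_image_of_mem _ hr)))))
    have hgen : ∀ i k, Commute (q.comp j₁ (FreeAlgebra.ι _ i)) (q.comp j₂ (FreeAlgebra.ι _ k)) := by
      intro i k
      have h := (hq _).2 (TwoSidedIdeal.subset_span (Finset.mem_coe.2 (Finset.mem_union_right _
        (Finset.mem_image_of_mem _ (Finset.mem_univ (i, k))) :
          j₁ (FreeAlgebra.ι _ i) * j₂ (FreeAlgebra.ι _ k) -
            j₂ (FreeAlgebra.ι _ k) * j₁ (FreeAlgebra.ι _ i) ∈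
              R₁.image j₁ ∪ R₂.image j₂ ∪ comms)))
      rw [map_sub, map_mul, map_mul, sub_eq_zero] at h
      exact h
    have hcomm : ∀ a b, Commute (g₁ a) (g₂ b) := by
      intro a b
      obtain ⟨x, rfl⟩ := hs₁ a
      obtain ⟨y, rfl⟩ := hs₂ b
      rw [hg₁, hg₂]
      exact commute_of_gens _ _ hgen x y
    have hfac : (Algebra.TensorProduct.lift g₁ g₂ hcomm).comp π = q := by
      refine FreeAlgebra.hom_ext (funext fun i => ?_)
      induction i using Fin.addCases with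
      | left i => simp [π, hg₁, j₁]
      | right i => simp [π, hg₂, j₂, -Fin.natAdd_eq_addNat]
    refine (hq z).1 ?_
    rw [← hfac, AlgHom.comp_apply, hz, map_zero]

variable {B : Type} [Ring B] [Algebra (ZMod 2) B]

/-- The second factor seen through a functional on the first. -/
noncomputable def lowerBy (μ : A →ₗ[ZMod 2] ZMod 2) : A ⊗[ZMod 2] B →ₗ[ZMod 2] B :=
  (TensorProduct.lid (ZMod 2) B).toLinearMap ∘ₗ μ.rTensor B

@[simp] lemma lowerBy_tmul (μ : A →ₗ[ZMod 2] ZMod 2) (a : A) (b : B) :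
    lowerBy μ (a ⊗ₜ b) = μ a • b := by
  simp [lowerBy]

lemma exists_functional {a : A} (ha : a ≠ 0) : ∃ φ : A →ₗ[ZMod 2] ZMod 2, φ a = 1 := by
  obtain ⟨g, hg⟩ := (LinearMap.toSpanSingleton (ZMod 2) A a).exists_leftInverse_of_injective
    (LinearMap.ker_toSpanSingleton _ ha)
  exact ⟨g, by simpa using LinearMap.congr_fun hg 1⟩

lemma zmod_two (c : ZMod 2) : c = 0 ∨ c = 1 := by revert c; decide

lemma corner_tensor {e : A} {p : B} (hA : ∀ a, e * a * e = 0 ∨ e * a * e = e)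
    (hB : ∀ b, p * b * p = 0 ∨ p * b * p = p) (z : A ⊗[ZMod 2] B) :
    e ⊗ₜ p * z * e ⊗ₜ p = 0 ∨ e ⊗ₜ p * z * e ⊗ₜ p = e ⊗ₜ p := by
  induction z with
  | zero => simp
  | tmul a b =>
    rw [tmul_mul_tmul, tmul_mul_tmul]
    rcases hA a with h | h <;> rcases hB b with h' | h' <;> simp [h, h']
  | add u v hu hv =>
    rw [mul_add, add_mul]
    have h2 : e ⊗ₜ[ZMod 2] p + e ⊗ₜ p = 0 := by
      rw [← two_smul (ZMod 2) (e ⊗ₜ[ZMod 2] p), show (2 : ZMod 2) = 0 from rfl, zero_smul]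
    rcases hu with h | h <;> rcases hv with h' | h' <;> simp [h, h', h2]

lemma sep_tensor {e : A} {p : B} (he : e ≠ 0) (hp : p ≠ 0) (heA : e * e = e)
    (hcA : ∀ a, e * a * e = 0 ∨ e * a * e = e) (hsA : ∀ a, a ≠ 0 → ∃ r s, e * r * a * s * e ≠ 0)
    (hcB : ∀ b, p * b * p = 0 ∨ p * b * p = p) (hsB : ∀ b, b ≠ 0 → ∃ r s, p * r * b * s * p ≠ 0)
    (z : A ⊗[ZMod 2] B) (hz : z ≠ 0) :
    ∃ r s, e ⊗ₜ p * r * z * s * e ⊗ₜ p ≠ 0 := by
  classical
  let ℬ := Module.Basis.ofVectorSpace (ZMod 2) B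
  obtain ⟨i, hi⟩ : ∃ i, equivFinsuppOfBasisRight ℬ z i ≠ 0 := by
    by_contra hc
    push Not at hc
    exact hz ((equivFinsuppOfBasisRight ℬ).map_eq_zero_iff.1 (Finsupp.ext hc))
  obtain ⟨r, s, hrs⟩ := hsA _ hi
  obtain ⟨φ, hφ⟩ := exists_functional he
  let μ : A →ₗ[ZMod 2] ZMod 2 :=
    φ ∘ₗ LinearMap.mulRight (ZMod 2) e ∘ₗ LinearMap.mulRight (ZMod 2) s ∘ₗ
      LinearMap.mulLeft (ZMod 2) (e * r)
  have hμ : ∀ a, e * r * a * s * e = μ a • e := fun a => by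
    have hμa : μ a = φ (e * r * a * s * e) := rfl
    rcases hcA (r * a * s) with h | h <;> simp only [← mul_assoc] at h
    · simp [hμa, h]
    · simp [hμa, h, hφ]
  have hμi : μ (equivFinsuppOfBasisRight ℬ z i) = 1 := by
    rcases zmod_two (μ (equivFinsuppOfBasisRight ℬ z i)) with h | h
    · exact absurd (by rw [hμ, h, zero_smul]) hrs
    · exact h
  have hcoord : ∀ w : A ⊗[ZMod 2] B,
      ℬ.repr (lowerBy μ w) i = μ (equivFinsuppOfBasisRight ℬ w i) := by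
    intro w
    induction w with
    | zero => simp
    | tmul a b => simp [equivFinsuppOfBasisRight_apply_tmul_apply, mul_comm]
    | add u v hu hv => simp only [map_add, Finsupp.add_apply, hu, hv]
  have hb : lowerBy μ z ≠ 0 := fun h => by
    have h' := hcoord z
    rw [h, hμi, map_zero, Finsupp.zero_apply] at h'
    exact zero_ne_one h'
  obtain ⟨r', s', hrs'⟩ := hsB _ hb
  refine ⟨r ⊗ₜ r', s ⊗ₜ s', ?_⟩
  have key : ∀ w : A ⊗[ZMod 2] B,
      e ⊗ₜ p * r ⊗ₜ r' * w * s ⊗ₜ s' * e ⊗ₜ p = e ⊗ₜ (p * r' * lowerBy μ w * s' * p) := by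
    intro w
    induction w with
    | zero => simp
    | tmul a b =>
      simp only [tmul_mul_tmul, hμ, lowerBy_tmul, mul_smul_comm, smul_mul_assoc, tmul_smul,
        smul_tmul']
    | add u v hu hv => simp only [map_add, mul_add, add_mul, tmul_add, hu, hv]
  rw [key]
  have hpp : p * r' * lowerBy μ z * s' * p = p := by
    rcases hcB (r' * lowerBy μ z * s') with h | h <;> simp only [← mul_assoc] at h
    · exact absurd h hrs'
    · exact h
  rw [hpp]
  intro h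
  have h' := congrArg (lowerBy φ) h
  rw [lowerBy_tmul, hφ, one_smul, map_zero] at h'
  exact hp h'

theorem tensorGoal : TensorGoal := by
  intro C
  have hne : C.e ⊗ₜ[ZMod 2] B.pt ≠ 0 := fun h => by
    obtain ⟨φ, hφ⟩ := exists_functional C.e_ne
    have h' := congrArg (lowerBy φ) h
    rw [lowerBy_tmul, hφ, one_smul, map_zero] at h'
    exact B.pt_ne_zero h'
  have hpush : ∀ a b : Bool, ((1 : C.A) ⊗ₜ[ZMod 2] B.pop a) * ((1 : C.A) ⊗ₜ B.push b) =
      if a = b then 1 else 0 := fun a b => by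
    rw [tmul_mul_tmul, one_mul, B.pop_push]
    split <;> simp [Algebra.TensorProduct.one_def]
  let sw : C.A ⊗[ZMod 2] B.Alg →ₐ[ZMod 2] C.A ⊗[ZMod 2] B.Alg :=
    Algebra.TensorProduct.map (AlgHom.id _ _) B.swMap
  let S : Seed := {
    A := C.A ⊗[ZMod 2] B.Alg
    fp := isFP_tensor C.fp B.fp
    e := C.e ⊗ₜ B.pt
    idem := by rw [tmul_mul_tmul, C.idem, B.pt_mul_pt]
    e_ne := hne
    corner := corner_tensor C.corner B.pt_corner
    sep := sep_tensor C.e_ne B.pt_ne_zero C.idem C.corner C.sep B.pt_corner B.pt_sep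
    sw := sw
    s₀ := 1 ⊗ₜ B.push false
    s₁ := 1 ⊗ₜ B.push true
    t₀ := 1 ⊗ₜ B.pop false
    t₁ := 1 ⊗ₜ B.pop true
    t₀_s₀ := by simpa using hpush false false
    t₁_s₁ := by simpa using hpush true true
    t₀_s₁ := by simpa using hpush false true
    t₁_s₀ := by simpa using hpush true false
    sum_st := by
      rw [tmul_mul_tmul, tmul_mul_tmul, one_mul, ← tmul_add, B.sum_push_pop]
      rfl
    sw_eq := fun z => by
      induction z with
      | zero => simp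
      | tmul a b =>
        simp only [sw, Algebra.TensorProduct.map_tmul, AlgHom.id_apply, tmul_mul_tmul, one_mul,
          mul_one, ← tmul_add]
        exact congrArg (a ⊗ₜ ·) (B.map_eqs b).2
      | add u v hu hv =>
        rw [map_add]
        conv_lhs => rw [hu, hv]
        simp only [mul_add, add_mul]
        abel }
  refine ⟨S, (includeLeft : C.A →ₐ[ZMod 2] C.A ⊗[ZMod 2] B.Alg), ?_⟩
  refine (injective_iff_map_eq_zero _).2 fun a ha => ?_
  by_contra hne'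
  obtain ⟨φ, hφ⟩ := exists_functional hne'
  have h' : lowerBy φ (a ⊗ₜ[ZMod 2] (1 : B.Alg)) = 0 := by
    rw [show a ⊗ₜ[ZMod 2] (1 : B.Alg) = 0 from ha, map_zero]
  rw [lowerBy_tmul, hφ, one_smul] at h'
  exact B.pt_ne_zero (by rw [← mul_one B.pt, h', mul_zero])

end Vale.Agent.P193.Bh.Alg
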