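import Mathlib
import Vale.Agent.P193.Bh.Alg.CoreFaith
import Vale.Agent.P193.Bh.Alg.Main
import Vale.Agent.P193.Bh.Alg.Tensor

/-!
# P193: the algebra half

Every finitely generated group with decidable word problem sits among the units of a seed.
-/

namespace Vale.Agent.P193.Bh.Alg

theorem coreGoal : CoreGoal :=
  coreGoal_of_coreFaith fun _ _ _ _ _ _ s b a ha h => core_faith s b a ha h

theorem algebraHalf : AlgebraHalf :=
  algebraHalf_of_goals coreGoal tensorGoal

end Vale.Agent.P193.Bh.Alg
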