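import Vale.Agent.P193.Bh.Alg.Model

/-!
# P193 algebra half: monomials in the model

A monomial acts on each copy of the configurations as the partly defined map that replaces the matched
top parts of all stacks; this map is injective on its domain.
-/

namespace Vale.Agent.P193.Bh.Alg

open Decider

set_option linter.unusedSectionVars false

variable {Ltr : Type} [Fintype Ltr] [DecidableEq Ltr] {D : Decider Ltr} {G : Type} [Group G]

/-! ### Linear maps of partly defined maps -/

lemma End.ext_single {f g : Module.End (ZMod 2) (Vec D G)}
    (h : ∀ v, f (Finsupp.single v 1) = g (Finsupp.single v 1)) : f = g := by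
  apply Finsupp.lhom_ext
  intro a b
  rw [show Finsupp.single a b = b • Finsupp.single a (1 : ZMod 2) by simp]
  simp only [map_smul, h a]

lemma lin_mul (f g : Bas D G → Option (Bas D G)) :
    lin f * lin g = lin fun v => (g v).bind f := by
  refine End.ext_single fun v => ?_
  rw [Module.End.mul_apply, lin_single, lin_single]
  cases g v <;> simp [lin_single]

lemma lin_none : lin (fun _ : Bas D G => none) = 0 := by
  refine End.ext_single fun v => ?_
  simp [lin_single]

lemma lin_congr {f g : Bas D G → Option (Bas D G)} (h : ∀ v, f v = g v) : lin f = lin g := by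
  rw [funext h]

lemma lin_some : lin (fun v : Bas D G => some v) = 1 := by
  refine End.ext_single fun v => ?_
  simp [lin_single]

/-! ### Configurations as tuples of stacks -/

/-- The contents of a stack, the history included. -/
def getS (c : D.Cfg) : ∀ i : SI D, List (Al D i)
  | none => c.hist
  | some j => c.stk j

/-- Replacing one stack. -/
def setS (c : D.Cfg) : ∀ i : SI D, List (Al D i) → D.Cfg
  | none, l => ⟨c.st, c.stk, l⟩
  | some j, l => ⟨c.st, Function.update c.stk j l, c.hist⟩

/-- The configuration of a state and a tuple of stacks. -/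
def ofStacks (q : D.St) (l : ∀ i : SI D, List (Al D i)) : D.Cfg :=
  ⟨q, fun j => l (some j), l none⟩

lemma cfg_ext {c c' : D.Cfg} (h : c.st = c'.st) (hs : ∀ i, getS c i = getS c' i) : c = c' := by
  obtain ⟨q, S, H⟩ := c
  obtain ⟨q', S', H'⟩ := c'
  simp only [Cfg.mk.injEq]
  exact ⟨h, funext fun j => hs (some j), hs none⟩

lemma getS_ofStacks (q : D.St) (l : ∀ i : SI D, List (Al D i)) (i : SI D) :
    getS (ofStacks q l) i = l i := by
  cases i <;> rfl

lemma setS_st (c : D.Cfg) (i : SI D) (l : List (Al D i)) : (setS c i l).st = c.st := by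
  cases i <;> rfl

lemma getS_setS_self (c : D.Cfg) (i : SI D) (l : List (Al D i)) : getS (setS c i l) i = l := by
  cases i
  · rfl
  · exact Function.update_self ..

lemma getS_setS_ne (c : D.Cfg) {i j : SI D} (h : j ≠ i) (l : List (Al D i)) :
    getS (setS c i l) j = getS c j := by
  cases i <;> cases j
  · exact absurd rfl h
  · rfl
  · rfl
  · exact Function.update_of_ne (fun e => h (congrArg some e)) _ _

lemma setS_setS (c : D.Cfg) (i : SI D) (l l' : List (Al D i)) :
    setS (setS c i l) i l' = setS c i l' := by
  cases i
  · rfl
  · simp only [setS, Cfg.mk.injEq, and_true, true_and]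
    exact Function.update_idem ..

lemma setS_self (c : D.Cfg) (i : SI D) : setS c i (getS c i) = c := by
  cases i <;> simp [setS, getS]

lemma setS_comm (c : D.Cfg) {i j : SI D} (h : j ≠ i) (l : List (Al D i)) (l' : List (Al D j)) :
    setS (setS c i l) j l' = setS (setS c j l') i l := by
  cases i <;> cases j
  · exact absurd rfl h
  · rfl
  · rfl
  · simp only [setS, Cfg.mk.injEq, and_true, true_and]
    exact Function.update_comm (fun e => h (congrArg some e.symm)) _ _ _

lemma stkMap_eq (i : SI D) (f : List (Al D i) → Option (List (Al D i))) (c : D.Cfg) :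
    stkMap i f c = (f (getS c i)).map (setS c i) := by
  cases i <;> rfl

/-! ### Maps on one copy -/

/-- The linear map of a partly defined map of configurations on one copy. -/
noncomputable def onC (b : Bool) (f : D.Cfg → Option D.Cfg) : Module.End (ZMod 2) (Vec D G) :=
  lin (onCopy b f)

lemma onC_mul (b : Bool) (f g : D.Cfg → Option D.Cfg) :
    (onC b f : Module.End (ZMod 2) (Vec D G)) * onC b g = onC b fun c => (g c).bind f := by
  rw [onC, onC, onC, lin_mul]
  refine lin_congr fun v => ?_
  cases v <;> cases b <;> simp [onCopy, Option.bind_map, Option.map_bind, Function.comp_def]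

lemma onC_congr (b : Bool) {f g : D.Cfg → Option D.Cfg} (h : ∀ c, f c = g c) :
    (onC b f : Module.End (ZMod 2) (Vec D G)) = onC b g := by rw [funext h]

lemma onC_none (b : Bool) : (onC b fun _ : D.Cfg => none : Module.End (ZMod 2) (Vec D G)) = 0 := by
  rw [onC, ← lin_none]
  exact lin_congr fun v => by cases v <;> cases b <;> simp [onCopy]

variable (s : Setting D G)

/-- The generators in the model. -/
noncomputable def modelGen : Gen D → Module.End (ZMod 2) (Vec D G) := fun x => lin (act s x)

lemma opsOf_one (b : Bool) : (opsOf D (modelGen s) b).one = onC b some := by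
  refine lin_congr fun v => ?_
  cases v <;> cases b <;> simp [act, onCopy]

lemma opsOf_push (b : Bool) (i : SI D) (x : Al D i) :
    (opsOf D (modelGen s) b).push i x = onC b (pushC i x) :=
  lin_congr fun v => by cases v <;> cases b <;> rfl

lemma opsOf_pop (b : Bool) (i : SI D) (x : Al D i) :
    (opsOf D (modelGen s) b).pop i x = onC b (popC i x) :=
  lin_congr fun v => by cases v <;> cases b <;> rfl

lemma opsOf_bot (b : Bool) (i : SI D) :
    (opsOf D (modelGen s) b).bot i = onC b (botC i) :=
  lin_congr fun v => by cases v <;> cases b <;> rfl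

lemma opsOf_st (b : Bool) (q q' : D.St) :
    (opsOf D (modelGen s) b).st q q' = onC b (stC q q') :=
  lin_congr fun v => by cases v <;> cases b <;> rfl

/-! ### Monomials -/

/-- A block matches a stack. -/
def BlkMatch {α : Type} (b : Blk α) (l : List α) : Prop :=
  Decider.Part.Match ((b.src, b.exact) : Decider.Part α) l

/-- The stack after a block. -/
def blkApply {α : Type} (b : Blk α) (l : List α) : List α := b.tgt ++ l.drop b.src.length

open Classical in
/-- The partly defined map of a monomial. -/
noncomputable def monoC (q' q : D.St) (bl : ∀ i : SI D, Blk (Al D i)) (c : D.Cfg) :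
    Option D.Cfg :=
  if c.st = q ∧ ∀ i, BlkMatch (bl i) (getS c i) then
    some (ofStacks q' fun i => blkApply (bl i) (getS c i))
  else none

lemma monoC_eq_some_iff {q' q : D.St} {bl : ∀ i : SI D, Blk (Al D i)} {c d : D.Cfg} :
    monoC q' q bl c = some d ↔
      c.st = q ∧ (∀ i, BlkMatch (bl i) (getS c i)) ∧ d.st = q' ∧
        ∀ i, getS d i = blkApply (bl i) (getS c i) := by
  classical
  unfold monoC
  constructor
  · intro h
    split at h
    · next hc =>
      cases h
      exact ⟨hc.1, hc.2, rfl, fun i => getS_ofStacks _ _ i⟩
    · cases h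
  · rintro ⟨h1, h2, h3, h4⟩
    rw [if_pos ⟨h1, h2⟩]
    refine congrArg some (cfg_ext h3.symm fun i => ?_)
    rw [getS_ofStacks, h4]

lemma blkApply_inj {α : Type} {b : Blk α} {l l' : List α} (h : BlkMatch b l) (h' : BlkMatch b l')
    (e : blkApply b l = blkApply b l') : l = l' := by
  unfold BlkMatch Decider.Part.Match at h h'
  unfold blkApply at e
  rw [List.append_cancel_left_eq] at e
  obtain ⟨v, u, x⟩ := b
  cases x
  · simp only [Bool.false_eq_true, if_false] at h h'
    obtain ⟨t, rfl⟩ := h
    obtain ⟨t', rfl⟩ := h'
    simpa using e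
  · simp only [if_true] at h h'
    rw [h, h']

/-- A monomial is injective on its domain. -/
theorem monoC_inj {q' q : D.St} {bl : ∀ i : SI D, Blk (Al D i)} {c c' d : D.Cfg}
    (h : monoC q' q bl c = some d) (h' : monoC q' q bl c' = some d) : c = c' := by
  obtain ⟨h1, h2, -, h4⟩ := monoC_eq_some_iff.1 h
  obtain ⟨h1', h2', -, h4'⟩ := monoC_eq_some_iff.1 h'
  exact cfg_ext (h1.trans h1'.symm) fun i =>
    blkApply_inj (h2 i) (h2' i) ((h4 i).symm.trans (h4' i))

lemma pushW_eq (b : Bool) (i : SI D) : ∀ u : List (Al D i),
    (opsOf D (modelGen s) b).pushW i u = onC b fun c => some (setS c i (u ++ getS c i))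
  | [] => by
    show (opsOf D (modelGen s) b).one = _
    rw [opsOf_one]
    exact onC_congr b fun c => by simp [setS_self]
  | x :: u => by
    rw [Ops.pushW_cons, pushW_eq b i u, opsOf_push, onC_mul]
    exact onC_congr b fun c => by
      simp [pushC, stkMap_eq, getS_setS_self, setS_setS]

open Classical in
lemma popW_eq (b : Bool) (i : SI D) (v : List (Al D i)) :
    (opsOf D (modelGen s) b).popW i v =
      onC b fun c => if v <+: getS c i then some (setS c i ((getS c i).drop v.length)) else none := by
  induction v using List.reverseRecOn with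
  | nil =>
    show (opsOf D (modelGen s) b).one = _
    rw [opsOf_one]
    exact onC_congr b fun c => by simp [setS_self]
  | append_singleton v x ih =>
    rw [Ops.popW_concat, ih, opsOf_pop, onC_mul]
    refine onC_congr b fun c => ?_
    by_cases hv : v <+: getS c i
    · obtain ⟨t, ht⟩ := hv
      rw [if_pos ⟨t, ht⟩, ← ht]
      cases t with
      | nil =>
        rw [if_neg fun h : v ++ [x] <+: v ++ [] => by simpa using h.length_le]
        simp [popC, stkMap_eq, getS_setS_self]
      | cons y t =>
        simp only [popC, stkMap_eq, Option.bind_some, getS_setS_self, List.drop_left',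
          List.prefix_append_right_inj, List.cons_prefix_cons, List.nil_prefix, and_true]
        by_cases hxy : y = x
        · subst hxy
          simp [setS_setS]
        · simp [hxy, Ne.symm hxy]
    · rw [if_neg hv, if_neg fun h => hv ((List.prefix_append v [x]).trans h)]
      rfl

open Classical in
lemma blk_eq (b : Bool) (i : SI D) (bl : Blk (Al D i)) :
    (opsOf D (modelGen s) b).blk i bl = onC b fun c =>
      if BlkMatch bl (getS c i) then some (setS c i (blkApply bl (getS c i))) else none := by
  obtain ⟨v, u, x⟩ := bl
  rw [Ops.blk, pushW_eq, popW_eq]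
  cases x
  · simp only [Ops.mid, Bool.false_eq_true, if_false, opsOf_one, onC_mul]
    refine onC_congr b fun c => ?_
    by_cases hv : v <+: getS c i
    · rw [if_pos hv, if_pos (show BlkMatch (⟨v, u, false⟩ : Blk (Al D i)) (getS c i) from hv)]
      simp [blkApply, getS_setS_self, setS_setS]
    · rw [if_neg hv, if_neg (show ¬ BlkMatch (⟨v, u, false⟩ : Blk (Al D i)) (getS c i) from hv)]
      rfl
  · simp only [Ops.mid, if_true, opsOf_bot, onC_mul]
    refine onC_congr b fun c => ?_
    by_cases hv : v <+: getS c i
    · rw [if_pos hv]
      obtain ⟨t, ht⟩ := hv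
      rw [← ht]
      cases t with
      | nil =>
        rw [if_pos (show BlkMatch (⟨v, u, true⟩ : Blk (Al D i)) (v ++ []) by
          simp [BlkMatch, Decider.Part.Match])]
        simp [botC, stkMap_eq, blkApply, getS_setS_self, setS_setS]
      | cons y t =>
        rw [if_neg (show ¬ BlkMatch (⟨v, u, true⟩ : Blk (Al D i)) (v ++ y :: t) by
          simp [BlkMatch, Decider.Part.Match])]
        simp [botC, stkMap_eq, getS_setS_self]
    · rw [if_neg hv, if_neg]
      · rfl
      · intro h
        simp [BlkMatch, Decider.Part.Match] at h
        exact hv (by rw [h])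

open Classical in
lemma blkProd_eq (b : Bool) (bl : ∀ i : SI D, Blk (Al D i)) : ∀ l : List (SI D), l.Nodup →
    (opsOf D (modelGen s) b).blkProd l bl = onC b fun c =>
      if ∀ i ∈ l, BlkMatch (bl i) (getS c i) then
        some (ofStacks c.st fun i => if i ∈ l then blkApply (bl i) (getS c i) else getS c i)
      else none
  | [], _ => by
    show (opsOf D (modelGen s) b).one = _
    rw [opsOf_one]
    refine onC_congr b fun c => ?_
    simp only [List.not_mem_nil, false_implies, implies_true, if_true, if_false]
    rfl
  | j :: l, hl => by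
    have hl' := List.nodup_cons.1 hl
    have e : (opsOf D (modelGen s) b).blkProd (j :: l) bl =
        (opsOf D (modelGen s) b).blk j (bl j) * (opsOf D (modelGen s) b).blkProd l bl := rfl
    rw [e, blk_eq, blkProd_eq b bl l hl'.2, onC_mul]
    refine onC_congr b fun c => ?_
    by_cases hc : ∀ i ∈ l, BlkMatch (bl i) (getS c i)
    · rw [if_pos hc]
      simp only [Option.bind_some, getS_ofStacks, if_neg hl'.1]
      by_cases hj : BlkMatch (bl j) (getS c j)
      · rw [if_pos hj, if_pos fun i hi => by
          rcases List.mem_cons.1 hi with rfl | hi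
          exacts [hj, hc i hi]]
        refine congrArg some (cfg_ext ?_ fun i => ?_)
        · rw [setS_st]; rfl
        · by_cases hi : i = j
          · subst hi; simp [getS_setS_self, getS_ofStacks]
          · simp [getS_setS_ne _ hi, getS_ofStacks, hi]
      · rw [if_neg hj, if_neg fun h => hj (h j List.mem_cons_self)]
    · rw [if_neg hc, if_neg fun h => hc fun i hi => h i (List.mem_cons_of_mem _ hi)]
      rfl

/-- A monomial in the model replaces the matched parts. -/
theorem mono_eq (b : Bool) (q' q : D.St) (bl : ∀ i : SI D, Blk (Al D i)) :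
    (opsOf D (modelGen s) b).mono q' q bl = onC b (monoC q' q bl) := by
  classical
  rw [Ops.mono, blkProd_eq s b bl _ (Finset.nodup_toList _), opsOf_st, onC_mul]
  refine onC_congr b fun c => ?_
  simp only [Finset.mem_toList, Finset.mem_univ, forall_const, if_true, monoC]
  by_cases hc : ∀ i, BlkMatch (bl i) (getS c i)
  · rw [if_pos hc]
    simp only [Option.bind_some, stC]
    by_cases hq : c.st = q
    · rw [if_pos (show (ofStacks c.st fun i => blkApply (bl i) (getS c i)).st = q from hq),
        if_pos ⟨hq, hc⟩]
      rfl
    · rw [if_neg (show ¬ (ofStacks c.st fun i => blkApply (bl i) (getS c i)).st = q from hq),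
        if_neg fun h => hq h.1]
  · rw [if_neg hc, if_neg fun h => hc h.2]
    rfl

end Vale.Agent.P193.Bh.Alg
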